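import Vale.Agent.P032.T.Defs

/-!
P032 transfer, block A1 part a: sections, the operator `Q`.
-/

open MeasureTheory Set Filter Topology
open scoped ENNReal

namespace Vale.Agent.P032.T

/-- the data of block A1 -/
structure Tow (Γ : Type) [AddCommGroup Γ] (q : ℕ) [NeZero q] where
  a : Γ →+ Γ
  c : Γ →+ ZMod q
  e₀ : Γ
  inj : Function.Injective a
  ce : c e₀ = 1
  ker : ∀ y, c y = 0 ↔ ∃ y', a y' = y

namespace Tow

variable {Γ : Type} [AddCommGroup Γ] {q : ℕ} [NeZero q] (T : Tow Γ q)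

/-- characters trivial on `aΓ` -/
noncomputable def kap (j : ZMod q) : Γ → Circle := fun y => ZMod.toCircle (j * T.c y)

theorem kap_zero : T.kap 0 = 1 := by
  ext y; simp [kap]

theorem kap_add (i j : ZMod q) : T.kap (i + j) = T.kap i * T.kap j := by
  ext y
  simp [kap, add_mul, AddChar.map_add_eq_mul]

theorem kap_char (j : ZMod q) : IsChar (T.kap j) := by
  intro x y
  simp [kap, mul_add, AddChar.map_add_eq_mul]

theorem kap_a (j : ZMod q) (y : Γ) : T.kap j (T.a y) = 1 := by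
  have : T.c (T.a y) = 0 := (T.ker _).2 ⟨y, rfl⟩
  simp [kap, this]

/-- division with remainder -/
theorem exists_dv (y : Γ) : ∃ y', T.a y' = y - (T.c y).val • T.e₀ := by
  rw [← T.ker, map_sub, map_nsmul, T.ce]
  simp

/-- quotient -/
noncomputable def dv (y : Γ) : Γ := (T.exists_dv y).choose

theorem a_dv (y : Γ) : T.a (T.dv y) = y - (T.c y).val • T.e₀ := (T.exists_dv y).choose_spec

theorem dv_a (y : Γ) : T.dv (T.a y) = y := by
  apply T.inj
  rw [T.a_dv]
  have : T.c (T.a y) = 0 := (T.ker _).2 ⟨y, rfl⟩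
  rw [this]; simp

theorem exists_b : ∃ b, T.a b = q • T.e₀ := by
  rw [← T.ker, map_nsmul, T.ce]; simp

/-- `a⁻¹ (q e₀)` -/
noncomputable def b : Γ := T.exists_b.choose

theorem a_b : T.a T.b = q • T.e₀ := T.exists_b.choose_spec

/-- a `q`-th root of `ψ b` -/
noncomputable def zt (ψ : Γ → Circle) : Circle := Circle.exp (Complex.arg (ψ T.b) / q)

theorem zt_pow (ψ : Γ → Circle) : T.zt ψ ^ q = ψ T.b := by
  unfold zt
  have hq : (q : ℝ) ≠ 0 := Nat.cast_ne_zero.2 (NeZero.ne q)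
  rw [← Circle.exp_natCast_mul]
  rw [mul_div_cancel₀ _ hq]
  exact Circle.exp_arg _

/-- measurable section of `ψ ↦ ψ ∘ a` -/
noncomputable def s (ψ : Γ → Circle) : Γ → Circle := fun y => T.zt ψ ^ (T.c y).val * ψ (T.dv y)

theorem s_a (ψ : Γ → Circle) (y : Γ) : T.s ψ (T.a y) = ψ y := by
  unfold s
  have : T.c (T.a y) = 0 := (T.ker _).2 ⟨y, rfl⟩
  rw [this, T.dv_a]; simp

/-- composition with `a` -/
def S (χ : Γ → Circle) : Γ → Circle := fun y => χ (T.a y)

theorem S_s (ψ : Γ → Circle) (j : ZMod q) : T.S (T.s ψ * T.kap j) = ψ := by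
  ext y
  simp [S, T.s_a, T.kap_a]

theorem measurable_S : Measurable T.S := by
  apply measurable_pi_lambda
  intro y
  exact measurable_pi_apply _

theorem measurable_zt : Measurable T.zt := by
  unfold zt
  have h1 : Continuous (fun z : Circle => (z : ℂ)) := continuous_subtype_val
  have h2 : Continuous (fun x : ℝ => Circle.exp x) := Circle.exp.continuous
  exact h2.measurable.comp ((Complex.measurable_arg.comp
    (h1.measurable.comp (measurable_pi_apply _))).div_const _)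

theorem measurable_s : Measurable T.s := by
  apply measurable_pi_lambda
  intro y
  unfold s
  exact (T.measurable_zt.pow_const _).mul (measurable_pi_apply _)

theorem pow_char {χ : Γ → Circle} (h : IsChar χ) (n : ℕ) (y : Γ) : χ (n • y) = χ y ^ n := by
  have h0 : χ 0 = 1 := by
    have := h 0 0
    rw [add_zero] at this
    exact (mul_eq_left.1 this.symm)
  induction n with
  | zero => simp [h0]
  | succ n ih => rw [succ_nsmul, h, ih, pow_succ]

theorem char_zero {χ : Γ → Circle} (h : IsChar χ) : χ 0 = 1 := by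
  have := h 0 0
  rw [add_zero] at this
  exact (mul_eq_left.1 this.symm)

theorem char_neg {χ : Γ → Circle} (h : IsChar χ) (y : Γ) : χ (-y) = (χ y)⁻¹ := by
  have := h y (-y)
  rw [add_neg_cancel, char_zero h] at this
  exact (inv_eq_of_mul_eq_one_right this.symm).symm

theorem char_sub {χ : Γ → Circle} (h : IsChar χ) (x y : Γ) : χ (x - y) = χ x * (χ y)⁻¹ := by
  rw [sub_eq_add_neg, h, char_neg h]

theorem exists_root {r : Circle} (hr : r ^ q = 1) : ∃ j : ZMod q, r = ZMod.toCircle j := by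
  have hq : (q : ℝ) ≠ 0 := Nat.cast_ne_zero.2 (NeZero.ne q)
  have h1 : Circle.exp (q * Complex.arg r) = Circle.exp 0 := by
    rw [Circle.exp_natCast_mul, Circle.exp_arg, hr]; simp
  obtain ⟨m, hm⟩ := Circle.exp_eq_exp.1 h1
  refine ⟨(m : ZMod q), ?_⟩
  ext
  rw [ZMod.toCircle_intCast]
  rw [← Circle.exp_arg r, Circle.coe_exp]
  congr 1
  have h2 : Complex.arg r = m * (2 * Real.pi) / q := by
    field_simp
    linarith
  rw [h2]
  push_cast
  ring

/-- every character is a translate of the section point -/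
theorem s_S {χ : Γ → Circle} (h : IsChar χ) : ∃ j : ZMod q, T.s (T.S χ) = χ * T.kap j := by
  have hr : (T.zt (T.S χ) * (χ T.e₀)⁻¹) ^ q = 1 := by
    rw [mul_pow, T.zt_pow]
    unfold S
    rw [T.a_b, pow_char h]
    simp
  obtain ⟨j, hj⟩ := exists_root hr
  refine ⟨j, ?_⟩
  funext y
  simp only [s, S, Pi.mul_apply, kap]
  rw [T.a_dv, char_sub h, pow_char h]
  have h3 : T.zt (T.S χ) = χ T.e₀ * ZMod.toCircle j := by
    rw [← hj]; simp
  have h4 : (ZMod.toCircle j) ^ (T.c y).val = ZMod.toCircle (j * T.c y) := by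
    rw [← AddChar.map_nsmul_eq_pow, nsmul_eq_mul]
    congr 1
    rw [ZMod.natCast_val, ZMod.cast_id', id, mul_comm]
  rw [h3, mul_pow, h4]
  have h6 : ∀ A B C : Circle, A * B * (C * A⁻¹) = C * B := by
    intro A B C
    calc A * B * (C * A⁻¹) = (A * A⁻¹) * (C * B) := by
          rw [mul_assoc, mul_assoc, mul_comm C A⁻¹, ← mul_assoc B, mul_comm B A⁻¹, mul_assoc A⁻¹,
            mul_comm B C]
      _ = C * B := by simp
  exact h6 _ _ _

theorem s_char {ψ : Γ → Circle} (h : IsChar ψ) : IsChar (T.s ψ) := by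
  intro y₁ y₂
  obtain ⟨ε, hε⟩ : ∃ ε : ℕ, (T.c y₁).val + (T.c y₂).val = (T.c (y₁ + y₂)).val + q * ε := by
    refine ⟨((T.c y₁).val + (T.c y₂).val) / q, ?_⟩
    rw [map_add, ZMod.val_add]
    exact (Nat.mod_add_div _ _).symm
  have hdv : T.dv (y₁ + y₂) = T.dv y₁ + T.dv y₂ + ε • T.b := by
    apply T.inj
    rw [map_add, map_add, map_nsmul, T.a_dv, T.a_dv, T.a_dv, T.a_b]
    have : ((T.c y₁).val + (T.c y₂).val) • T.e₀ = ((T.c (y₁ + y₂)).val + q * ε) • T.e₀ := by
      rw [hε]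
    rw [add_nsmul, add_nsmul, mul_comm q ε, mul_nsmul'] at this
    have h7 : (T.c y₁).val • T.e₀ + (T.c y₂).val • T.e₀ - (T.c (y₁ + y₂)).val • T.e₀ =
        ε • q • T.e₀ := by
      rw [this]; abel
    rw [← h7]; abel
  unfold s
  rw [hdv, h, h, pow_char h]
  have h8 : ψ T.b ^ ε = (T.zt ψ) ^ (q * ε) := by rw [pow_mul, T.zt_pow]
  rw [h8]
  have h9 : T.zt ψ ^ (T.c (y₁ + y₂)).val * T.zt ψ ^ (q * ε) =
      T.zt ψ ^ (T.c y₁).val * T.zt ψ ^ (T.c y₂).val := by
    rw [← pow_add, ← pow_add, hε]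
  calc T.zt ψ ^ (T.c (y₁ + y₂)).val * (ψ (T.dv y₁) * ψ (T.dv y₂) * T.zt ψ ^ (q * ε))
      = (T.zt ψ ^ (T.c (y₁ + y₂)).val * T.zt ψ ^ (q * ε)) * (ψ (T.dv y₁) * ψ (T.dv y₂)) := by
        rw [mul_comm (ψ (T.dv y₁) * ψ (T.dv y₂)), ← mul_assoc]
    _ = T.zt ψ ^ (T.c y₁).val * T.zt ψ ^ (T.c y₂).val * (ψ (T.dv y₁) * ψ (T.dv y₂)) := by rw [h9]
    _ = _ := by
        rw [mul_mul_mul_comm]

theorem mul_char {χ ψ : Γ → Circle} (h : IsChar χ) (h' : IsChar ψ) : IsChar (χ * ψ) := by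
  intro x y
  simp only [Pi.mul_apply]
  rw [h, h', mul_mul_mul_comm]

theorem S_char {χ : Γ → Circle} (h : IsChar χ) : IsChar (T.S χ) := by
  intro x y
  simp only [S]
  rw [map_add, h]

/-! ### the operator `Q` -/

/-- unweighted sum over the preimages -/
noncomputable def Q {E : Type*} [AddCommMonoid E] (h : (Γ → Circle) → E) : (Γ → Circle) → E :=
  fun ψ => ∑ j : ZMod q, h (T.s ψ * T.kap j)

theorem Q_S {E : Type*} [AddCommMonoid E] (h : (Γ → Circle) → E) {χ : Γ → Circle} (hχ : IsChar χ) :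
    T.Q h (T.S χ) = ∑ j : ZMod q, h (χ * T.kap j) := by
  obtain ⟨j₀, hj₀⟩ := T.s_S hχ
  unfold Q
  rw [hj₀]
  rw [← Equiv.sum_comp (Equiv.addLeft j₀) (fun j => h (χ * T.kap j))]
  refine Finset.sum_congr rfl fun j _ => ?_
  rw [Equiv.coe_addLeft, T.kap_add, mul_assoc]

theorem Q_mul_S (h k : (Γ → Circle) → ℝ≥0∞) (ψ : Γ → Circle) :
    T.Q (fun χ => k (T.S χ) * h χ) ψ = k ψ * T.Q h ψ := by
  unfold Q
  rw [Finset.mul_sum]
  refine Finset.sum_congr rfl fun j _ => ?_
  simp only [T.S_s]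

theorem measurable_mul_kap (j : ZMod q) : Measurable (fun χ : Γ → Circle => χ * T.kap j) := by
  apply measurable_pi_lambda
  intro y
  exact (measurable_pi_apply y).mul_const _

theorem measurable_Q {h : (Γ → Circle) → ℝ≥0∞} (hh : Measurable h) : Measurable (T.Q h) := by
  unfold Q
  refine Finset.measurable_sum _ fun j _ => ?_
  exact hh.comp ((T.measurable_mul_kap j).comp T.measurable_s)

theorem Q_mono {h k : (Γ → Circle) → ℝ≥0∞} (hle : ∀ χ, IsChar χ → h χ ≤ k χ) :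
    ∀ χ, IsChar χ → T.Q h χ ≤ T.Q k χ := by
  intro χ hχ
  unfold Q
  exact Finset.sum_le_sum fun j _ => hle _ (mul_char (T.s_char hχ) (T.kap_char j))

theorem Qn_mono (n : ℕ) : ∀ {h k : (Γ → Circle) → ℝ≥0∞}, (∀ χ, IsChar χ → h χ ≤ k χ) →
    ∀ χ, IsChar χ → T.Q^[n] h χ ≤ T.Q^[n] k χ := by
  induction n with
  | zero => intro h k hle; exact hle
  | succ n ih =>
    intro h k hle
    rw [Function.iterate_succ_apply, Function.iterate_succ_apply]
    exact ih (T.Q_mono hle)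

theorem measurable_Qn (n : ℕ) : ∀ {h : (Γ → Circle) → ℝ≥0∞}, Measurable h →
    Measurable (T.Q^[n] h) := by
  induction n with
  | zero => intro h hh; exact hh
  | succ n ih => intro h hh; rw [Function.iterate_succ_apply]; exact ih (T.measurable_Q hh)

theorem Q_add (h k : (Γ → Circle) → ℝ≥0∞) : T.Q (fun χ => h χ + k χ) = fun χ => T.Q h χ + T.Q k χ := by
  funext χ
  unfold Q
  rw [Finset.sum_add_distrib]

theorem Qn_add (n : ℕ) : ∀ (h k : (Γ → Circle) → ℝ≥0∞),
    T.Q^[n] (fun χ => h χ + k χ) = fun χ => T.Q^[n] h χ + T.Q^[n] k χ := by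
  induction n with
  | zero => intro h k; rfl
  | succ n ih =>
    intro h k
    rw [Function.iterate_succ_apply, Q_add, ih]
    rfl

theorem Q_const_mul (r : ℝ≥0∞) (h : (Γ → Circle) → ℝ≥0∞) :
    T.Q (fun χ => r * h χ) = fun χ => r * T.Q h χ := by
  funext χ
  unfold Q
  rw [Finset.mul_sum]

theorem Qn_const_mul (n : ℕ) (r : ℝ≥0∞) : ∀ (h : (Γ → Circle) → ℝ≥0∞),
    T.Q^[n] (fun χ => r * h χ) = fun χ => r * T.Q^[n] h χ := by
  induction n with
  | zero => intro h; rfl
  | succ n ih =>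
    intro h
    rw [Function.iterate_succ_apply, Q_const_mul, ih]
    rfl

/-- comparison between extended nonnegative and complex valued sums -/
theorem Qn_ofReal (n : ℕ) : ∀ {h : (Γ → Circle) → ℝ≥0∞} {g : (Γ → Circle) → ℂ},
    (∀ χ, IsChar χ → 0 ≤ (g χ).re ∧ h χ = ENNReal.ofReal (g χ).re) →
    ∀ χ, IsChar χ → 0 ≤ (T.Q^[n] g χ).re ∧ T.Q^[n] h χ = ENNReal.ofReal (T.Q^[n] g χ).re := by
  induction n with
  | zero => intro h g hh; exact hh
  | succ n ih =>
    intro h g hh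
    rw [Function.iterate_succ_apply, Function.iterate_succ_apply]
    apply ih
    intro χ hχ
    have hc : ∀ j : ZMod q, IsChar (T.s χ * T.kap j) := fun j =>
      mul_char (T.s_char hχ) (T.kap_char j)
    unfold Q
    rw [Complex.re_sum]
    refine ⟨Finset.sum_nonneg fun j _ => (hh _ (hc j)).1, ?_⟩
    rw [ENNReal.ofReal_sum_of_nonneg fun j _ => (hh _ (hc j)).1]
    exact Finset.sum_congr rfl fun j _ => (hh _ (hc j)).2

/-- evaluation at `y`, complex valued -/
noncomputable def ev (y : Γ) : (Γ → Circle) → ℂ := fun χ => (χ y : ℂ)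

theorem sum_kap (y : Γ) (hy : T.c y ≠ 0) : ∑ j : ZMod q, ((T.kap j y : Circle) : ℂ) = 0 := by
  classical
  have h1 : ((ZMod.toCircle : AddChar (ZMod q) Circle).toMonoidHom) = _ := rfl
  let ψ : AddChar (ZMod q) ℂ := ZMod.stdAddChar
  have hψ : ∀ j : ZMod q, ((ZMod.toCircle j : Circle) : ℂ) = ψ j := by
    intro j; rfl
  have h2 := AddChar.sum_mulShift (R' := ℂ) (ψ := ψ) (T.c y) (ZMod.isPrimitive_stdAddChar q)
  rw [if_neg hy] at h2
  simpa [kap, hψ] using h2

theorem Q_ev_of_ne (y : Γ) (hy : T.c y ≠ 0) : T.Q (ev y) = 0 := by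
  funext ψ
  unfold Q ev
  simp only [Pi.mul_apply, Circle.coe_mul]
  rw [← Finset.mul_sum, T.sum_kap y hy]
  simp

theorem Q_ev_a (y : Γ) : T.Q (ev (T.a y)) = fun χ => (q : ℂ) * ev y χ := by
  funext ψ
  unfold Q ev
  simp only [Pi.mul_apply, T.s_a, T.kap_a]
  simp

theorem Qc_const_mul (n : ℕ) (r : ℂ) : ∀ (h : (Γ → Circle) → ℂ),
    T.Q^[n] (fun χ => r * h χ) = fun χ => r * T.Q^[n] h χ := by
  induction n with
  | zero => intro h; rfl
  | succ n ih =>
    intro h
    rw [Function.iterate_succ_apply]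
    have : T.Q (fun χ => r * h χ) = fun χ => r * T.Q h χ := by
      funext χ; unfold Q; rw [Finset.mul_sum]
    rw [this, ih]
    rfl

theorem Qc_zero (n : ℕ) : T.Q^[n] (0 : (Γ → Circle) → ℂ) = 0 := by
  induction n with
  | zero => rfl
  | succ n ih =>
    rw [Function.iterate_succ_apply]
    have : T.Q (0 : (Γ → Circle) → ℂ) = 0 := by
      funext χ; simp [Q]
    rw [this, ih]

theorem Qn_ev_zero (n : ℕ) : T.Q^[n] (ev (0 : Γ)) = fun χ => ((q : ℂ) ^ n) * ev 0 χ := by
  induction n with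
  | zero => funext χ; simp
  | succ n ih =>
    rw [Function.iterate_succ_apply]
    have : T.Q (ev (0 : Γ)) = fun χ => (q : ℂ) * ev 0 χ := by
      have := T.Q_ev_a 0
      rwa [map_zero] at this
    rw [this, Qc_const_mul, ih]
    funext χ
    ring

theorem Qn_ev_of_ne (n : ℕ) : ∀ y : Γ, (∀ z, T.a^[n] z ≠ y) → T.Q^[n] (ev y) = 0 := by
  induction n with
  | zero => intro y h; exact absurd rfl (h y)
  | succ n ih =>
    intro y h
    rw [Function.iterate_succ_apply]
    by_cases hy : T.c y = 0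
    · obtain ⟨y', rfl⟩ := (T.ker y).1 hy
      rw [T.Q_ev_a, Qc_const_mul, ih y']
      · funext χ; simp
      · intro z hz
        apply h z
        rw [Function.iterate_succ_apply', hz]
    · rw [T.Q_ev_of_ne y hy, Qc_zero]

theorem Qc_sum (n : ℕ) {ι : Type*} (s : Finset ι) : ∀ (h : ι → (Γ → Circle) → ℂ),
    T.Q^[n] (fun χ => ∑ i ∈ s, h i χ) = fun χ => ∑ i ∈ s, T.Q^[n] (h i) χ := by
  induction n with
  | zero => intro h; rfl
  | succ n ih =>
    intro h
    rw [Function.iterate_succ_apply]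
    have : T.Q (fun χ => ∑ i ∈ s, h i χ) = fun χ => ∑ i ∈ s, T.Q (h i) χ := by
      funext χ; unfold Q; rw [Finset.sum_comm]
    rw [this, ih]
    rfl

end Tow

end Vale.Agent.P032.T
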