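import Vale.Agent.P032.T.A1a

/-!
P032 transfer, block A1 part b: the density `w` and the dichotomy.
-/

open MeasureTheory Set Filter Topology
open scoped ENNReal

namespace Vale.Agent.P032.T

namespace Tow

variable {Γ : Type} [AddCommGroup Γ] {q : ℕ} [NeZero q] (T : Tow Γ q)

/-- sum of the translates of `μ` -/
noncomputable def Sg (μ : Measure (Γ → Circle)) : Measure (Γ → Circle) :=
  ∑ j : ZMod q, μ.map (fun χ => χ * T.kap j)

instance (μ : Measure (Γ → Circle)) [IsFiniteMeasure μ] : IsFiniteMeasure (T.Sg μ) := by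
  unfold Sg
  have : ∀ j : ZMod q, IsFiniteMeasure (μ.map (fun χ : Γ → Circle => χ * T.kap j)) := fun j =>
    Measure.isFiniteMeasure_map μ _
  refine ⟨?_⟩
  rw [Measure.coe_finset_sum, Finset.sum_apply]
  exact ENNReal.sum_lt_top.2 fun j _ => measure_lt_top _ _

theorem le_Sg (μ : Measure (Γ → Circle)) : μ ≤ T.Sg μ := by
  intro s
  unfold Sg
  rw [Measure.coe_finset_sum, Finset.sum_apply]
  refine le_trans ?_ (Finset.single_le_sum (f := fun j : ZMod q =>
    (μ.map (fun χ : Γ → Circle => χ * T.kap j)) s) (fun _ _ => bot_le) (Finset.mem_univ 0))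
  have : (fun χ : Γ → Circle => χ * T.kap 0) = id := by
    funext χ; rw [T.kap_zero, mul_one]; rfl
  rw [this, Measure.map_id]

theorem lintegral_Sg (μ : Measure (Γ → Circle)) {h : (Γ → Circle) → ℝ≥0∞} (hh : Measurable h) :
    ∫⁻ χ, h χ ∂(T.Sg μ) = ∫⁻ χ, ∑ j : ZMod q, h (χ * T.kap j) ∂μ := by
  unfold Sg
  rw [lintegral_finsetSum_measure, lintegral_finset_sum]
  · refine Finset.sum_congr rfl fun j _ => ?_
    rw [lintegral_map hh (T.measurable_mul_kap j)]
  · intro j _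
    exact hh.comp (T.measurable_mul_kap j)

/-- the density -/
noncomputable def w (μ : Measure (Γ → Circle)) : (Γ → Circle) → ℝ≥0∞ :=
  fun χ => min (μ.rnDeriv (T.Sg μ) χ) 1

theorem measurable_w (μ : Measure (Γ → Circle)) : Measurable (T.w μ) :=
  (Measure.measurable_rnDeriv _ _).min measurable_const

theorem w_le (μ : Measure (Γ → Circle)) (χ : Γ → Circle) : T.w μ χ ≤ 1 := min_le_right _ _

theorem w_ae (μ : Measure (Γ → Circle)) [IsFiniteMeasure μ] :
    T.w μ =ᵐ[T.Sg μ] μ.rnDeriv (T.Sg μ) := by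
  filter_upwards [Measure.rnDeriv_le_one_of_le (T.le_Sg μ)] with χ hχ
  exact min_eq_left hχ

theorem lintegral_eq (μ : Measure (Γ → Circle)) [IsFiniteMeasure μ] {h : (Γ → Circle) → ℝ≥0∞}
    (hh : Measurable h) :
    ∫⁻ χ, h χ ∂μ = ∫⁻ χ, ∑ j : ZMod q, T.w μ (χ * T.kap j) * h (χ * T.kap j) ∂μ := by
  have h0 := T.lintegral_Sg μ (h := fun χ => T.w μ χ * h χ) ((T.measurable_w μ).mul hh)
  rw [← h0]
  have h1 : (T.Sg μ).withDensity (μ.rnDeriv (T.Sg μ)) = μ :=
    Measure.withDensity_rnDeriv_eq _ _ (Measure.absolutelyContinuous_of_le (T.le_Sg μ))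
  conv_lhs => rw [← h1]
  rw [lintegral_withDensity_eq_lintegral_mul _ (Measure.measurable_rnDeriv _ _) hh]
  apply lintegral_congr_ae
  filter_upwards [T.w_ae μ] with χ hχ
  simp only [Pi.mul_apply]
  rw [hχ]

variable {T}

/-- the standing hypotheses on the measure -/
structure Good (T : Tow Γ q) (μ : Measure (Γ → Circle)) : Prop where
  fin : IsFiniteMeasure μ
  char : ∀ᵐ χ ∂μ, IsChar χ
  inv : MeasurePreserving T.S μ μ

variable {μ : Measure (Γ → Circle)}

theorem Good.lintegral_Q (G : Good T μ) {h : (Γ → Circle) → ℝ≥0∞} (hh : Measurable h) :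
    ∫⁻ χ, h χ ∂μ = ∫⁻ χ, T.Q (fun χ => T.w μ χ * h χ) χ ∂μ := by
  have := G.fin
  rw [T.lintegral_eq μ hh]
  have hm : Measurable (T.Q (fun χ => T.w μ χ * h χ)) := T.measurable_Q ((T.measurable_w μ).mul hh)
  rw [← G.inv.lintegral_comp hm]
  apply lintegral_congr_ae
  filter_upwards [G.char] with χ hχ
  rw [T.Q_S _ hχ]

variable (T μ) in
/-- the products `w_n` -/
noncomputable def wn : ℕ → (Γ → Circle) → ℝ≥0∞
  | 0 => fun _ => 1
  | n + 1 => fun χ => T.w μ χ * wn n (T.S χ)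

theorem measurable_wn (n : ℕ) : Measurable (wn T μ n) := by
  induction n with
  | zero => exact measurable_const
  | succ n ih => exact (T.measurable_w μ).mul (ih.comp T.measurable_S)

theorem wn_le_one (n : ℕ) (χ : Γ → Circle) : wn T μ n χ ≤ 1 := by
  induction n generalizing χ with
  | zero => exact le_rfl
  | succ n ih => exact mul_le_one' (T.w_le μ χ) (ih _)

theorem wn_antitone : Antitone (wn T μ) := by
  apply antitone_nat_of_succ_le
  intro n
  induction n with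
  | zero =>
    intro χ
    exact wn_le_one 1 χ
  | succ n ih =>
    intro χ
    show T.w μ χ * wn T μ (n + 1) (T.S χ) ≤ T.w μ χ * wn T μ n (T.S χ)
    exact mul_le_mul_right (ih _) _

theorem Good.lintegral_Qn (G : Good T μ) (n : ℕ) : ∀ {h : (Γ → Circle) → ℝ≥0∞}, Measurable h →
    ∫⁻ χ, h χ ∂μ = ∫⁻ χ, T.Q^[n] (fun χ => wn T μ n χ * h χ) χ ∂μ := by
  induction n with
  | zero => intro h hh; simp [wn]
  | succ n ih =>
    intro h hh
    rw [G.lintegral_Q hh]
    have h0 := ih (h := T.Q (fun χ => T.w μ χ * h χ)) (T.measurable_Q ((T.measurable_w μ).mul hh))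
    rw [h0]
    rw [Function.iterate_succ_apply]
    have : T.Q (fun χ => wn T μ (n + 1) χ * h χ) =
        fun χ => wn T μ n χ * T.Q (fun χ => T.w μ χ * h χ) χ := by
      funext ψ
      rw [← T.Q_mul_S]
      congr 1
      funext χ
      show T.w μ χ * wn T μ n (T.S χ) * h χ = _
      ring
    rw [this]

variable (T μ) in
/-- the limit of the `w_n` -/
noncomputable def wi : (Γ → Circle) → ℝ≥0∞ := fun χ => ⨅ n, wn T μ n χ

theorem measurable_wi : Measurable (wi T μ) := Measurable.iInf fun n => measurable_wn n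

theorem wi_le_one (χ : Γ → Circle) : wi T μ χ ≤ 1 := (iInf_le _ 0).trans (wn_le_one 0 χ)

theorem wi_eq (χ : Γ → Circle) : wi T μ χ = T.w μ χ * wi T μ (T.S χ) := by
  unfold wi
  rw [ENNReal.mul_iInf]
  · apply le_antisymm
    · exact le_iInf fun n => iInf_le _ (n + 1)
    · refine le_iInf fun n => ?_
      exact (iInf_le _ n).trans (wn_antitone (Nat.le_succ n) χ)
  · intro h
    exact absurd h (ne_top_of_le_ne_top ENNReal.one_ne_top (T.w_le μ χ))

theorem Good.wi_S (G : Good T μ) : ∀ᵐ χ ∂μ, wi T μ χ = wi T μ (T.S χ) := by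
  have := G.fin
  have h1 : wi T μ ≤ᵐ[μ] fun χ => wi T μ (T.S χ) := by
    refine Eventually.of_forall fun χ => ?_
    show wi T μ χ ≤ wi T μ (T.S χ)
    rw [wi_eq χ]
    calc T.w μ χ * wi T μ (T.S χ) ≤ 1 * wi T μ (T.S χ) := by gcongr; exact T.w_le μ χ
      _ = wi T μ (T.S χ) := one_mul _
  apply ae_eq_of_ae_le_of_lintegral_le h1
  · apply ne_top_of_le_ne_top (measure_ne_top μ univ)
    calc ∫⁻ χ, wi T μ χ ∂μ ≤ ∫⁻ _, 1 ∂μ := lintegral_mono fun χ => wi_le_one χ
      _ = μ univ := by simp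
  · exact (measurable_wi.comp T.measurable_S).aemeasurable
  · rw [G.inv.lintegral_comp measurable_wi]

theorem Good.w_eq_one (G : Good T μ) : ∀ᵐ χ ∂μ, wi T μ χ ≠ 0 → T.w μ χ = 1 := by
  filter_upwards [G.wi_S] with χ hχ hne
  have h1 := wi_eq (T := T) (μ := μ) χ
  rw [← hχ] at h1
  have hfin : wi T μ χ ≠ ⊤ := ne_top_of_le_ne_top ENNReal.one_ne_top (wi_le_one χ)
  by_contra hw
  have hlt : T.w μ χ < 1 := lt_of_le_of_ne (T.w_le μ χ) hw
  have : T.w μ χ * wi T μ χ < 1 * wi T μ χ := by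
    exact (ENNReal.mul_lt_mul_iff_left hne hfin).2 hlt
  rw [one_mul, ← h1] at this
  exact lt_irrefl _ this

variable (T μ) in
/-- conservative part -/
def Xc : Set (Γ → Circle) := {χ | wi T μ χ = 0}

theorem measurableSet_Xc : MeasurableSet (Xc T μ) := measurable_wi (measurableSet_singleton 0)

theorem Good.Xc_S (G : Good T μ) : ∀ᵐ χ ∂μ, (χ ∈ Xc T μ ↔ T.S χ ∈ Xc T μ) := by
  filter_upwards [G.wi_S] with χ hχ
  unfold Xc
  simp only [mem_setOf_eq]
  rw [hχ]

theorem Good.lintegral_wn_tendsto (G : Good T μ) :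
    Tendsto (fun n => ∫⁻ χ in Xc T μ, wn T μ n χ ∂μ) atTop (𝓝 0) := by
  have := G.fin
  have h1 : ∫⁻ χ in Xc T μ, wi T μ χ ∂μ = 0 := by
    rw [setLIntegral_congr_fun measurableSet_Xc (g := fun _ => 0) (fun χ hχ => hχ)]
    simp
  have h2 : ∫⁻ χ in Xc T μ, wi T μ χ ∂μ = ⨅ n, ∫⁻ χ in Xc T μ, wn T μ n χ ∂μ := by
    unfold wi
    apply lintegral_iInf (fun n => measurable_wn n) wn_antitone
    apply ne_top_of_le_ne_top (measure_ne_top μ (Xc T μ))
    calc ∫⁻ χ in Xc T μ, wn T μ 0 χ ∂μ ≤ ∫⁻ _ in Xc T μ, 1 ∂μ :=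
          lintegral_mono fun χ => wn_le_one 0 χ
      _ = μ (Xc T μ) := by simp
  rw [h1] at h2
  rw [h2]
  apply tendsto_atTop_iInf
  intro m n hmn
  exact lintegral_mono (wn_antitone hmn)

/-! ### invariance under commuting automorphisms -/

/-- composition with an automorphism -/
def U (u : Γ ≃+ Γ) (χ : Γ → Circle) : Γ → Circle := fun y => χ (u y)

theorem measurable_U (u : Γ ≃+ Γ) : Measurable (U u) :=
  measurable_pi_lambda _ fun _ => measurable_pi_apply _

theorem S_U {u : Γ ≃+ Γ} (hu : ∀ y, u (T.a y) = T.a (u y)) (χ : Γ → Circle) :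
    T.S (U u χ) = U u (T.S χ) := by
  funext y
  show χ (u (T.a y)) = χ (T.a (u y))
  rw [hu]

theorem c_u {u : Γ ≃+ Γ} (hu : ∀ y, u (T.a y) = T.a (u y)) (y : Γ) :
    T.c (u y) = T.c y * T.c (u T.e₀) := by
  have h1 : y = T.a (T.dv y) + (T.c y).val • T.e₀ := by rw [T.a_dv]; abel
  conv_lhs => rw [h1]
  rw [map_add, map_nsmul, map_add, map_nsmul, hu]
  have : T.c (T.a (u (T.dv y))) = 0 := (T.ker _).2 ⟨_, rfl⟩
  rw [this, zero_add, nsmul_eq_mul, ZMod.natCast_val, ZMod.cast_id', id]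

theorem isUnit_c {u : Γ ≃+ Γ} (hu : ∀ y, u (T.a y) = T.a (u y)) : IsUnit (T.c (u T.e₀)) := by
  have h1 := T.c_u hu (u.symm T.e₀)
  rw [AddEquiv.apply_symm_apply, T.ce] at h1
  exact IsUnit.of_mul_eq_one _ (by rw [mul_comm]; exact h1.symm)

theorem Sg_U {u : Γ ≃+ Γ} (hu : ∀ y, u (T.a y) = T.a (u y))
    (hμ : MeasurePreserving (U u) μ μ) : (T.Sg μ).map (U u) = T.Sg μ := by
  obtain ⟨r, hr⟩ := isUnit_c hu
  unfold Sg
  rw [Measure.map_finset_sum (measurable_U u).aemeasurable]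
  rw [← Equiv.sum_comp (Units.mulRight r) (fun j => μ.map (fun χ : Γ → Circle => χ * T.kap j))]
  refine Finset.sum_congr rfl fun j _ => ?_
  rw [Measure.map_map (measurable_U u) (T.measurable_mul_kap j)]
  have h1 : (U u) ∘ (fun χ : Γ → Circle => χ * T.kap j) =
      (fun χ : Γ → Circle => χ * T.kap (j * r)) ∘ (U u) := by
    funext χ y
    simp only [Function.comp, U, Pi.mul_apply, kap]
    rw [T.c_u hu y, ← hr, mul_comm (T.c y), mul_assoc]
  rw [h1, ← Measure.map_map (T.measurable_mul_kap _) (measurable_U u), hμ.map_eq]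
  rfl

/-- `U u` as a measurable equivalence -/
noncomputable def Ue (u : Γ ≃+ Γ) : (Γ → Circle) ≃ᵐ (Γ → Circle) where
  toFun := U u
  invFun := U u.symm
  left_inv χ := by funext y; simp [U]
  right_inv χ := by funext y; simp [U]
  measurable_toFun := measurable_U u
  measurable_invFun := measurable_U u.symm

theorem Good.w_U (G : Good T μ) {u : Γ ≃+ Γ} (hu : ∀ y, u (T.a y) = T.a (u y))
    (hμ : MeasurePreserving (U u) μ μ) : ∀ᵐ χ ∂μ, T.w μ (U u χ) = T.w μ χ := by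
  have := G.fin
  have h1 := (Ue u).measurableEmbedding.rnDeriv_map μ (T.Sg μ)
  have h2 : (T.Sg μ).map (Ue u) = T.Sg μ := Sg_U hu hμ
  have h3 : μ.map (Ue u) = μ := hμ.map_eq
  rw [h2, h3] at h1
  have h4 : ∀ᵐ χ ∂μ, μ.rnDeriv (T.Sg μ) (U u χ) = μ.rnDeriv (T.Sg μ) χ :=
    (Measure.absolutelyContinuous_of_le (T.le_Sg μ)).ae_le h1
  filter_upwards [h4] with χ hχ
  unfold w
  rw [hχ]

theorem Good.wn_U (G : Good T μ) {u : Γ ≃+ Γ} (hu : ∀ y, u (T.a y) = T.a (u y))
    (hμ : MeasurePreserving (U u) μ μ) (n : ℕ) : ∀ᵐ χ ∂μ, wn T μ n (U u χ) = wn T μ n χ := by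
  induction n with
  | zero => exact Eventually.of_forall fun χ => rfl
  | succ n ih =>
    filter_upwards [G.w_U hu hμ, G.inv.quasiMeasurePreserving.ae ih] with χ h1 h2
    show T.w μ (U u χ) * wn T μ n (T.S (U u χ)) = T.w μ χ * wn T μ n (T.S χ)
    rw [h1, S_U hu, h2]

theorem Good.Xc_U (G : Good T μ) {u : Γ ≃+ Γ} (hu : ∀ y, u (T.a y) = T.a (u y))
    (hμ : MeasurePreserving (U u) μ μ) : ∀ᵐ χ ∂μ, (χ ∈ Xc T μ ↔ U u χ ∈ Xc T μ) := by
  have h1 : ∀ᵐ χ ∂μ, ∀ n, wn T μ n (U u χ) = wn T μ n χ := ae_all_iff.2 fun n => G.wn_U hu hμ n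
  filter_upwards [h1] with χ hχ
  unfold Xc wi
  simp only [mem_setOf_eq]
  rw [iInf_congr hχ]

end Tow

end Vale.Agent.P032.T
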