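import Vale.Agent.P032.T.A1b

/-!
P032 transfer, block A1 part c: prediction on the dissipative part, Host's argument on the
conservative part, and the block statement.
-/

open MeasureTheory Set Filter Topology
open scoped ENNReal

namespace Vale.Agent.P032.T

namespace Tow

variable {Γ : Type} [AddCommGroup Γ] {q : ℕ} [NeZero q] {T : Tow Γ q}
variable {μ : Measure (Γ → Circle)}

/-! ### prediction -/

theorem Sg_translate (i : ZMod q) {h : (Γ → Circle) → ℝ≥0∞} (hh : Measurable h) :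
    ∫⁻ χ, h (χ * T.kap i) ∂(T.Sg μ) = ∫⁻ χ, h χ ∂(T.Sg μ) := by
  have h0 := T.lintegral_Sg μ (h := fun χ => h (χ * T.kap i)) (hh.comp (T.measurable_mul_kap i))
  rw [h0, T.lintegral_Sg μ hh]
  congr 1
  funext χ
  rw [← Equiv.sum_comp (Equiv.addRight i) (fun j => h (χ * T.kap j))]
  refine Finset.sum_congr rfl fun j _ => ?_
  rw [Equiv.coe_addRight, T.kap_add, mul_assoc]

theorem lintegral_w (μ : Measure (Γ → Circle)) [IsFiniteMeasure μ] {h : (Γ → Circle) → ℝ≥0∞}
    (hh : Measurable h) : ∫⁻ χ, T.w μ χ * h χ ∂(T.Sg μ) = ∫⁻ χ, h χ ∂μ := by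
  have h0 := T.lintegral_Sg μ (h := fun χ => T.w μ χ * h χ) ((T.measurable_w μ).mul hh)
  rw [h0, ← T.lintegral_eq μ hh]

theorem sum_w (T : Tow Γ q) (μ : Measure (Γ → Circle)) [IsFiniteMeasure μ] :
    ∀ᵐ χ ∂μ, ∑ j : ZMod q, T.w μ (χ * T.kap j) = 1 := by
  have hm : Measurable (fun χ : Γ → Circle => ∑ j : ZMod q, T.w μ (χ * T.kap j)) :=
    Finset.measurable_sum _ fun j _ => (T.measurable_w μ).comp (T.measurable_mul_kap j)
  have key : (fun χ : Γ → Circle => ∑ j : ZMod q, T.w μ (χ * T.kap j)) =ᵐ[T.Sg μ] fun _ => 1 := by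
    apply ae_eq_of_forall_setLIntegral_eq_of_sigmaFinite hm measurable_const
    intro s hs _
    let h : (Γ → Circle) → ℝ≥0∞ := s.indicator (fun _ => 1)
    have hh : Measurable h := measurable_const.indicator hs
    have e1 : ∫⁻ χ in s, ∑ j : ZMod q, T.w μ (χ * T.kap j) ∂(T.Sg μ) =
        ∑ j : ZMod q, ∫⁻ χ, T.w μ (χ * T.kap j) * h χ ∂(T.Sg μ) := by
      rw [← lintegral_indicator hs, ← lintegral_finset_sum]
      · congr 1
        funext χ
        by_cases hχ : χ ∈ s <;> simp [h, hχ]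
      · intro j _
        exact ((T.measurable_w μ).comp (T.measurable_mul_kap j)).mul hh
    have e2 : ∀ j : ZMod q, ∫⁻ χ, T.w μ (χ * T.kap j) * h χ ∂(T.Sg μ) =
        ∫⁻ χ, h (χ * T.kap (-j)) ∂μ := by
      intro j
      have e3 := Sg_translate (T := T) (μ := μ) j (h := fun χ => T.w μ χ * h (χ * T.kap (-j)))
        ((T.measurable_w μ).mul (hh.comp (T.measurable_mul_kap _)))
      have e4 : ∀ χ : Γ → Circle, χ * T.kap j * T.kap (-j) = χ := by
        intro χ
        rw [mul_assoc, ← T.kap_add, add_neg_cancel, T.kap_zero, mul_one]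
      simp only [e4] at e3
      rw [e3, lintegral_w (T := T) μ (h := fun χ => h (χ * T.kap (-j)))
        (hh.comp (T.measurable_mul_kap _))]
    rw [e1]
    simp only [e2]
    have e6 : ∑ j : ZMod q, ∫⁻ χ, h (χ * T.kap (-j)) ∂μ = ∫⁻ χ, ∑ j : ZMod q, h (χ * T.kap (-j)) ∂μ :=
      (lintegral_finset_sum _ (fun j _ => hh.comp (T.measurable_mul_kap (-j)))).symm
    rw [e6]
    have e5 : ∫⁻ χ in s, (1 : ℝ≥0∞) ∂(T.Sg μ) = ∫⁻ χ, h χ ∂(T.Sg μ) := by
      rw [← lintegral_indicator hs]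
    rw [e5, T.lintegral_Sg μ hh]
    congr 1
    funext χ
    rw [← Equiv.sum_comp (Equiv.neg (ZMod q)) (fun j => h (χ * T.kap j))]
    rfl
  exact (Measure.absolutelyContinuous_of_le (T.le_Sg μ)).ae_le key

variable (T μ) in
/-- weighted evaluation at `e₀` over the preimages -/
noncomputable def Fc : (Γ → Circle) → ℂ := T.Q (fun χ => ((T.w μ χ).toReal : ℂ) * (χ T.e₀ : ℂ))

theorem measurable_coe_circle : Measurable (fun z : Circle => (z : ℂ)) := by
  have : Continuous (fun z : Circle => (z : ℂ)) := continuous_subtype_val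
  exact this.measurable

theorem measurable_ev (y : Γ) : Measurable (ev y) :=
  measurable_coe_circle.comp (measurable_pi_apply y)

theorem measurable_Fc : Measurable (Fc T μ) := by
  unfold Fc Q
  refine Finset.measurable_sum _ fun j _ => ?_
  have h1 : Measurable (fun χ : Γ → Circle => ((T.w μ χ).toReal : ℂ) * (χ T.e₀ : ℂ)) :=
    (Complex.measurable_ofReal.comp (T.measurable_w μ).ennreal_toReal).mul (measurable_ev T.e₀)
  exact h1.comp ((T.measurable_mul_kap j).comp T.measurable_s)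

theorem Good.exists_F (G : Good T μ) : ∃ F : (Γ → Circle) → Circle, Measurable F ∧
    ∀ᵐ χ ∂μ, χ ∉ Xc T μ → χ T.e₀ = F (T.S χ) := by
  have := G.fin
  refine ⟨fun ψ => Circle.exp (Complex.arg (Fc T μ ψ)), ?_, ?_⟩
  · have h2 : Continuous (fun x : ℝ => Circle.exp x) := Circle.exp.continuous
    exact h2.measurable.comp (Complex.measurable_arg.comp measurable_Fc)
  · filter_upwards [G.char, G.w_eq_one, sum_w T μ] with χ h1 h2 h3 h4
    have hw : T.w μ χ = 1 := h2 h4
    have h5 : ∀ j : ZMod q, j ≠ 0 → T.w μ (χ * T.kap j) = 0 := by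
      intro j hj
      rw [← Finset.add_sum_erase _ _ (Finset.mem_univ (0 : ZMod q)), T.kap_zero, mul_one, hw] at h3
      have h6 : ∑ x ∈ Finset.univ.erase (0 : ZMod q), T.w μ (χ * T.kap x) = 0 := by
        have : (1 : ℝ≥0∞) + ∑ x ∈ Finset.univ.erase (0 : ZMod q), T.w μ (χ * T.kap x) = 1 + 0 := by
          rw [h3, add_zero]
        exact (ENNReal.add_right_inj ENNReal.one_ne_top).1 this
      exact (Finset.sum_eq_zero_iff.1 h6) j (by simp [hj])
    have h7 : Fc T μ (T.S χ) = (χ T.e₀ : ℂ) := by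
      unfold Fc
      rw [T.Q_S _ h1, Finset.sum_eq_single 0]
      · rw [T.kap_zero, mul_one, hw]; simp
      · intro j _ hj
        rw [h5 j hj]; simp
      · intro h; exact absurd (Finset.mem_univ _) h
    rw [h7, Circle.exp_arg]

/-! ### Host's argument -/

theorem amgm (a b : ℝ≥0∞) {t : ℝ} (ht : 0 < t) :
    a * b ≤ ENNReal.ofReal t * b ^ 2 + ENNReal.ofReal (1 / t) * (a * a) := by
  rcases le_total a (ENNReal.ofReal t * b) with h | h
  · calc a * b ≤ ENNReal.ofReal t * b * b := by gcongr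
      _ = ENNReal.ofReal t * b ^ 2 := by rw [pow_two, mul_assoc]
      _ ≤ _ := le_self_add
  · have h1 : b ≤ ENNReal.ofReal (1 / t) * a := by
      calc b = ENNReal.ofReal (1 / t) * (ENNReal.ofReal t * b) := by
            rw [← mul_assoc, ← ENNReal.ofReal_mul (by positivity)]
            have : 1 / t * t = 1 := by field_simp
            rw [this]; simp
        _ ≤ _ := by gcongr
    calc a * b ≤ a * (ENNReal.ofReal (1 / t) * a) := by gcongr
      _ = ENNReal.ofReal (1 / t) * (a * a) := by ring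
      _ ≤ _ := le_add_self

theorem Good.integral_U (G : Good T μ) {u : Γ ≃+ Γ} (hu : ∀ y, u (T.a y) = T.a (u y))
    (hμ : MeasurePreserving (U u) μ μ) (y : Γ) :
    ∫ χ in Xc T μ, ev (u y) χ ∂μ = ∫ χ in Xc T μ, ev y χ ∂μ := by
  rw [← integral_indicator measurableSet_Xc, ← integral_indicator measurableSet_Xc]
  have h1 : ∫ χ, (Xc T μ).indicator (ev y) χ ∂μ = ∫ χ, (Xc T μ).indicator (ev y) (U u χ) ∂μ := by
    have h2 := integral_map (μ := μ) (φ := U u) (f := (Xc T μ).indicator (ev y))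
      (measurable_U u).aemeasurable
      ((measurable_ev y).indicator (measurableSet_Xc (T := T) (μ := μ))).aestronglyMeasurable
    rw [hμ.map_eq] at h2
    exact h2
  rw [h1]
  apply integral_congr_ae
  filter_upwards [G.Xc_U hu hμ] with χ hχ
  by_cases h : χ ∈ Xc T μ
  · rw [indicator_of_mem h, indicator_of_mem (hχ.1 h)]; rfl
  · rw [indicator_of_notMem h, indicator_of_notMem (fun h' => h (hχ.2 h'))]

theorem norm_ev (y : Γ) (χ : Γ → Circle) : ‖ev y χ‖ = 1 := Circle.norm_coe _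

theorem ev_mul_conj {χ : Γ → Circle} (h : IsChar χ) (x y : Γ) :
    ev x χ * (starRingEnd ℂ) (ev y χ) = ev (x - y) χ := by
  show ((χ x : Circle) : ℂ) * (starRingEnd ℂ) ((χ y : Circle) : ℂ) = ((χ (x - y) : Circle) : ℂ)
  rw [char_sub h, Circle.coe_mul, Circle.coe_inv_eq_conj]

theorem Good.lintegral_sq (G : Good T μ) (n : ℕ) (y : Γ) (W : Finset (Γ ≃+ Γ))
    (hW : ∀ u ∈ W, ∀ v ∈ W, u ≠ v → ∀ z, T.a^[n] z ≠ u y - v y) :
    ∫⁻ χ, T.Q^[n] (fun χ => ‖∑ u ∈ W, ev (u y) χ‖ₑ ^ 2) χ ∂μ = W.card * (q : ℝ≥0∞) ^ n * μ univ := by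
  classical
  have := G.fin
  let g : (Γ → Circle) → ℂ := fun χ => ∑ p ∈ W ×ˢ W, ev (p.1 y - p.2 y) χ
  have h1 : ∀ χ, IsChar χ → 0 ≤ (g χ).re ∧
      ‖∑ u ∈ W, ev (u y) χ‖ₑ ^ 2 = ENNReal.ofReal (g χ).re := by
    intro χ hχ
    have h2 : g χ = ((‖∑ u ∈ W, ev (u y) χ‖ ^ 2 : ℝ) : ℂ) := by
      rw [← Complex.normSq_eq_norm_sq, ← Complex.mul_conj, map_sum, Finset.sum_mul_sum,
        ← Finset.sum_product']
      exact Finset.sum_congr rfl fun p _ => (ev_mul_conj hχ _ _).symm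
    rw [h2, Complex.ofReal_re]
    refine ⟨by positivity, ?_⟩
    rw [ENNReal.ofReal_pow (norm_nonneg _), ofReal_norm]
  have h3 : ∀ χ, IsChar χ → T.Q^[n] g χ = (W.card * (q : ℂ) ^ n) := by
    intro χ hχ
    have h4 : T.Q^[n] g χ = ∑ p ∈ W ×ˢ W, T.Q^[n] (ev (p.1 y - p.2 y)) χ := by
      have := T.Qc_sum n (W ×ˢ W) (fun p => ev (p.1 y - p.2 y))
      exact congrFun this χ
    rw [h4, Finset.sum_product]
    have h5 : ∀ u ∈ W, ∑ v ∈ W, T.Q^[n] (ev (u y - v y)) χ = (q : ℂ) ^ n := by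
      intro u hu
      rw [Finset.sum_eq_single u]
      · rw [sub_self, T.Qn_ev_zero]
        have e0 : ev (0 : Γ) χ = 1 := by
          have := char_zero hχ
          show ((χ 0 : Circle) : ℂ) = 1
          rw [this]; rfl
        show (q : ℂ) ^ n * ev 0 χ = (q : ℂ) ^ n
        rw [e0, mul_one]
      · intro v hv hvu
        rw [T.Qn_ev_of_ne n _ (hW u hu v hv (Ne.symm hvu))]
        rfl
      · intro h; exact absurd hu h
    rw [Finset.sum_congr rfl h5, Finset.sum_const, nsmul_eq_mul]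
  have h6 : ∀ᵐ χ ∂μ, T.Q^[n] (fun χ => ‖∑ u ∈ W, ev (u y) χ‖ₑ ^ 2) χ =
      W.card * (q : ℝ≥0∞) ^ n := by
    filter_upwards [G.char] with χ hχ
    rw [(T.Qn_ofReal n h1 χ hχ).2, h3 χ hχ]
    have : ((W.card : ℂ) * (q : ℂ) ^ n).re = ((W.card * q ^ n : ℕ) : ℝ) := by
      have : ((W.card : ℂ) * (q : ℂ) ^ n) = ((W.card * q ^ n : ℕ) : ℂ) := by push_cast; ring
      rw [this, Complex.natCast_re]
    rw [this, ENNReal.ofReal_natCast]
    push_cast
    ring
  rw [lintegral_congr_ae h6, lintegral_const]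

theorem Good.host (G : Good T μ) (y : Γ) (C : ℕ)
    (hW : ∀ n : ℕ, ∃ W : Finset (Γ ≃+ Γ), q ^ n ≤ C * W.card ∧
      (∀ u ∈ W, (∀ z, u (T.a z) = T.a (u z)) ∧ MeasurePreserving (U u) μ μ) ∧
      ∀ u ∈ W, ∀ v ∈ W, u ≠ v → ∀ z, T.a^[n] z ≠ u y - v y) :
    ∫ χ in Xc T μ, ev y χ ∂μ = 0 := by
  classical
  have := G.fin
  set A : ℂ := ∫ χ in Xc T μ, ev y χ ∂μ with hA
  set Mt : ℝ≥0∞ := μ univ with hMt
  have hMt' : Mt ≠ ⊤ := measure_ne_top _ _
  have main : ∀ τ : ℝ, 0 < τ → ∀ n : ℕ, ‖A‖ₑ ≤ ENNReal.ofReal τ * Mt +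
      C * ENNReal.ofReal (1 / τ) * ∫⁻ χ in Xc T μ, wn T μ n χ ∂μ := by
    intro τ hτ n
    obtain ⟨W, hW1, hW2, hW3⟩ := hW n
    have hq : 0 < (q : ℝ) ^ n := by
      have : 0 < (q : ℝ) := by exact_mod_cast Nat.pos_of_ne_zero (NeZero.ne q)
      positivity
    set N : ℝ≥0∞ := (W.card : ℝ≥0∞) with hN
    have hN0 : N ≠ 0 := by
      rw [hN]
      intro h
      have h' : W.card = 0 := by exact_mod_cast h
      rw [h', mul_zero] at hW1
      have : 0 < q ^ n := Nat.pow_pos (Nat.pos_of_ne_zero (NeZero.ne q))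
      omega
    have hNt : N ≠ ⊤ := ENNReal.natCast_ne_top _
    set t : ℝ := τ / q ^ n with ht
    have ht0 : 0 < t := by positivity
    let g : (Γ → Circle) → ℂ := fun χ => ∑ u ∈ W, ev (u y) χ
    have hgm : Measurable g := Finset.measurable_sum _ fun u _ => measurable_ev _
    have hint : ∀ z : Γ, Integrable (ev z) (μ.restrict (Xc T μ)) := by
      intro z
      refine Integrable.of_bound (measurable_ev z).aestronglyMeasurable 1 ?_
      exact Eventually.of_forall fun χ => (norm_ev z χ).le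
    have h1 : (W.card : ℂ) * A = ∫ χ in Xc T μ, g χ ∂μ := by
      rw [integral_finset_sum _ (fun u _ => hint _)]
      rw [Finset.sum_congr rfl (fun u hu => G.integral_U (hW2 u hu).1 (hW2 u hu).2 y)]
      rw [Finset.sum_const, nsmul_eq_mul]
    have h2 : N * ‖A‖ₑ ≤ ∫⁻ χ in Xc T μ, ‖g χ‖ₑ ∂μ := by
      have : ‖(W.card : ℂ) * A‖ₑ = N * ‖A‖ₑ := by
        rw [enorm_mul, hN]
        congr 1
        rw [← ofReal_norm, Complex.norm_natCast, ENNReal.ofReal_natCast]
      rw [← this, h1]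
      exact enorm_integral_le_lintegral_enorm _
    let H : (Γ → Circle) → ℝ≥0∞ := (Xc T μ).indicator (fun χ => ‖g χ‖ₑ)
    have hH : Measurable H := hgm.enorm.indicator measurableSet_Xc
    let V : (Γ → Circle) → ℝ≥0∞ := (Xc T μ).indicator (wn T μ n)
    have hV : Measurable V := (measurable_wn n).indicator measurableSet_Xc
    have h3 : ∫⁻ χ in Xc T μ, ‖g χ‖ₑ ∂μ = ∫⁻ χ, T.Q^[n] (fun χ => wn T μ n χ * H χ) χ ∂μ := by
      rw [← lintegral_indicator measurableSet_Xc]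
      exact G.lintegral_Qn n hH
    have h4 : ∫⁻ χ in Xc T μ, wn T μ n χ ∂μ = ∫⁻ χ, T.Q^[n] (fun χ => wn T μ n χ * V χ) χ ∂μ := by
      rw [← lintegral_indicator measurableSet_Xc]
      exact G.lintegral_Qn n hV
    have h5 : ∀ χ, wn T μ n χ * H χ ≤ ENNReal.ofReal t * ‖g χ‖ₑ ^ 2 +
        ENNReal.ofReal (1 / t) * (wn T μ n χ * V χ) := by
      intro χ
      by_cases hχ : χ ∈ Xc T μ
      · simp only [H, V, indicator_of_mem hχ]
        exact amgm _ _ ht0
      · simp only [H, V, indicator_of_notMem hχ, mul_zero]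
        exact bot_le
    have h6 : ∫⁻ χ, T.Q^[n] (fun χ => wn T μ n χ * H χ) χ ∂μ ≤
        ENNReal.ofReal t * (N * (q : ℝ≥0∞) ^ n * Mt) +
          ENNReal.ofReal (1 / t) * ∫⁻ χ in Xc T μ, wn T μ n χ ∂μ := by
      have hae : ∀ᵐ χ ∂μ, T.Q^[n] (fun χ => wn T μ n χ * H χ) χ ≤
          ENNReal.ofReal t * T.Q^[n] (fun χ => ‖g χ‖ₑ ^ 2) χ +
          ENNReal.ofReal (1 / t) * T.Q^[n] (fun χ => wn T μ n χ * V χ) χ := by
        filter_upwards [G.char] with χ hχ
        refine (T.Qn_mono n (fun χ _ => h5 χ) χ hχ).trans ?_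
        rw [T.Qn_add, T.Qn_const_mul, T.Qn_const_mul]
      refine (lintegral_mono_ae hae).trans ?_
      rw [lintegral_add_left, lintegral_const_mul, lintegral_const_mul, ← h4,
        G.lintegral_sq n y W hW3]
      · exact T.measurable_Qn n ((measurable_wn n).mul hV)
      · exact T.measurable_Qn n (hgm.enorm.pow_const 2)
      · exact (T.measurable_Qn n (hgm.enorm.pow_const 2)).const_mul _
    have h7 : N * ‖A‖ₑ ≤ N * (ENNReal.ofReal τ * Mt +
        C * ENNReal.ofReal (1 / τ) * ∫⁻ χ in Xc T μ, wn T μ n χ ∂μ) := by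
      refine (h2.trans (h3.le.trans h6)).trans ?_
      rw [mul_add]
      apply add_le_add
      · have e1 : ENNReal.ofReal t * (q : ℝ≥0∞) ^ n = ENNReal.ofReal τ := by
          have : ((q : ℝ≥0∞)) ^ n = ENNReal.ofReal ((q : ℝ) ^ n) := by
            rw [ENNReal.ofReal_pow (by positivity), ENNReal.ofReal_natCast]
          rw [this, ← ENNReal.ofReal_mul ht0.le, ht]
          congr 1
          field_simp
        calc ENNReal.ofReal t * (N * (q : ℝ≥0∞) ^ n * Mt)
            = N * (ENNReal.ofReal t * (q : ℝ≥0∞) ^ n * Mt) := by ring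
          _ ≤ _ := by rw [e1]
      · have e2 : ENNReal.ofReal (1 / t) ≤ N * (C * ENNReal.ofReal (1 / τ)) := by
          have : N * (C * ENNReal.ofReal (1 / τ)) = ENNReal.ofReal ((C * W.card : ℕ) * (1 / τ)) := by
            rw [ENNReal.ofReal_mul (by positivity), ENNReal.ofReal_natCast]
            push_cast
            ring
          rw [this]
          apply ENNReal.ofReal_le_ofReal
          have e3 : ((q : ℝ)) ^ n ≤ ((C * W.card : ℕ) : ℝ) := by exact_mod_cast hW1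
          have e4 : 1 / t = (q : ℝ) ^ n * (1 / τ) := by rw [ht]; field_simp
          rw [e4]
          gcongr
        calc ENNReal.ofReal (1 / t) * ∫⁻ χ in Xc T μ, wn T μ n χ ∂μ
            ≤ N * (C * ENNReal.ofReal (1 / τ)) * ∫⁻ χ in Xc T μ, wn T μ n χ ∂μ := by gcongr
          _ = _ := by ring
    exact (ENNReal.mul_le_mul_iff_right hN0 hNt).1 h7
  have main2 : ∀ τ : ℝ, 0 < τ → ‖A‖ₑ ≤ ENNReal.ofReal τ * Mt := by
    intro τ hτ
    have hlim : Tendsto (fun n => ENNReal.ofReal τ * Mt +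
        C * ENNReal.ofReal (1 / τ) * ∫⁻ χ in Xc T μ, wn T μ n χ ∂μ) atTop
        (𝓝 (ENNReal.ofReal τ * Mt + C * ENNReal.ofReal (1 / τ) * 0)) := by
      apply Tendsto.const_add
      apply ENNReal.Tendsto.const_mul G.lintegral_wn_tendsto
      right
      exact ENNReal.mul_ne_top (ENNReal.natCast_ne_top _) ENNReal.ofReal_ne_top
    rw [mul_zero, add_zero] at hlim
    exact ge_of_tendsto' hlim (main τ hτ)
  have hA0 : ‖A‖ₑ = 0 := by
    have hlim : Tendsto (fun τ : ℝ => ENNReal.ofReal τ * Mt) (𝓝[>] 0) (𝓝 (ENNReal.ofReal 0 * Mt)) := by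
      apply ENNReal.Tendsto.mul_const
      · exact (ENNReal.continuous_ofReal.tendsto 0).mono_left nhdsWithin_le_nhds
      · right; exact hMt'
    rw [ENNReal.ofReal_zero, zero_mul] at hlim
    refine le_antisymm ?_ bot_le
    refine ge_of_tendsto hlim ?_
    filter_upwards [self_mem_nhdsWithin] with τ hτ
    exact main2 τ hτ
  exact enorm_eq_zero.1 hA0

end Tow

theorem a1 : A1Stmt := by
  intro Γ _ _ q _ a c e₀ hinj hce hker μ _ hchar hS
  let T : Tow Γ q := ⟨a, c, e₀, hinj, hce, hker⟩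
  have G : Tow.Good T μ := ⟨inferInstance, hchar, hS⟩
  refine ⟨Tow.Xc T μ, Tow.measurableSet_Xc, G.Xc_S, fun u hu hμ => G.Xc_U hu hμ, ?_, G.exists_F⟩
  intro y C hW
  exact G.host y C hW

end Vale.Agent.P032.T
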