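import Vale.Agent.P032.T.Defs

/-!
P032, block ARITH: the local ring of the Gaussian integers at the prime `2 + i`.
-/

open MeasureTheory Set Filter Topology
open scoped ENNReal

namespace Vale.Agent.P032.T.Ar

instance fact5 : Fact (Nat.Prime 5) := ⟨by norm_num⟩

/-- the residue map at `2 + i`, `i ↦ 3` -/
noncomputable def ph : GaussianInt →+* ZMod 5 :=
  Zsqrtd.lift ⟨(3 : ZMod 5), by decide⟩

theorem ph_apply (x : GaussianInt) : ph x = (x.re : ZMod 5) + (x.im : ZMod 5) * 3 := by
  simp [ph, Zsqrtd.lift]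

theorem gp_dvd_iff (x : GaussianInt) : gp ∣ x ↔ ph x = 0 := by
  constructor
  · rintro ⟨y, rfl⟩
    rw [map_mul]
    have : ph gp = 0 := by
      rw [ph_apply]; simp [gp]; decide
    rw [this, zero_mul]
  · intro h
    rw [ph_apply] at h
    have h1 : ((x.re - 2 * x.im : ℤ) : ZMod 5) = 0 := by
      have h5 : (5 : ZMod 5) = 0 := by decide
      push_cast
      linear_combination h - (x.im : ZMod 5) * h5
    rw [ZMod.intCast_zmod_eq_zero_iff_dvd] at h1
    obtain ⟨t, ht⟩ := h1
    refine ⟨⟨2 * t + x.im, -t⟩, ?_⟩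
    have hr : x.re = 2 * x.im + 5 * t := by push_cast at ht; linarith
    ext
    · simp [gp, Zsqrtd.re_mul, hr]; ring
    · simp [gp, Zsqrtd.im_mul]

theorem gp_prime : Prime gp := by
  refine ⟨?_, ?_, ?_⟩
  · intro h
    have := congrArg Zsqrtd.re h
    simp [gp] at this
  · intro h
    have h1 : gp ∣ 1 := h.dvd
    rw [gp_dvd_iff, map_one] at h1
    exact one_ne_zero h1
  · intro a b h
    rw [gp_dvd_iff, map_mul, mul_eq_zero] at h
    rw [gp_dvd_iff, gp_dvd_iff]
    exact h

theorem int_dvd (m : ℤ) (h : gp ∣ (m : GaussianInt)) : (5 : ℤ) ∣ m := by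
  rw [gp_dvd_iff, map_intCast, ZMod.intCast_zmod_eq_zero_iff_dvd] at h
  exact_mod_cast h

/-- the conjugate prime -/
def gq : GaussianInt := ⟨2, -1⟩

theorem gp_not_dvd_gq : ¬ gp ∣ gq := by
  rw [gp_dvd_iff, ph_apply]; simp [gq]; decide

theorem gp_mul_gq : gp * gq = 5 := by
  ext <;> simp [gp, gq, Zsqrtd.re_mul, Zsqrtd.im_mul]

theorem int_pow_dvd (s : ℕ) : ∀ (m : ℤ), gp ^ s ∣ (m : GaussianInt) → (5 : ℤ) ^ s ∣ m := by
  induction s with
  | zero => intro m _; simp
  | succ s ih =>
    intro m h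
    have h1 : gp ∣ (m : GaussianInt) := dvd_trans (dvd_pow_self _ (Nat.succ_ne_zero _)) h
    obtain ⟨m', rfl⟩ := int_dvd m h1
    have h2 : gp ^ s ∣ gq * (m' : GaussianInt) := by
      have h3 : gp * gp ^ s ∣ gp * (gq * (m' : GaussianInt)) := by
        have : ((5 * m' : ℤ) : GaussianInt) = gp * (gq * m') := by
          rw [← mul_assoc, gp_mul_gq]; push_cast; rfl
        rw [← this, ← pow_succ']; exact h
      exact (mul_dvd_mul_iff_left gp_prime.ne_zero).1 h3
    have h4 := gp_prime.pow_dvd_of_dvd_mul_left s gp_not_dvd_gq h2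
    rw [pow_succ']
    exact mul_dvd_mul_left 5 (ih m' h4)

theorem coe_gp : ((gp : GaussianInt) : ℂ) = 2 + Complex.I := by
  rw [GaussianInt.toComplex_def]; simp [gp]

theorem coe_gq : ((gq : GaussianInt) : ℂ) = 2 - Complex.I := by
  rw [GaussianInt.toComplex_def]; simp [gq]; ring

theorem coe_eq_zero {x : GaussianInt} : (x : ℂ) = 0 ↔ x = 0 := by
  rw [← GaussianInt.toComplex_zero, GaussianInt.toComplex_inj]

theorem ne_zero_of_not_dvd {d : GaussianInt} (h : ¬ gp ∣ d) : d ≠ 0 := by
  rintro rfl; exact h (dvd_zero _)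

theorem coe_ne_zero_of_not_dvd {d : GaussianInt} (h : ¬ gp ∣ d) : (d : ℂ) ≠ 0 := by
  rw [Ne, coe_eq_zero]; exact ne_zero_of_not_dvd h

/-- `k + i` -/
def kp (k : ℕ) : GaussianInt := ⟨k, 1⟩
/-- `k - i` -/
def km (k : ℕ) : GaussianInt := ⟨k, -1⟩

theorem coe_kp (k : ℕ) : ((kp k : GaussianInt) : ℂ) = k + Complex.I := by
  rw [GaussianInt.toComplex_def]; simp [kp]

theorem coe_km (k : ℕ) : ((km k : GaussianInt) : ℂ) = k - Complex.I := by
  rw [GaussianInt.toComplex_def]; simp [km]; ring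

theorem kp_mul_km (k : ℕ) : kp k * km k = ((k ^ 2 + 1 : ℕ) : GaussianInt) := by
  ext
  · rw [Zsqrtd.re_natCast, Zsqrtd.re_mul]; simp [kp, km]; ring
  · rw [Zsqrtd.im_natCast, Zsqrtd.im_mul]; simp [kp, km]

theorem not_dvd_kp_km {k : ℕ} (h : ¬ 5 ∣ k ^ 2 + 1) : ¬ gp ∣ kp k ∧ ¬ gp ∣ km k := by
  have h1 : ¬ gp ∣ kp k * km k := by
    rw [kp_mul_km]
    intro h2
    have h3 := int_dvd ((k ^ 2 + 1 : ℕ) : ℤ) (by exact_mod_cast h2)
    exact h (by exact_mod_cast h3)
  exact ⟨fun h2 => h1 (Dvd.dvd.mul_right h2 _), fun h2 => h1 (Dvd.dvd.mul_left h2 _)⟩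

/-- key identity behind well-definedness of residues -/
theorem ph_cross {z : ℂ} {g d g' d' : GaussianInt} (hd : ¬ gp ∣ d) (hd' : ¬ gp ∣ d')
    (h : z * d = g) (h' : z * d' = g') : ph g * (ph d)⁻¹ = ph g' * (ph d')⁻¹ := by
  have h1 : g * d' = g' * d := by
    rw [← GaussianInt.toComplex_inj]
    simp only [map_mul]
    rw [← h, ← h']; ring
  have h2 := congrArg ph h1
  rw [map_mul, map_mul] at h2
  rw [gp_dvd_iff] at hd hd'
  field_simp
  linear_combination h2

end Ar

open Ar

theorem arith : ArithStmt := by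
  classical
  intro Γ _ j hj hr
  have hex : ∀ y : Γ, ∃ g d : GaussianInt, ¬ gp ∣ d ∧ j y * d = g := by
    intro y
    have : j y ∈ range j := ⟨y, rfl⟩
    rw [hr] at this; exact this
  have hmem : ∀ z : ℂ, (∃ g d : GaussianInt, ¬ gp ∣ d ∧ z * d = g) → ∃ y : Γ, j y = z := by
    intro z hz
    have : z ∈ range j := by rw [hr]; exact hz
    exact this
  have hq0 : (2 - Complex.I : ℂ) ≠ 0 := by
    rw [← coe_gq]; exact coe_ne_zero_of_not_dvd gp_not_dvd_gq
  have hp0 : (2 + Complex.I : ℂ) ≠ 0 := by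
    rw [← coe_gp, Ne, coe_eq_zero]; exact gp_prime.ne_zero
  obtain ⟨a, ha⟩ := hmem aC ⟨gp, gq, gp_not_dvd_gq, by
    rw [coe_gp, coe_gq, aC]; field_simp⟩
  refine ⟨a, ha, ?_, ?_⟩
  · -- the residue map
    choose G D hD hG using hex
    let cf : Γ → ZMod 5 := fun y => ph (G y) * (ph (D y))⁻¹
    have hcf : ∀ (y : Γ) (g d : GaussianInt), ¬ gp ∣ d → j y * d = g →
        cf y = ph g * (ph d)⁻¹ := fun y g d hd h => ph_cross (hD y) hd (hG y) h
    refine ⟨⟨⟨cf, ?_⟩, ?_⟩, ?_, ?_⟩
    · rw [hcf 0 0 1 (by rw [gp_dvd_iff]; simp) (by simp)]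
      simp
    · intro x y
      have h1 : cf (x + y) = ph (G x * D y + G y * D x) * (ph (D x * D y))⁻¹ := by
        apply hcf
        · intro h
          rcases gp_prime.dvd_or_dvd h with h | h
          · exact hD x h
          · exact hD y h
        · simp only [map_add, map_mul]
          rw [← hG x, ← hG y]; ring
      change cf (x + y) = cf x + cf y
      rw [h1]
      have h2 : ph (D x) ≠ 0 := fun h => hD x ((gp_dvd_iff _).2 h)
      have h3 : ph (D y) ≠ 0 := fun h => hD y ((gp_dvd_iff _).2 h)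
      simp only [cf, map_add, map_mul]
      field_simp
    · change cf 1 = 1
      rw [hcf 1 1 1 (by rw [gp_dvd_iff]; simp) (by simp)]
      simp
    · intro y
      change cf y = 0 ↔ _
      constructor
      · intro h
        have h2 : ph (D y) ≠ 0 := fun h => hD y ((gp_dvd_iff _).2 h)
        have h3 : ph (G y) = 0 := by
          rcases mul_eq_zero.1 h with h | h
          · exact h
          · exact absurd (inv_eq_zero.1 h) h2
        obtain ⟨g', hg'⟩ := (gp_dvd_iff _).2 h3
        have hDy := coe_ne_zero_of_not_dvd (hD y)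
        obtain ⟨y', hy'⟩ := hmem (g' * gq / D y) ⟨g' * gq, D y, hD y, by
          rw [map_mul]; field_simp⟩
        refine ⟨y', hj ?_⟩
        rw [map_mul, ha, hy']
        have h4 := hG y
        rw [hg', map_mul, coe_gp] at h4
        rw [coe_gq, aC]
        rw [show j y = (2 + Complex.I) * g' / D y by rw [eq_div_iff hDy]; exact h4]
        field_simp
      · rintro ⟨y', rfl⟩
        have h1 : cf (a * y') = ph (gp * G y') * (ph (gq * D y'))⁻¹ := by
          apply hcf
          · intro h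
            rcases gp_prime.dvd_or_dvd h with h | h
            · exact gp_not_dvd_gq h
            · exact hD y' h
          · simp only [map_mul, ha]
            rw [← hG y', coe_gp, coe_gq, aC]; field_simp
        rw [h1, map_mul, (gp_dvd_iff gp).1 dvd_rfl, zero_mul, zero_mul]
  · -- the units
    have hun : ∀ k : ℕ, ∃ u : Γˣ, ¬ 5 ∣ k ^ 2 + 1 → j u * (k - Complex.I) = k + Complex.I := by
      intro k
      by_cases hk : 5 ∣ k ^ 2 + 1
      · exact ⟨1, fun h => absurd hk h⟩
      · obtain ⟨h1, h2⟩ := not_dvd_kp_km hk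
        have e1 := coe_ne_zero_of_not_dvd h1
        have e2 := coe_ne_zero_of_not_dvd h2
        obtain ⟨x, hx⟩ := hmem (kp k / km k) ⟨kp k, km k, h2, by field_simp⟩
        obtain ⟨x', hx'⟩ := hmem (km k / kp k) ⟨km k, kp k, h1, by field_simp⟩
        have hxx : x * x' = 1 := by
          apply hj
          rw [map_mul, hx, hx', map_one]; field_simp
        refine ⟨⟨x, x', hxx, by rw [mul_comm]; exact hxx⟩, fun _ => ?_⟩
        change j x * _ = _
        rw [hx, ← coe_kp, ← coe_km]; field_simp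
    choose u hu using hun
    refine ⟨u, hu, ?_⟩
    intro y hy
    obtain ⟨g, d, hd, hg⟩ := hex y
    have hd0 := coe_ne_zero_of_not_dvd hd
    have hg0 : g ≠ 0 := by
      rintro rfl
      rw [GaussianInt.toComplex_zero, mul_eq_zero] at hg
      rcases hg with h | h
      · exact hy (hj (by rw [h, map_zero]))
      · exact hd0 h
    obtain ⟨v, g₀, hg₀, hgv⟩ := WfDvdMonoid.max_power_factor hg0 gp_prime.irreducible
    refine ⟨v, ?_⟩
    intro n k l z hk hl hz
    rcases le_total n v with hnv | hnv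
    · rw [Nat.sub_eq_zero_of_le hnv]; simp
    obtain ⟨g', d', hd', hg'⟩ := hex z
    have hd'0 := coe_ne_zero_of_not_dvd hd'
    have hz' := congrArg j hz
    rw [map_mul, map_mul, map_sub, map_pow, ha] at hz'
    have hkm := (not_dvd_kp_km hk)
    have hlm := (not_dvd_kp_km hl)
    have ekm := coe_ne_zero_of_not_dvd hkm.2
    have elm := coe_ne_zero_of_not_dvd hlm.2
    have huk := hu k hk
    have hul := hu l hl
    rw [← coe_km, ← coe_kp] at huk hul
    have key : gp ^ n * (g' * km k * km l * d) =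
        (2 * ⟨0, 1⟩ * ((l : GaussianInt) - k)) * (g * gq ^ n * d') := by
      rw [← GaussianInt.toComplex_inj]
      have e3 : (2 * ((⟨0, 1⟩ : GaussianInt) : ℂ) * ((l : ℂ) - k)) =
          kp k * km l - kp l * km k := by
        rw [coe_kp, coe_kp, coe_km, coe_km, GaussianInt.toComplex_def]
        simp only [Int.cast_zero, Int.cast_one]
        ring
      simp only [map_mul, map_sub, map_pow, map_natCast, map_ofNat]
      rw [e3, ← hg', ← hg, ← huk, ← hul]
      have e5 : (aC : ℂ) * gq = gp := by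
        rw [coe_gp, coe_gq, aC]; field_simp
      rw [← e5, mul_pow]
      linear_combination (gq : ℂ) ^ n * d' * km k * km l * d * hz'
    have h2 : gp ^ (n - v) ∣ (2 * ⟨0, 1⟩ * (g₀ * gq ^ n * d')) * ((l : GaussianInt) - k) := by
      have h3 : gp ^ v * gp ^ (n - v) ∣
          gp ^ v * ((2 * ⟨0, 1⟩ * (g₀ * gq ^ n * d')) * ((l : GaussianInt) - k)) := by
        rw [← pow_add, Nat.add_sub_cancel' hnv]
        refine ⟨g' * km k * km l * d, ?_⟩
        rw [key, hgv]; ring
      exact (mul_dvd_mul_iff_left (pow_ne_zero _ gp_prime.ne_zero)).1 h3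
    have h4 : ¬ gp ∣ (2 * ⟨0, 1⟩ * (g₀ * gq ^ n * d')) := by
      intro h
      rcases gp_prime.dvd_or_dvd h with h | h
      · rw [gp_dvd_iff, ph_apply] at h
        revert h; simp; decide
      · rcases gp_prime.dvd_or_dvd h with h | h
        · rcases gp_prime.dvd_or_dvd h with h | h
          · exact hg₀ h
          · exact gp_not_dvd_gq (gp_prime.dvd_of_dvd_pow h)
        · exact hd' h
    have h5 := gp_prime.pow_dvd_of_dvd_mul_left _ h4 h2
    have h6 := int_pow_dvd (n - v) ((l : ℤ) - k) (by push_cast; exact h5)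
    have h7 : (k : ℤ) - l = -((l : ℤ) - k) := by ring
    rw [h7, dvd_neg]
    exact h6

end Vale.Agent.P032.T
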