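import Vale.Agent.P032.T.Defs

/-!
P032, block BOCH: Bochner's theorem for countable additive subgroups of `ℂ`.
-/

open MeasureTheory Set Filter Topology
open scoped ENNReal NNReal

namespace Vale.Agent.P032.T

section Reiter

variable {Γ : Type} [AddCommGroup Γ]

/-- finitely supported probability weights that are almost invariant under the elements of `S` -/
theorem exists_reiter (S : Finset Γ) (n : ℕ) (hn : 0 < n) :
    ∃ p : Γ → ℝ, p.support.Finite ∧ (∀ z, 0 ≤ p z) ∧ ∑' z, p z = 1 ∧
      ∀ x ∈ S, ∑' z, |p z - p (z - x)| ≤ 2 / n := by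
  classical
  induction S using Finset.induction_on with
  | empty =>
    refine ⟨Pi.single 0 1, ?_, ?_, ?_, by simp⟩
    · exact (Set.finite_singleton (0 : Γ)).subset (by
        intro z hz
        by_contra h
        simp only [mem_singleton_iff] at h
        simp [h] at hz)
    · intro z; by_cases h : z = 0 <;> simp [h]
    · simp [Pi.single_apply]
  | insert x S hx ih =>
    obtain ⟨p, hfin, h0, h1, hinv⟩ := ih
    -- shifts of `p`
    have hfs : ∀ y : Γ, (Function.support fun z => p (z - y)).Finite := by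
      intro y
      have : (Function.support fun z => p (z - y)) = (fun z => z - y) ⁻¹' p.support := rfl
      rw [this]
      exact hfin.preimage (by intro a _ b _ h; simpa using h)
    have hsum : ∀ y : Γ, Summable fun z => p (z - y) := fun y =>
      summable_of_hasFiniteSupport (hfs y)
    have hts : ∀ y : Γ, ∑' z, p (z - y) = 1 := by
      intro y
      rw [← h1]
      exact (Equiv.subRight y).tsum_eq p
    refine ⟨fun z => (1 / n : ℝ) * ∑ j ∈ Finset.range n, p (z - j • x), ?_, ?_, ?_, ?_⟩
    · have : (Function.support fun z => (1 / n : ℝ) * ∑ j ∈ Finset.range n, p (z - j • x)) ⊆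
          ⋃ j ∈ Finset.range n, (Function.support fun z => p (z - j • x)) := by
        intro z hz
        simp only [Function.mem_support, ne_eq, mul_eq_zero, not_or] at hz
        obtain ⟨j, hj, hj'⟩ := Finset.exists_ne_zero_of_sum_ne_zero hz.2
        simp only [mem_iUnion]
        exact ⟨j, hj, hj'⟩
      exact ((Finset.range n).finite_toSet.biUnion fun j _ => hfs _).subset this
    · intro z
      exact mul_nonneg (by positivity) (Finset.sum_nonneg fun j _ => h0 _)
    · rw [tsum_mul_left, Summable.tsum_finsetSum (fun j _ => hsum _)]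
      simp only [hts]
      simp
      field_simp
    · intro y hy
      have habs : ∀ a b : Γ, Summable fun z => |p (z - a) - p (z - b)| := fun a b =>
        ((hsum a).sub (hsum b)).abs
      rcases Finset.mem_insert.1 hy with rfl | hy
      · -- telescoping
        have htel : ∀ z, (1 / n : ℝ) * ∑ j ∈ Finset.range n, p (z - j • y) -
            (1 / n : ℝ) * ∑ j ∈ Finset.range n, p (z - y - j • y) =
            (1 / n : ℝ) * (p z - p (z - n • y)) := by
          intro z
          rw [← mul_sub, ← Finset.sum_sub_distrib]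
          congr 1
          have := Finset.sum_range_sub' (fun j => p (z - j • y)) n
          simp only [zero_smul, sub_zero] at this
          rw [← this]
          refine Finset.sum_congr rfl fun j _ => ?_
          congr 2
          rw [succ_nsmul]; abel
        calc ∑' z, |(1 / n : ℝ) * ∑ j ∈ Finset.range n, p (z - j • y) -
            (1 / n : ℝ) * ∑ j ∈ Finset.range n, p (z - y - j • y)|
            = ∑' z, (1 / n : ℝ) * |p z - p (z - n • y)| := by
              refine tsum_congr fun z => ?_
              rw [htel, abs_mul, abs_of_nonneg (by positivity : (0:ℝ) ≤ 1 / n)]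
          _ = (1 / n : ℝ) * ∑' z, |p z - p (z - n • y)| := tsum_mul_left
          _ ≤ (1 / n : ℝ) * 2 := by
              apply mul_le_mul_of_nonneg_left _ (by positivity)
              have hs0 : Summable p := by simpa using hsum 0
              calc ∑' z, |p z - p (z - n • y)| ≤ ∑' z, (p z + p (z - n • y)) := by
                    refine Summable.tsum_le_tsum (fun z => ?_) ?_ (hs0.add (hsum _))
                    · rw [abs_le]; constructor <;> linarith [h0 z, h0 (z - n • y)]
                    · exact (hs0.sub (hsum _)).abs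
                _ = 2 := by rw [hs0.tsum_add (hsum _), h1, hts]; norm_num
          _ = 2 / n := by ring
      · have hyy := hinv y hy
        calc ∑' z, |(1 / n : ℝ) * ∑ j ∈ Finset.range n, p (z - j • x) -
            (1 / n : ℝ) * ∑ j ∈ Finset.range n, p (z - y - j • x)|
            ≤ ∑' z, (1 / n : ℝ) * ∑ j ∈ Finset.range n, |p (z - j • x) - p (z - (y + j • x))| := by
              refine Summable.tsum_le_tsum (fun z => ?_) ?_ ?_
              · rw [← mul_sub, abs_mul, abs_of_nonneg (by positivity : (0:ℝ) ≤ 1 / n),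
                  ← Finset.sum_sub_distrib]
                apply mul_le_mul_of_nonneg_left _ (by positivity)
                refine (Finset.abs_sum_le_sum_abs _ _).trans (le_of_eq ?_)
                refine Finset.sum_congr rfl fun j _ => ?_
                rw [sub_sub]
              · have : Summable fun z => ((1 / n : ℝ) * ∑ j ∈ Finset.range n, p (z - j • x) -
                    (1 / n : ℝ) * ∑ j ∈ Finset.range n, p (z - y - j • x)) := by
                  apply Summable.sub
                  · exact (summable_sum fun j _ => hsum _).mul_left _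
                  · refine (summable_sum fun j _ => ?_).mul_left _
                    simpa only [sub_sub] using hsum (y + j • x)
                exact this.abs
              · exact (summable_sum fun j _ => habs _ _).mul_left _
          _ = (1 / n : ℝ) * ∑ j ∈ Finset.range n, ∑' z, |p (z - j • x) - p (z - (y + j • x))| := by
              rw [tsum_mul_left, Summable.tsum_finsetSum (fun j _ => habs _ _)]
          _ ≤ (1 / n : ℝ) * ∑ j ∈ Finset.range n, (2 / n : ℝ) := by
              apply mul_le_mul_of_nonneg_left _ (by positivity)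
              refine Finset.sum_le_sum fun j _ => ?_
              have := (Equiv.subRight (j • x)).tsum_eq fun z => |p z - p (z - y)|
              simp only [Equiv.subRight_apply] at this
              have h2 : ∀ z : Γ, z - (y + j • x) = z - j • x - y := fun z => by abel
              simp only [h2]
              rw [this]
              exact hyy
          _ = 2 / n := by
              simp
              field_simp

/-- the autocorrelation of `w` -/
noncomputable def KF (F : Finset Γ) (w : Γ → ℝ) (x : Γ) : ℝ := by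
  classical
  exact ∑ z ∈ F, ∑ y ∈ F, if z - y = x then w z * w y else 0

theorem sqrt_sub_sq_le {a b : ℝ} (ha : 0 ≤ a) (hb : 0 ≤ b) : (√a - √b) ^ 2 ≤ |a - b| := by
  have h1 : a - b = (√a - √b) * (√a + √b) := by
    ring_nf
    rw [Real.sq_sqrt ha, Real.sq_sqrt hb]
  rw [h1, abs_mul, ← sq_abs, sq]
  apply mul_le_mul_of_nonneg_left _ (abs_nonneg _)
  rw [abs_of_nonneg (by positivity : 0 ≤ √a + √b), abs_le]
  constructor <;> linarith [Real.sqrt_nonneg a, Real.sqrt_nonneg b]

theorem exists_approx (S : Finset Γ) (n : ℕ) (hn : 0 < n) :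
    ∃ (F : Finset Γ) (w : Γ → ℝ), ∑ z ∈ F, w z ^ 2 = 1 ∧
      ∀ x ∈ S, |KF F w x - 1| ≤ 1 / n := by
  classical
  obtain ⟨p, hfin, h0, h1, hinv⟩ := exists_reiter S n hn
  have hp0 : ∀ z, z ∉ hfin.toFinset → p z = 0 := by
    intro z hz
    simpa using hz
  have hsum1 : ∑ z ∈ hfin.toFinset, p z = 1 := by
    rw [← h1]
    exact (tsum_eq_sum fun z hz => hp0 z hz).symm
  refine ⟨hfin.toFinset, fun z => √(p z), ?_, ?_⟩
  · rw [← hsum1]
    exact Finset.sum_congr rfl fun z _ => Real.sq_sqrt (h0 z)
  · intro x hx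
    have hK : KF hfin.toFinset (fun z => √(p z)) x = ∑' z, √(p z) * √(p (z - x)) := by
      rw [tsum_eq_sum (s := hfin.toFinset)]
      · unfold KF
        refine Finset.sum_congr rfl fun z _ => ?_
        have : ∀ y : Γ, (z - y = x) ↔ y = z - x := fun y => by
          constructor
          · rintro rfl; abel
          · rintro rfl; abel
        simp only [this]
        rw [Finset.sum_ite_eq']
        split_ifs with h
        · rfl
        · rw [hp0 _ h]; simp
      · intro z hz
        rw [hp0 z hz]; simp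
    have hs0 : Summable p := summable_of_hasFiniteSupport hfin
    have hsx : Summable fun z => p (z - x) := (Equiv.subRight x).summable_iff.2 hs0
    have htx : ∑' z, p (z - x) = 1 := by rw [← h1]; exact (Equiv.subRight x).tsum_eq p
    have hsm : Summable fun z => √(p z) * √(p (z - x)) := by
      apply summable_of_hasFiniteSupport
      apply hfin.subset
      intro z hz
      simp only [Function.mem_support] at hz ⊢
      intro h
      apply hz
      rw [h]; simp
    have hsq : ∑' z, (√(p z) - √(p (z - x))) ^ 2 = 2 - 2 * ∑' z, √(p z) * √(p (z - x)) := by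
      have : ∀ z, (√(p z) - √(p (z - x))) ^ 2 = p z + p (z - x) - 2 * (√(p z) * √(p (z - x))) := by
        intro z
        ring_nf
        rw [Real.sq_sqrt (h0 _), Real.sq_sqrt (h0 _)]
      simp only [this]
      rw [(hs0.add hsx).tsum_sub (hsm.mul_left 2), hs0.tsum_add hsx, h1, htx, tsum_mul_left]
      norm_num
    have hsqs : Summable fun z => (√(p z) - √(p (z - x))) ^ 2 := by
      have : ∀ z, (√(p z) - √(p (z - x))) ^ 2 = p z + p (z - x) - 2 * (√(p z) * √(p (z - x))) := by
        intro z
        ring_nf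
        rw [Real.sq_sqrt (h0 _), Real.sq_sqrt (h0 _)]
      simp only [this]
      exact (hs0.add hsx).sub (hsm.mul_left 2)
    have hle : ∑' z, (√(p z) - √(p (z - x))) ^ 2 ≤ 2 / n :=
      (Summable.tsum_le_tsum (fun z => sqrt_sub_sq_le (h0 z) (h0 (z - x))) hsqs
        (hs0.sub hsx).abs).trans (hinv x hx)
    have hge : 0 ≤ ∑' z, (√(p z) - √(p (z - x))) ^ 2 := tsum_nonneg fun z => sq_nonneg _
    rw [hK, abs_le]
    have h2 : (2 : ℝ) / n = 2 * (1 / n) := by ring
    constructor <;> linarith

end Reiter

section Haar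

variable (Γ : Type) [AddCommGroup Γ]

/-- the group of characters, as a subgroup of the product of circles -/
def charGroup : Subgroup (Γ → Circle) where
  carrier := {χ | IsChar χ}
  mul_mem' := by
    intro a b ha hb x y
    simp only [Pi.mul_apply]
    rw [ha x y, hb x y]
    exact mul_mul_mul_comm _ _ _ _
  one_mem' := by intro x y; simp
  inv_mem' := by
    intro a ha x y
    simp only [Pi.inv_apply]
    rw [ha x y, mul_inv]

theorem mem_charGroup {χ : Γ → Circle} : χ ∈ charGroup Γ ↔ IsChar χ := Iff.rfl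

theorem isClosed_charGroup : IsClosed (charGroup Γ : Set (Γ → Circle)) := by
  have : (charGroup Γ : Set (Γ → Circle)) = ⋂ x, ⋂ y, {χ | χ (x + y) = χ x * χ y} := by
    ext χ
    simp only [SetLike.mem_coe, mem_charGroup, IsChar, mem_iInter, mem_ofPred_eq]
  rw [this]
  exact isClosed_iInter fun x => isClosed_iInter fun y => isClosed_eq (by fun_prop) (by fun_prop)

instance : CompactSpace (charGroup Γ) :=
  isCompact_iff_compactSpace.1 (isClosed_charGroup Γ).isCompact

instance [Countable Γ] : BorelSpace (charGroup Γ) := Subtype.borelSpace _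

variable {Γ}

theorem exists_char_ne (j : Γ →+ ℂ) (hj : Function.Injective j) {x : Γ} (hx : x ≠ 0) :
    ∃ g : charGroup Γ, g.1 x ≠ 1 := by
  have hjx : j x ≠ 0 := fun h => hx (hj (by simpa using h))
  refine ⟨⟨fun y => ex ((1 / (2 * j x)) * j y).re, ?_⟩, ?_⟩
  · intro y z
    simp only [map_add, mul_add, Complex.add_re, ex]
    rw [Circle.exp_add]
  · have : ((1 / (2 * j x)) * j x).re = 1 / 2 := by
      have : (1 / (2 * j x)) * j x = 1 / 2 := by field_simp
      rw [this]; norm_num
    simp only [this, ex]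
    rw [show 2 * Real.pi * (1 / 2) = Real.pi by ring]
    intro h
    have := congrArg (fun z : Circle => (z : ℂ)) h
    simp [Circle.coe_exp, Complex.exp_pi_mul_I] at this
    norm_num at this

/-- normalised Haar measure -/
noncomputable def HH (Γ : Type) [AddCommGroup Γ] [Countable Γ] : Measure (charGroup Γ) :=
  Measure.haarMeasure ⊤

instance [Countable Γ] : (HH Γ).IsHaarMeasure := by unfold HH; infer_instance

instance [Countable Γ] : IsProbabilityMeasure (HH Γ) := by
  constructor
  have := Measure.haarMeasure_self (K₀ := (⊤ : TopologicalSpace.PositiveCompacts (charGroup Γ)))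
  simpa [HH] using this

theorem integral_char [Countable Γ] (j : Γ →+ ℂ) (hj : Function.Injective j) {x : Γ}
    (hx : x ≠ 0) : ∫ χ : charGroup Γ, ((χ.1 x : Circle) : ℂ) ∂(HH Γ) = 0 := by
  obtain ⟨g, hg⟩ := exists_char_ne j hj hx
  have h1 := integral_mul_left_eq_self (μ := HH Γ) (fun χ : charGroup Γ => ((χ.1 x : Circle) : ℂ)) g
  simp only [Subgroup.coe_mul, Pi.mul_apply, Circle.coe_mul] at h1
  rw [integral_const_mul] at h1
  have h2 : ((g.1 x : Circle) : ℂ) ≠ 1 := by
    intro h; exact hg (Circle.ext (by simpa using h))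
  have h3 : (((g.1 x : Circle) : ℂ) - 1) *
      ∫ χ : charGroup Γ, ((χ.1 x : Circle) : ℂ) ∂(HH Γ) = 0 := by
    rw [sub_mul, one_mul, h1, sub_self]
  rcases mul_eq_zero.1 h3 with h | h
  · exact absurd (sub_eq_zero.1 h) h2
  · exact h

/-- the density -/
noncomputable def PP (f : Γ → ℝ) (F : Finset Γ) (w : Γ → ℝ) (χ : charGroup Γ) : ℝ :=
  ∑ z ∈ F, ∑ y ∈ F, w z * w y * f (z - y) *
    (((χ.1 z : Circle) : ℂ).re * ((χ.1 y : Circle) : ℂ).re +
      ((χ.1 z : Circle) : ℂ).im * ((χ.1 y : Circle) : ℂ).im)

theorem PP_nonneg {f : Γ → ℝ} (hf : PosDef f) (F : Finset Γ) (w : Γ → ℝ) (χ : charGroup Γ) :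
    0 ≤ PP f F w χ := by
  have h1 := hf F fun z => w z * ((χ.1 z : Circle) : ℂ).re
  have h2 := hf F fun z => w z * ((χ.1 z : Circle) : ℂ).im
  have : PP f F w χ = (∑ x ∈ F, ∑ y ∈ F, (w x * ((χ.1 x : Circle) : ℂ).re) *
      (w y * ((χ.1 y : Circle) : ℂ).re) * f (x - y)) + ∑ x ∈ F, ∑ y ∈ F,
      (w x * ((χ.1 x : Circle) : ℂ).im) * (w y * ((χ.1 y : Circle) : ℂ).im) * f (x - y) := by
    unfold PP
    rw [← Finset.sum_add_distrib]
    refine Finset.sum_congr rfl fun x _ => ?_
    rw [← Finset.sum_add_distrib]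
    refine Finset.sum_congr rfl fun y _ => ?_
    ring
  rw [this]; positivity

theorem char_sub (χ : charGroup Γ) (z y : Γ) : ((χ.1 (z - y) : Circle) : ℂ) =
    (χ.1 z : ℂ) * (starRingEnd ℂ) (χ.1 y : ℂ) := by
  have h : χ.1 z = χ.1 (z - y) * χ.1 y := by
    rw [← χ.2 (z - y) y, sub_add_cancel]
  have h2 : χ.1 (z - y) = χ.1 z * (χ.1 y)⁻¹ := by rw [h]; simp
  rw [h2, Circle.coe_mul, Circle.coe_inv_eq_conj]

theorem PP_eq (f : Γ → ℝ) (F : Finset Γ) (w : Γ → ℝ) (χ : charGroup Γ) :
    ((PP f F w χ : ℝ) : ℂ) = ∑ z ∈ F, ∑ y ∈ F, ((w z * w y * f (z - y) / 2 : ℝ) : ℂ) *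
      ((χ.1 (z - y) : ℂ) + (χ.1 (y - z) : ℂ)) := by
  unfold PP
  push_cast
  refine Finset.sum_congr rfl fun z _ => Finset.sum_congr rfl fun y _ => ?_
  rw [char_sub, char_sub]
  generalize ((χ.1 z : Circle) : ℂ) = a
  generalize ((χ.1 y : Circle) : ℂ) = b
  have : a * (starRingEnd ℂ) b + b * (starRingEnd ℂ) a = 2 * (a.re * b.re + a.im * b.im) := by
    apply Complex.ext <;> simp <;> ring
  rw [this]; ring

theorem continuous_coeC : Continuous fun z : Circle => (z : ℂ) := continuous_subtype_val

omit [AddCommGroup Γ] in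
theorem continuous_evP (x : Γ) : Continuous fun χ : Γ → Circle => ((χ x : Circle) : ℂ) :=
  continuous_coeC.comp (continuous_apply x)

@[fun_prop]
theorem continuous_ev (x : Γ) : Continuous fun χ : charGroup Γ => ((χ.1 x : Circle) : ℂ) :=
  continuous_coeC.comp ((continuous_apply x).comp continuous_subtype_val)

theorem continuous_PP (f : Γ → ℝ) (F : Finset Γ) (w : Γ → ℝ) : Continuous (PP f F w) := by
  unfold PP
  refine continuous_finsetSum _ fun z _ => continuous_finsetSum _ fun y _ =>
    Continuous.mul continuous_const ?_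
  exact ((Complex.continuous_re.comp (continuous_ev z)).mul
    (Complex.continuous_re.comp (continuous_ev y))).add
    ((Complex.continuous_im.comp (continuous_ev z)).mul (Complex.continuous_im.comp (continuous_ev y)))

theorem integrable_of_cont [Countable Γ] {E : Type*} [NormedAddCommGroup E]
    {g : charGroup Γ → E} (hg : Continuous g) : Integrable g (HH Γ) :=
  hg.integrable_of_hasCompactSupport (HasCompactSupport.of_compactSpace g)

open Classical in
theorem integral_char' [Countable Γ] (j : Γ →+ ℂ) (hj : Function.Injective j) (x : Γ) :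
    ∫ χ : charGroup Γ, ((χ.1 x : Circle) : ℂ) ∂(HH Γ) = if x = 0 then 1 else 0 := by
  split_ifs with h
  · subst h
    have : ∀ χ : charGroup Γ, ((χ.1 0 : Circle) : ℂ) = 1 := by
      intro χ
      have := char_sub χ 0 0
      rw [sub_zero] at this
      have h2 : χ.1 0 = 1 := by
        have h3 := χ.2 0 0
        rw [add_zero] at h3
        exact (mul_eq_left.1 h3.symm)
      rw [h2]; simp
    simp [this]
  · exact integral_char j hj h

theorem integral_PP [Countable Γ] (j : Γ →+ ℂ) (hj : Function.Injective j) {f : Γ → ℝ}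
    (he : ∀ x, f (-x) = f x) (F : Finset Γ) (w : Γ → ℝ) (x : Γ) :
    ∫ χ : charGroup Γ, (χ.1 x : ℂ) * ((PP f F w χ : ℝ) : ℂ) ∂(HH Γ) = f x * KF F w x := by
  classical
  have h1 : ∀ χ : charGroup Γ, (χ.1 x : ℂ) * ((PP f F w χ : ℝ) : ℂ) =
      ∑ z ∈ F, ∑ y ∈ F, ((w z * w y * f (z - y) / 2 : ℝ) : ℂ) *
      ((χ.1 (x + (z - y)) : ℂ) + (χ.1 (x + (y - z)) : ℂ)) := by
    intro χ
    rw [PP_eq, Finset.mul_sum]
    refine Finset.sum_congr rfl fun z _ => ?_
    rw [Finset.mul_sum]
    refine Finset.sum_congr rfl fun y _ => ?_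
    rw [χ.2 x (z - y), χ.2 x (y - z)]
    push_cast
    ring
  simp only [h1]
  rw [integral_finsetSum _ fun z _ => integrable_of_cont (by fun_prop)]
  have h2 : ∀ z ∈ F, ∫ χ : charGroup Γ, ∑ y ∈ F, ((w z * w y * f (z - y) / 2 : ℝ) : ℂ) *
      ((χ.1 (x + (z - y)) : ℂ) + (χ.1 (x + (y - z)) : ℂ)) ∂(HH Γ) =
      ∑ y ∈ F, ((w z * w y * f (z - y) / 2 : ℝ) : ℂ) *
        ((if x + (z - y) = 0 then 1 else 0) + (if x + (y - z) = 0 then 1 else 0)) := by
    intro z _
    rw [integral_finsetSum _ fun y _ => integrable_of_cont (by fun_prop)]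
    refine Finset.sum_congr rfl fun y _ => ?_
    rw [integral_const_mul, integral_add (integrable_of_cont (by fun_prop))
      (integrable_of_cont (by fun_prop)), integral_char' j hj, integral_char' j hj]
  rw [Finset.sum_congr rfl h2]
  have h3 : KF F w x = ∑ z ∈ F, ∑ y ∈ F, if y - z = x then w z * w y else 0 := by
    unfold KF
    rw [Finset.sum_comm]
    refine Finset.sum_congr rfl fun z _ => Finset.sum_congr rfl fun y _ => ?_
    rw [mul_comm]
  have h4 : (f x : ℂ) * (KF F w x : ℂ) = ((f x * (KF F w x / 2 + KF F w x / 2) : ℝ) : ℂ) := by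
    push_cast; ring
  rw [h4]
  nth_rewrite 2 [h3]
  unfold KF
  push_cast
  rw [mul_add, Finset.sum_div, Finset.sum_div, Finset.mul_sum, Finset.mul_sum,
    ← Finset.sum_add_distrib]
  refine Finset.sum_congr rfl fun z _ => ?_
  rw [Finset.sum_div, Finset.sum_div, Finset.mul_sum, Finset.mul_sum, ← Finset.sum_add_distrib]
  refine Finset.sum_congr rfl fun y _ => ?_
  have e1 : x + (z - y) = 0 ↔ y - z = x := by
    constructor
    · intro h; have := eq_neg_of_add_eq_zero_left h; rw [this]; abel
    · rintro rfl; abel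
  have e2 : x + (y - z) = 0 ↔ z - y = x := by
    constructor
    · intro h; have := eq_neg_of_add_eq_zero_left h; rw [this]; abel
    · rintro rfl; abel
  simp only [e1, e2]
  by_cases c1 : y - z = x <;> by_cases c2 : z - y = x
  · have : f (z - y) = f x := by rw [c2]
    simp only [c1, c2, if_true]; push_cast; ring
  · have : f (z - y) = f x := by rw [← c1, ← he, neg_sub]
    simp only [c1, c2, if_true, if_false, this]; push_cast; ring
  · simp only [c1, c2, if_true, if_false]; push_cast; ring
  · simp only [c1, c2, if_false]; simp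

end Haar

section Main

variable {Γ : Type} [AddCommGroup Γ]

theorem KF_zero (F : Finset Γ) (w : Γ → ℝ) : KF F w 0 = ∑ z ∈ F, w z ^ 2 := by
  classical
  unfold KF
  refine Finset.sum_congr rfl fun z hz => ?_
  have : ∀ y : Γ, (z - y = 0) ↔ z = y := fun y => sub_eq_zero
  simp only [this]
  rw [Finset.sum_ite_eq]
  simp [hz, sq]

theorem KF_nonneg_zero {f : Γ → ℝ} (hf : PosDef f) : 0 ≤ f 0 := by
  have := hf {0} fun _ => 1
  simpa using this

variable [Countable Γ]

/-- the approximating measures -/
noncomputable def nuM (f : Γ → ℝ) (F : Finset Γ) (w : Γ → ℝ) : Measure (charGroup Γ) :=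
  (HH Γ).withDensity fun χ => ENNReal.ofReal (PP f F w χ)

theorem integral_nuM {f : Γ → ℝ} (hf : PosDef f) (F : Finset Γ) (w : Γ → ℝ)
    (g : charGroup Γ → ℂ) :
    ∫ χ, g χ ∂(nuM f F w) = ∫ χ, g χ * ((PP f F w χ : ℝ) : ℂ) ∂(HH Γ) := by
  unfold nuM
  rw [integral_withDensity_eq_integral_toReal_smul
    (continuous_PP f F w).measurable.ennreal_ofReal (by simp)]
  refine integral_congr_ae (Eventually.of_forall fun χ => ?_)
  simp only
  rw [ENNReal.toReal_ofReal (PP_nonneg hf F w χ), Complex.real_smul, mul_comm]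

theorem nuM_univ (j : Γ →+ ℂ) (hj : Function.Injective j) {f : Γ → ℝ} (hf : PosDef f)
    (he : ∀ x, f (-x) = f x) (F : Finset Γ) (w : Γ → ℝ) (hw : ∑ z ∈ F, w z ^ 2 = 1) :
    nuM f F w univ = ENNReal.ofReal (f 0) := by
  unfold nuM
  rw [withDensity_apply _ MeasurableSet.univ, Measure.restrict_univ,
    ← ofReal_integral_eq_lintegral_ofReal (integrable_of_cont (continuous_PP f F w))
      (Eventually.of_forall fun χ => PP_nonneg hf F w χ)]
  congr 1
  have h := integral_PP j hj he F w 0
  have h0 : ∀ χ : charGroup Γ, ((χ.1 0 : Circle) : ℂ) = 1 := by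
    intro χ
    have h3 := χ.2 0 0
    rw [add_zero] at h3
    rw [mul_eq_left.1 h3.symm]; simp
  simp only [h0, one_mul, KF_zero, hw] at h
  rw [integral_complex_ofReal] at h
  have h' : ((∫ χ, PP f F w χ ∂(HH Γ) : ℝ) : ℂ) = ((f 0 : ℝ) : ℂ) := by rw [h]; simp
  exact_mod_cast h'

theorem boch : BochStmt := by
  classical
  intro Γ _ _ j hj f hf he
  obtain ⟨g, hg⟩ := exists_injective_nat Γ
  have hfin : ∀ n : ℕ, {x : Γ | g x ≤ n}.Finite := fun n =>
    (Set.finite_Iic n).preimage hg.injOn
  choose F w hw hK using fun n : ℕ => exists_approx (hfin n).toFinset (n + 1) (Nat.succ_pos n)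
  have hfinM : ∀ n, IsFiniteMeasure (nuM f (F n) (w n)) := fun n =>
    ⟨by rw [nuM_univ j hj hf he _ _ (hw n)]; exact ENNReal.ofReal_lt_top⟩
  let ν : ℕ → FiniteMeasure (Γ → Circle) := fun n =>
    ⟨(nuM f (F n) (w n)).map Subtype.val, by
      have := hfinM n
      infer_instance⟩
  have hνint : ∀ n (h : (Γ → Circle) → ℂ), Continuous h → ∫ χ, h χ ∂(ν n : Measure (Γ → Circle)) =
      ∫ χ : charGroup Γ, h χ.1 ∂(nuM f (F n) (w n)) := by
    intro n h hc
    exact integral_map measurable_subtype_coe.aemeasurable hc.aestronglyMeasurable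
  have hmass : ∀ n, (ν n).mass ≤ Real.toNNReal (f 0) := by
    intro n
    have : ((ν n).mass : ℝ≥0∞) = ENNReal.ofReal (f 0) := by
      rw [FiniteMeasure.ennreal_mass]
      show ((nuM f (F n) (w n)).map Subtype.val) univ = _
      rw [Measure.map_apply measurable_subtype_coe MeasurableSet.univ, preimage_univ,
        nuM_univ j hj hf he _ _ (hw n)]
    have h2 : ((ν n).mass : ℝ≥0∞) ≤ ((Real.toNNReal (f 0) : ℝ≥0) : ℝ≥0∞) := by rw [this]; rfl
    exact_mod_cast h2
  have hcomp := isCompact_setOfPred_finiteMeasure_le_of_compactSpace (Γ → Circle)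
    (Real.toNNReal (f 0))
  obtain ⟨μ, -, hμ⟩ := hcomp.ultrafilter_le_nhds (Ultrafilter.map ν (hyperfilter ℕ))
    (by
      rw [le_principal_iff]
      exact Filter.mem_map.2 (Eventually.of_forall fun n => hmass n))
  have hμ' : Tendsto ν (hyperfilter ℕ : Filter ℕ) (𝓝 μ) := hμ
  rw [FiniteMeasure.tendsto_iff_forall_integral_rclike_tendsto ℂ] at hμ'
  have hlim : ∀ h : (Γ → Circle) → ℂ, Continuous h →
      Tendsto (fun n => ∫ χ : charGroup Γ, h χ.1 ∂(nuM f (F n) (w n))) (hyperfilter ℕ : Filter ℕ)
        (𝓝 (∫ χ, h χ ∂(μ : Measure (Γ → Circle)))) := by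
    intro h hc
    have := hμ' (BoundedContinuousFunction.mkOfCompact ⟨h, hc⟩)
    simp only [BoundedContinuousFunction.mkOfCompact_apply, ContinuousMap.coe_mk] at this
    simpa only [hνint _ h hc] using this
  refine ⟨μ, inferInstance, ?_, ?_⟩
  · have hxy : ∀ x y : Γ, ∀ᵐ χ ∂(μ : Measure (Γ → Circle)), χ (x + y) = χ x * χ y := by
      intro x y
      have hcont : Continuous fun χ : Γ → Circle =>
          ((‖((χ (x + y) : Circle) : ℂ) - (χ x : ℂ) * (χ y : ℂ)‖ : ℝ) : ℂ) := by
        exact Complex.continuous_ofReal.comp (Continuous.norm (Continuous.sub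
          (continuous_evP _) ((continuous_evP x).mul (continuous_evP y))))
      have h0 : ∀ n, ∫ χ : charGroup Γ,
          ((‖((χ.1 (x + y) : Circle) : ℂ) - (χ.1 x : ℂ) * (χ.1 y : ℂ)‖ : ℝ) : ℂ)
            ∂(nuM f (F n) (w n)) = 0 := by
        intro n
        have : ∀ χ : charGroup Γ,
            ((‖((χ.1 (x + y) : Circle) : ℂ) - (χ.1 x : ℂ) * (χ.1 y : ℂ)‖ : ℝ) : ℂ) = 0 := by
          intro χ
          rw [χ.2 x y]; simp
        simp [this]
      have hl := hlim _ hcont
      simp only [h0] at hl
      have hz := tendsto_nhds_unique hl tendsto_const_nhds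
      rw [integral_complex_ofReal] at hz
      have hz' : ∫ χ : Γ → Circle, ‖((χ (x + y) : Circle) : ℂ) - (χ x : ℂ) * (χ y : ℂ)‖
          ∂(μ : Measure (Γ → Circle)) = 0 := by exact_mod_cast hz
      rw [integral_eq_zero_iff_of_nonneg (fun _ => norm_nonneg _)] at hz'
      · filter_upwards [hz'] with χ hχ
        apply Circle.ext
        rw [Circle.coe_mul]
        simpa [sub_eq_zero] using hχ
      · have hc2 : Continuous fun χ : Γ → Circle =>
            ‖((χ (x + y) : Circle) : ℂ) - (χ x : ℂ) * (χ y : ℂ)‖ := by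
          exact Continuous.norm (Continuous.sub
            (continuous_evP _) ((continuous_evP x).mul (continuous_evP y)))
        exact hc2.integrable_of_hasCompactSupport (HasCompactSupport.of_compactSpace _)
    filter_upwards [ae_all_iff.2 fun x => ae_all_iff.2 fun y => hxy x y] with χ hχ x y
    exact hχ x y
  · intro x
    have hcont : Continuous fun χ : Γ → Circle => ((χ x : Circle) : ℂ) :=
      continuous_coeC.comp (continuous_apply _)
    have hl := hlim _ hcont
    have heq : ∀ n, ∫ χ : charGroup Γ, ((χ.1 x : Circle) : ℂ) ∂(nuM f (F n) (w n)) =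
        f x * KF (F n) (w n) x := by
      intro n
      rw [integral_nuM hf, integral_PP j hj he]
    simp only [heq] at hl
    have hK' : Tendsto (fun n => KF (F n) (w n) x) atTop (𝓝 1) := by
      rw [tendsto_iff_dist_tendsto_zero]
      refine squeeze_zero' (Eventually.of_forall fun _ => dist_nonneg)
        (eventually_atTop.2 ⟨g x, fun n hn => ?_⟩)
        tendsto_one_div_add_atTop_nhds_zero_nat
      rw [Real.dist_eq]
      have := hK n x (by simpa using hn)
      exact_mod_cast this
    have h2 : Tendsto (fun n => ((f x : ℝ) : ℂ) * ((KF (F n) (w n) x : ℝ) : ℂ))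
        (hyperfilter ℕ : Filter ℕ) (𝓝 ((f x : ℂ) * ((1 : ℝ) : ℂ))) :=
      ((Complex.continuous_ofReal.tendsto 1).comp
        (hK'.mono_left Nat.hyperfilter_le_atTop)).const_mul _
    rw [tendsto_nhds_unique hl h2]; simp

end Main

end Vale.Agent.P032.T
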