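import Vale.Agent.P032.T.Defs

/-!
P032, block NAME: the deterministic part of the covering argument (`helper321`).
-/

open MeasureTheory Set Filter Topology
open scoped ENNReal

namespace Vale.Agent.P032.T

namespace Name

/-! ### the residue map `Z[i] → Z/5`, `i ↦ -2` -/

/-- the residue modulo `2 + i` -/
def res (x : GaussianInt) : ZMod 5 := (x.re : ZMod 5) - 2 * (x.im : ZMod 5)

theorem five : (5 : ZMod 5) = 0 := by decide

theorem res_mul (x y : GaussianInt) : res (x * y) = res x * res y := by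
  unfold res
  rw [Zsqrtd.re_mul, Zsqrtd.im_mul]
  push_cast
  linear_combination (-(x.im : ZMod 5) * y.im) * five

theorem res_pow (x : GaussianInt) (n : ℕ) : res (x ^ n) = res x ^ n := by
  induction n with
  | zero => simp [res]
  | succ n ih => rw [pow_succ, res_mul, ih, pow_succ]

theorem res_sub (x y : GaussianInt) : res (x - y) = res x - res y := by
  unfold res
  rw [Zsqrtd.re_sub, Zsqrtd.im_sub]
  push_cast
  ring

theorem res_intCast (m : ℤ) : res (m : GaussianInt) = m := by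
  simp [res]

theorem gp_dvd_iff (x : GaussianInt) : gp ∣ x ↔ res x = 0 := by
  have h : res x = 0 ↔ (5 : ℤ) ∣ x.re - 2 * x.im := by
    have h0 := ZMod.intCast_zmod_eq_zero_iff_dvd (x.re - 2 * x.im) 5
    push_cast at h0
    unfold res
    exact h0
  rw [h]
  constructor
  · rintro ⟨y, rfl⟩
    refine ⟨-y.im, ?_⟩
    rw [Zsqrtd.re_mul, Zsqrtd.im_mul]
    simp only [gp]
    ring
  · rintro ⟨d, hd⟩
    refine ⟨⟨x.im + 2 * d, -d⟩, ?_⟩
    ext
    · rw [Zsqrtd.re_mul]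
      simp only [gp]
      linarith
    · rw [Zsqrtd.im_mul]
      simp only [gp]
      ring

theorem exists_int (g h : GaussianInt) (hh : ¬ gp ∣ h) : ∃ m : ℤ, gp ∣ g - m * h := by
  rw [gp_dvd_iff] at hh
  have : Fact (Nat.Prime 5) := ⟨by norm_num⟩
  obtain ⟨m, hm⟩ := ZMod.intCast_surjective (res g * (res h)⁻¹)
  refine ⟨m, ?_⟩
  rw [gp_dvd_iff, res_sub, res_mul, res_intCast, hm, mul_assoc, inv_mul_cancel₀ hh, mul_one, sub_self]

/-- the Gaussian integer `2 - i` -/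
def gb : GaussianInt := ⟨2, -1⟩

theorem res_gb : res gb = 4 := by decide

theorem coe_gb : ((gb : GaussianInt) : ℂ) = 2 - Complex.I := by
  rw [GaussianInt.toComplex_def]
  simp [gb]
  ring

theorem coe_gp : ((gp : GaussianInt) : ℂ) = 2 + Complex.I := by
  rw [GaussianInt.toComplex_def]
  simp [gp]

theorem not_dvd_gb_pow (n : ℕ) : ¬ gp ∣ gb ^ n := by
  have : Fact (Nat.Prime 5) := ⟨by norm_num⟩
  rw [gp_dvd_iff, res_pow, res_gb]
  have h4 : (4 : ZMod 5) ≠ 0 := by decide +revert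
  exact pow_ne_zero _ h4

theorem not_dvd_mul {x y : GaussianInt} (hx : ¬ gp ∣ x) (hy : ¬ gp ∣ y) : ¬ gp ∣ x * y := by
  have : Fact (Nat.Prime 5) := ⟨by norm_num⟩
  rw [gp_dvd_iff] at *
  rw [res_mul]
  exact mul_ne_zero hx hy

theorem ne_zero_of_not_dvd {D : GaussianInt} (hD : ¬ gp ∣ D) : D ≠ 0 := by
  rintro rfl
  exact hD (dvd_zero _)

theorem coe_ne_zero {D : GaussianInt} (hD : D ≠ 0) : (D : ℂ) ≠ 0 := by
  intro h
  exact hD (GaussianInt.toComplex_eq_zero.mp h)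

theorem two_sub_I_ne : (2 - Complex.I : ℂ) ≠ 0 := by
  intro h
  have := congrArg Complex.re h
  simp at this

theorem two_add_I_ne : (2 + Complex.I : ℂ) ≠ 0 := by
  intro h
  have := congrArg Complex.re h
  simp at this

theorem norm_aC : ‖aC‖ = 1 := by
  unfold aC
  rw [norm_div, div_eq_one_iff_eq (norm_ne_zero_iff.mpr two_sub_I_ne)]
  rw [Complex.norm_eq_sqrt_sq_add_sq, Complex.norm_eq_sqrt_sq_add_sq]
  congr 1
  simp

theorem aC_ne : aC ≠ 0 := by
  intro h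
  have := norm_aC
  rw [h] at this
  simp at this

theorem aC_pow_mul (n : ℕ) : aC ^ n * (2 - Complex.I) ^ n = (2 + Complex.I) ^ n := by
  unfold aC
  rw [div_pow, div_mul_cancel₀ _ (pow_ne_zero _ two_sub_I_ne)]

/-! ### fifth roots of unity near `1` -/

theorem fifth_root {ω : ℂ} (h5 : ω ^ 5 = 1) (hn : ‖ω‖ = 1) (h1 : ‖ω - 1‖ < 1) : ω = 1 := by
  obtain ⟨x, y⟩ := ω
  have hxy : x ^ 2 + y ^ 2 = 1 := by
    have := Complex.sq_norm (⟨x, y⟩ : ℂ)
    rw [hn, Complex.normSq_mk] at this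
    nlinarith
  have hx : 1 / 2 < x := by
    have h2 := Complex.sq_norm ((⟨x, y⟩ : ℂ) - 1)
    rw [Complex.normSq_apply] at h2
    simp only [Complex.sub_re, Complex.one_re, Complex.sub_im, Complex.one_im, sub_zero] at h2
    have h3 : ‖(⟨x, y⟩ : ℂ) - 1‖ ^ 2 < 1 := by
      have := norm_nonneg ((⟨x, y⟩ : ℂ) - 1)
      nlinarith
    nlinarith
  have hre := congrArg Complex.re h5
  have e : ((⟨x, y⟩ : ℂ) ^ 5).re = x ^ 5 - 10 * x ^ 3 * y ^ 2 + 5 * x * y ^ 4 := by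
    simp only [pow_succ, pow_zero, one_mul, Complex.mul_re, Complex.mul_im]
    ring
  rw [e, Complex.one_re] at hre
  have hy2 : y ^ 2 = 1 - x ^ 2 := by linarith
  have hy4 : y ^ 4 = (1 - x ^ 2) ^ 2 := by rw [← hy2]; ring
  rw [hy2, hy4] at hre
  have hfac : (x - 1) * (4 * x ^ 2 + 2 * x - 1) ^ 2 = 0 := by linear_combination hre
  have hpos : 0 < 4 * x ^ 2 + 2 * x - 1 := by nlinarith
  have hx1 : x = 1 := by
    rcases mul_eq_zero.mp hfac with h | h
    · linarith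
    · exact absurd (pow_eq_zero_iff (two_ne_zero)|>.mp h) hpos.ne'
  have hy0 : y = 0 := by
    rw [hx1] at hy2
    have : y ^ 2 = 0 := by rw [hy2]; ring
    exact pow_eq_zero_iff (two_ne_zero)|>.mp this
  rw [hx1, hy0]
  rfl

/-! ### the exponential -/

theorem ex_add (x y : ℝ) : ex (x + y) = ex x * ex y := by
  unfold ex
  rw [mul_add, Circle.exp_add]

theorem ex_zero : ex 0 = 1 := by simp [ex]

theorem ex_nsmul (n : ℕ) (x : ℝ) : ex (n * x) = ex x ^ n := by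
  induction n with
  | zero => simp [ex_zero]
  | succ n ih => rw [pow_succ, ← ih, ← ex_add]; push_cast; ring_nf

theorem ex_neg (x : ℝ) : ex (-x) = (ex x)⁻¹ := by
  rw [eq_inv_iff_mul_eq_one, ← ex_add, neg_add_cancel, ex_zero]

theorem ex_zsmul (m : ℤ) (x : ℝ) : ex (m * x) = ex x ^ m := by
  obtain ⟨n, rfl | rfl⟩ := m.eq_nat_or_neg
  · rw [zpow_natCast, ← ex_nsmul]; push_cast; rfl
  · rw [zpow_neg, zpow_natCast, ← ex_nsmul, ← ex_neg]; push_cast; ring_nf

theorem dist_ex_one (x : ℝ) : dist (ex x) 1 ≤ 2 * Real.pi * |x| := by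
  have h1 : dist (ex x) 1 = ‖Complex.exp ((2 * Real.pi * x : ℝ) * Complex.I) - 1‖ := by
    change dist ((ex x : Circle) : ℂ) ((1 : Circle) : ℂ) = _
    rw [dist_eq_norm]
    simp [ex, Circle.coe_exp]
  rw [h1]
  have h2 := Real.norm_exp_I_mul_ofReal_sub_one_le (x := 2 * Real.pi * x)
  rw [mul_comm] at h2
  refine (h2).trans ?_
  rw [Real.norm_eq_abs, abs_mul, abs_of_pos Real.two_pi_pos]

theorem exists_ex (z : Circle) : ∃ s : ℝ, z = ex s ∧ |s| ≤ dist z 1 / 4 := by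
  refine ⟨(z : ℂ).arg / (2 * Real.pi), ?_, ?_⟩
  · unfold ex
    rw [mul_div_cancel₀ _ Real.two_pi_pos.ne', Circle.exp_arg]
  · have h1 := Complex.angle_le_mul_norm_sub (x := (1 : ℂ)) (y := (z : ℂ)) (by simp)
      (Circle.norm_coe z)
    rw [Complex.angle_one_left (Circle.coe_ne_zero z)] at h1
    have h2 : dist z 1 = ‖(1 : ℂ) - (z : ℂ)‖ := by
      change dist ((z : Circle) : ℂ) ((1 : Circle) : ℂ) = _
      rw [dist_eq_norm, norm_sub_rev]
      simp
    rw [h2, abs_div, abs_of_pos Real.two_pi_pos, div_le_div_iff₀ Real.two_pi_pos (by norm_num)]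
    nlinarith [Real.pi_pos]

/-! ### characters -/

section
variable {Γ : Type*} [AddCommGroup Γ] {δ : Γ → Circle}

theorem char_zero (h : IsChar δ) : δ 0 = 1 := by
  have := h 0 0
  rw [add_zero] at this
  exact (left_eq_mul.mp this)

theorem char_nsmul (h : IsChar δ) (n : ℕ) (x : Γ) : δ (n • x) = δ x ^ n := by
  induction n with
  | zero => simp [char_zero h]
  | succ n ih => rw [succ_nsmul, h, ih, pow_succ]

theorem char_neg (h : IsChar δ) (x : Γ) : δ (-x) = (δ x)⁻¹ := by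
  rw [eq_inv_iff_mul_eq_one, ← h, neg_add_cancel, char_zero h]

theorem char_zsmul (h : IsChar δ) (m : ℤ) (x : Γ) : δ (m • x) = δ x ^ m := by
  obtain ⟨n, rfl | rfl⟩ := m.eq_nat_or_neg
  · rw [zpow_natCast, natCast_zsmul, char_nsmul h]
  · rw [zpow_neg, zpow_natCast, neg_smul, char_neg h, natCast_zsmul, char_nsmul h]

end

/-! ### membership -/

theorem aC_pow_mem (l : ℕ) : aC ^ l ∈ RRset := by
  refine ⟨gp ^ l, gb ^ l, not_dvd_gb_pow l, ?_⟩
  rw [map_pow, map_pow, coe_gb, coe_gp, aC_pow_mul]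

theorem aC_pow_div_mem {D : GaussianInt} (hD : ¬ gp ∣ D) (n : ℕ) : aC ^ n / D ∈ RRset := by
  have hD0 := coe_ne_zero (ne_zero_of_not_dvd hD)
  refine ⟨gp ^ n, D * gb ^ n, not_dvd_mul hD (not_dvd_gb_pow n), ?_⟩
  rw [map_mul, map_pow, map_pow, coe_gb, coe_gp, ← aC_pow_mul]
  field_simp

theorem I_aC_pow_div_mem {D : GaussianInt} (hD : ¬ gp ∣ D) (n : ℕ) :
    Complex.I * (aC ^ n / D) ∈ RRset := by
  have hD0 := coe_ne_zero (ne_zero_of_not_dvd hD)
  refine ⟨⟨0, 1⟩ * gp ^ n, D * gb ^ n, not_dvd_mul hD (not_dvd_gb_pow n), ?_⟩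
  rw [map_mul, map_mul, map_pow, map_pow, coe_gb, coe_gp, ← aC_pow_mul]
  have : (((⟨0, 1⟩ : GaussianInt)) : ℂ) = Complex.I := by
    rw [GaussianInt.toComplex_def]; simp
  rw [this]
  field_simp

section
variable {Γ : Type} [AddCommGroup Γ] {j : Γ →+ ℂ} {δ : Γ → Circle} {D : GaussianInt}

theorem step (hr : range j = RRset) (hD : ¬ gp ∣ D)
    (hδ : IsChar δ) {n l : ℕ} (hl : l < n) {ξ : ℂ} (hξ : ‖ξ‖ ≤ 1 / 20)
    (hlin : LinOn j δ ξ (LL D (l + 1) n))
    (hd : ∀ y : Γ, j y = aC ^ l → dist (δ y) 1 ≤ 1 / 2) : LinOn j δ ξ (LL D l n) := by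
  obtain ⟨yl, hyl⟩ : aC ^ l ∈ range j := by rw [hr]; exact aC_pow_mem l
  have hsplit : (2 - Complex.I : ℂ) ^ n = (2 - Complex.I) ^ l * (2 - Complex.I) ^ (n - l) := by
    rw [← pow_add, Nat.add_sub_cancel' hl.le]
  have hsplit' : (2 - Complex.I : ℂ) ^ (n - l + 1) = (2 - Complex.I) ^ (n - l) * (2 - Complex.I) :=
    pow_succ _ _
  have hpm := aC_pow_mul l
  have h5 : (5 : ℂ) = (2 + Complex.I) * (2 - Complex.I) := by
    have := Complex.I_sq
    linear_combination this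
  -- the value at `a^l`
  have hmem : j ((5 : ℕ) • yl) ∈ LL D (l + 1) n := by
    refine ⟨D * gb ^ (n - l + 1), ?_⟩
    rw [map_nsmul, hyl, nsmul_eq_mul, map_mul, map_pow, coe_gb, hsplit, hsplit', pow_succ]
    push_cast
    rw [h5]
    linear_combination ((2 + Complex.I) * (2 - Complex.I) * D * (2 - Complex.I) ^ (n - l)) * hpm
  have hval := hlin _ hmem
  rw [char_nsmul hδ, map_nsmul, hyl, nsmul_eq_mul] at hval
  have hval' : δ yl ^ 5 = ex (ξ * aC ^ l).re ^ 5 := by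
    rw [hval, ← ex_nsmul]
    congr 1
    have : ξ * (((5 : ℕ) : ℂ) * aC ^ l) = ((5 : ℝ) : ℂ) * (ξ * aC ^ l) := by push_cast; ring
    rw [this, Complex.re_ofReal_mul]
    norm_num
  have hre : |(ξ * aC ^ l).re| ≤ 1 / 20 := by
    refine (Complex.abs_re_le_norm _).trans ?_
    rw [norm_mul, norm_pow, norm_aC, one_pow, mul_one]
    exact hξ
  have hdist : dist (δ yl) (ex (ξ * aC ^ l).re) < 1 := by
    have h1 := hd yl hyl
    have h2 := dist_ex_one (ξ * aC ^ l).re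
    have h3 := dist_triangle_right (δ yl) (ex (ξ * aC ^ l).re) 1
    have h4 : 2 * Real.pi * |(ξ * aC ^ l).re| ≤ 2 * Real.pi * (1 / 20) := by
      have := Real.pi_pos
      gcongr
    have h5 := Real.pi_lt_d2
    linarith
  have heq : δ yl = ex (ξ * aC ^ l).re := by
    set w : Circle := δ yl * (ex (ξ * aC ^ l).re)⁻¹ with hw
    have hw5 : ((w : Circle) : ℂ) ^ 5 = 1 := by
      rw [← Circle.coe_pow, hw, mul_pow, hval', inv_pow, mul_inv_cancel]
      rfl
    have hw1 : ‖((w : Circle) : ℂ) - 1‖ < 1 := by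
      have e : ‖((w : Circle) : ℂ) - 1‖ = dist (δ yl) (ex (ξ * aC ^ l).re) := by
        change _ = dist ((δ yl : Circle) : ℂ) ((ex (ξ * aC ^ l).re : Circle) : ℂ)
        rw [dist_eq_norm, hw, Circle.coe_mul, Circle.coe_inv]
        set A : ℂ := ((δ yl : Circle) : ℂ)
        have hB : ‖((ex (ξ * aC ^ l).re : Circle) : ℂ)‖ = 1 := Circle.norm_coe _
        have hB0 : ((ex (ξ * aC ^ l).re : Circle) : ℂ) ≠ 0 := Circle.coe_ne_zero _
        set B : ℂ := ((ex (ξ * aC ^ l).re : Circle) : ℂ)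
        have e2 : A * B⁻¹ - 1 = (A - B) * B⁻¹ := by field_simp
        rw [e2, norm_mul, norm_inv, hB, inv_one, mul_one]
      rw [e]; exact hdist
    have hw2 : (w : ℂ) = 1 := fifth_root hw5 (Circle.norm_coe w) hw1
    have hw3 : w = 1 := Circle.coe_eq_one.mp hw2
    rw [hw, mul_inv_eq_one] at hw3
    exact hw3
  -- the general element
  rintro y ⟨g, hg⟩
  obtain ⟨m, g', hg'⟩ := exists_int g (D * gb ^ (n - l)) (not_dvd_mul hD (not_dvd_gb_pow _))
  have hg'' : (g : ℂ) - m * (D * (2 - Complex.I) ^ (n - l)) = (2 + Complex.I) * g' := by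
    have := congrArg (fun x : GaussianInt => (x : ℂ)) hg'
    simp only [map_sub, map_mul, map_pow, coe_gb, coe_gp] at this
    rw [← this]
    simp
  have hmem' : j (y - m • yl) ∈ LL D (l + 1) n := by
    refine ⟨g', ?_⟩
    rw [map_sub, map_zsmul, hyl, zsmul_eq_mul, pow_succ]
    rw [sub_mul, hg, hsplit]
    linear_combination (-(m : ℂ) * D * (2 - Complex.I) ^ (n - l)) * hpm + (2 + Complex.I) ^ l * hg''
  have h1 := hlin _ hmem'
  have h2 : y = (y - m • yl) + m • yl := by abel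
  rw [h2, hδ, h1, char_zsmul hδ, heq, ← ex_zsmul, ← ex_add]
  congr 1
  rw [map_add, map_zsmul, hyl, zsmul_eq_mul, mul_add, Complex.add_re]
  congr 1
  have : ξ * ((m : ℂ) * aC ^ l) = ((m : ℝ) : ℂ) * (ξ * aC ^ l) := by push_cast; ring
  rw [this, Complex.re_ofReal_mul]

theorem base (hj : Function.Injective j) (hr : range j = RRset) (hD : ¬ gp ∣ D)
    (hδ : IsChar δ) (n : ℕ) {ρ : ℝ} (hρ : 0 < ρ)
    (h1 : ∀ y : Γ, j y * D = aC ^ n → dist (δ y) 1 < ρ / ‖(D : ℂ)‖)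
    (h2 : ∀ y : Γ, j y * D = Complex.I * aC ^ n → dist (δ y) 1 < ρ / ‖(D : ℂ)‖) :
    ∃ ξ : ℂ, ‖ξ‖ ≤ ρ ∧ LinOn j δ ξ (LL D n n) := by
  have hD0 := coe_ne_zero (ne_zero_of_not_dvd hD)
  have hDn : 0 < ‖(D : ℂ)‖ := norm_pos_iff.mpr hD0
  obtain ⟨y1, hy1⟩ : aC ^ n / D ∈ range j := by rw [hr]; exact aC_pow_div_mem hD n
  obtain ⟨y2, hy2⟩ : Complex.I * (aC ^ n / D) ∈ range j := by rw [hr]; exact I_aC_pow_div_mem hD n
  have hd1 := h1 y1 (by rw [hy1, div_mul_cancel₀ _ hD0])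
  have hd2 := h2 y2 (by rw [hy2, mul_assoc, div_mul_cancel₀ _ hD0])
  obtain ⟨s1, hs1, hs1'⟩ := exists_ex (δ y1)
  obtain ⟨s2, hs2, hs2'⟩ := exists_ex (δ y2)
  set b : ℂ := aC ^ n / D with hb
  have hb0 : b ≠ 0 := div_ne_zero (pow_ne_zero _ aC_ne) hD0
  have hbn : ‖b‖ = ‖(D : ℂ)‖⁻¹ := by
    rw [hb, norm_div, norm_pow, norm_aC, one_pow, one_div]
  refine ⟨((s1 : ℂ) - Complex.I * s2) / b, ?_, ?_⟩
  · rw [norm_div, hbn, div_inv_eq_mul]
    have e1 : ‖(s1 : ℂ) - Complex.I * s2‖ ≤ |s1| + |s2| := by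
      refine (norm_sub_le _ _).trans ?_
      rw [norm_mul, Complex.norm_I, one_mul, Complex.norm_real, Complex.norm_real]
      rfl
    have e2 : |s1| + |s2| ≤ ρ / ‖(D : ℂ)‖ := by
      have : 0 < ρ / ‖(D : ℂ)‖ := by positivity
      linarith
    calc _ ≤ (ρ / ‖(D : ℂ)‖) * ‖(D : ℂ)‖ := by gcongr; exact e1.trans e2
      _ = ρ := by field_simp
  · rintro y ⟨g, hg⟩
    have hy : j y = g * b := by
      have h3 : (2 - Complex.I : ℂ) ^ n ≠ 0 := pow_ne_zero _ two_sub_I_ne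
      have h4 := aC_pow_mul n
      rw [hb]
      field_simp
      apply mul_right_cancel₀ h3
      rw [mul_assoc, hg, ← h4]
      ring
    have hy' : y = g.re • y1 + g.im • y2 := by
      apply hj
      rw [map_add, map_zsmul, map_zsmul, hy1, hy2, hy, zsmul_eq_mul, zsmul_eq_mul]
      conv_lhs => rw [GaussianInt.toComplex_def]
      ring
    rw [hy', hδ, char_zsmul hδ, char_zsmul hδ, hs1, hs2, ← ex_zsmul, ← ex_zsmul, ← ex_add]
    congr 1
    rw [← hy', hy]
    have : ((s1 : ℂ) - Complex.I * s2) / b * (g * b) = (s1 - Complex.I * s2) * g := by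
      field_simp
    rw [this, GaussianInt.toComplex_def]
    simp
    ring

end

end Name

open Name in
/-- **Block NAME.** -/
theorem name : NameStmt := by
  intro Γ _ j hj hr D hD ρ hρ hρ1
  have hD0 := coe_ne_zero (ne_zero_of_not_dvd hD)
  have hDn : 0 < ‖(D : ℂ)‖ := norm_pos_iff.mpr hD0
  refine ⟨ρ / ‖(D : ℂ)‖, by positivity, ?_⟩
  intro n δ hδ h1 h2 h3
  obtain ⟨ξ, hξ, hlin⟩ := base hj hr hD hδ n hρ h1 h2
  refine ⟨ξ, hξ, ?_⟩
  have key : ∀ k, k ≤ n → LinOn j δ ξ (LL D (n - k) n) := by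
    intro k
    induction k with
    | zero => intro _; exact hlin
    | succ k ih =>
      intro hk
      have hl : n - (k + 1) < n := by omega
      have e : n - k = (n - (k + 1)) + 1 := by omega
      have ih' := ih (by omega)
      rw [e] at ih'
      exact step hr hD hδ hl (hξ.trans (by linarith)) ih'
        (h3 _ ξ hl hξ ih')
  have := key n le_rfl
  rwa [Nat.sub_self] at this

end Vale.Agent.P032.T
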