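import Vale.Agent.P032.T.ThDefs
import Vale.Agent.P032.T.Name

/-!
P032, Theorem A, the deterministic cell lemma (`helper321`).
-/

open MeasureTheory Set Filter Topology
open scoped ENNReal

namespace Vale.Agent.P032.T

namespace Cell

theorem dist_div_one (z w : Circle) : dist (w / z) 1 = dist z w := by
  change dist ((w / z : Circle) : ℂ) ((1 : Circle) : ℂ) = dist (z : ℂ) (w : ℂ)
  rw [dist_eq_norm, dist_eq_norm, Circle.coe_div, Circle.coe_one]
  have hz : (z : ℂ) ≠ 0 := Circle.coe_ne_zero z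
  have e : (w : ℂ) / z - 1 = -((z : ℂ) - w) / z := by
    field_simp
    ring
  rw [e, norm_div, Circle.norm_coe, norm_neg, div_one]

theorem isChar_div {Γ : Type*} [AddCommGroup Γ] {χ χ' : Γ → Circle} (h : IsChar χ)
    (h' : IsChar χ') : IsChar (fun y => χ' y / χ y) := by
  intro x y
  change χ' (x + y) / χ (x + y) = χ' x / χ x * (χ' y / χ y)
  rw [h, h', div_mul_div_comm]

/-- a common denominator -/
theorem exists_denom {Γ : Type*} (emb : Γ → ℂ) (hr : range emb ⊆ RRset) (Y : Finset Γ) :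
    ∃ D : GaussianInt, ¬ gp ∣ D ∧ ∀ y ∈ Y, ∃ g : GaussianInt, emb y * D = g := by
  classical
  induction Y using Finset.induction_on with
  | empty =>
    refine ⟨1, ?_, by simp⟩
    rw [Name.gp_dvd_iff]
    decide
  | insert y Y _ ih =>
    obtain ⟨D, hD, h⟩ := ih
    obtain ⟨g, d, hd, hgd⟩ := hr ⟨y, rfl⟩
    refine ⟨D * d, Name.not_dvd_mul hD hd, fun z hz => ?_⟩
    rcases Finset.mem_insert.mp hz with rfl | hz
    · refine ⟨g * D, ?_⟩
      rw [map_mul, map_mul, ← hgd]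
      ring
    · obtain ⟨g', hg'⟩ := h z hz
      refine ⟨g' * d, ?_⟩
      rw [map_mul, map_mul, ← hg']
      ring

end Cell

open Cell in
/-- block CELL -/
theorem cell : CellStmt := by
  classical
  intro Γ _ j hj hr a ha F Y₀ δ₂ Z hδ hF
  obtain ⟨D, hD, hYD⟩ := exists_denom (fun y => j y) hr.le Y₀
  -- bound on the norms
  set M : ℝ := ∑ y ∈ Y₀, ‖j y‖ with hM
  have hM0 : 0 ≤ M := Finset.sum_nonneg fun _ _ => norm_nonneg _
  have hMle : ∀ y ∈ Y₀, ‖j y‖ ≤ M := fun y hy =>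
    Finset.single_le_sum (f := fun y => ‖j y‖) (fun _ _ => norm_nonneg _) hy
  have hπ := Real.pi_pos
  obtain ⟨ρ, hρ0, hρ1, hρ2⟩ : ∃ ρ : ℝ, 0 < ρ ∧ ρ ≤ 1 / 20 ∧ 2 * Real.pi * (ρ * M) < δ₂ := by
    refine ⟨min (1 / 20) (δ₂ / (2 * Real.pi * (M + 1))), lt_min (by norm_num) (by positivity),
      min_le_left _ _, ?_⟩
    have h1 : min (1 / 20) (δ₂ / (2 * Real.pi * (M + 1))) ≤ δ₂ / (2 * Real.pi * (M + 1)) :=
      min_le_right _ _
    calc 2 * Real.pi * (min (1 / 20) (δ₂ / (2 * Real.pi * (M + 1))) * M)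
        ≤ 2 * Real.pi * (δ₂ / (2 * Real.pi * (M + 1)) * M) := by gcongr
      _ = δ₂ * (M / (M + 1)) := by field_simp
      _ < δ₂ * 1 := by
        apply mul_lt_mul_of_pos_left _ hδ
        rw [div_lt_one (by positivity)]
        linarith
      _ = δ₂ := mul_one _
  obtain ⟨ρ', hρ', hname⟩ := name Γ j.toAddMonoidHom hj hr D hD ρ hρ0 hρ1
  refine ⟨D, ρ', hD, hρ', ?_⟩
  intro n χ χ' hχ hχ' h1 h2 h3
  have h4 := hname n (fun y => χ' y / χ y) (isChar_div hχ hχ')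
    (fun y hy => by
      rw [dist_div_one]
      exact h1 y hy)
    (fun y hy => by
      rw [dist_div_one]
      exact h2 y hy) ?_
  · obtain ⟨ξ, hξ, hL⟩ := h4
    exact ⟨ξ, hξ.trans hρ1, hL⟩
  intro l ξ hl hξ hL y hy
  have hya : y = a ^ l := by
    apply hj
    rw [map_pow, ha]
    exact hy
  subst hya
  change dist (χ' (a ^ l) / χ (a ^ l)) 1 ≤ 1 / 2
  rw [dist_div_one]
  rcases h3 l hl with h | ⟨hc, hc', hZ, hZ'⟩
  · exact h
  rw [hc, hc']
  refine hF _ _ hZ hZ' fun y₀ hy₀ => ?_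
  rw [← dist_div_one]
  have hmem : j (a ^ (l + 1) * y₀) ∈ LL D (l + 1) n := by
    obtain ⟨g, hg⟩ := hYD y₀ hy₀
    refine ⟨g * Name.gb ^ (n - (l + 1)), ?_⟩
    rw [map_mul, map_pow, ha, map_mul, map_pow, Name.coe_gb]
    have e : (2 - Complex.I) ^ n = (2 - Complex.I) ^ (l + 1) * (2 - Complex.I) ^ (n - (l + 1)) := by
      rw [← pow_add]
      congr 1
      omega
    have hg' : j y₀ * D = g := hg
    rw [e, ← hg', ← Name.aC_pow_mul (l + 1)]
    ring
  have hL' := hL (a ^ (l + 1) * y₀) hmem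
  have hL'' : χ' (a ^ (l + 1) * y₀) / χ (a ^ (l + 1) * y₀) =
      ex (ξ * j (a ^ (l + 1) * y₀)).re := hL'
  rw [hL'']
  refine (Name.dist_ex_one _).trans_lt (lt_of_le_of_lt ?_ hρ2)
  gcongr
  refine (Complex.abs_re_le_norm _).trans ?_
  rw [norm_mul, map_mul, map_pow, ha, norm_mul, norm_pow, Name.norm_aC, one_pow, one_mul]
  gcongr
  exact hMle y₀ hy₀

end Vale.Agent.P032.T
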