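import Vale.Agent.P032.T.Mean

/-! P032, transfer principle: block CORR (averaged correlations of a colouring). -/

open Set Filter Topology

namespace Vale.Agent.P032.T

theorem countable_KK_corr : Countable KK := by
  have h : {x : ℂ | IsAlgebraic ℚ x}.Countable := Algebraic.countable ℚ ℂ
  have h2 : Function.Injective (fun x : KK => (⟨(x : ℂ), (mem_algebraicClosure_iff.1 x.2)⟩ :
      {x : ℂ | IsAlgebraic ℚ x})) := by
    intro x y hxy
    simp only [Subtype.mk.injEq] at hxy
    exact Subtype.ext hxy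
  have := h.to_subtype
  exact h2.countable

/-- bound for a mean -/
theorem mean_abs_le {H : Type} (M : (H → ℝ) → ℝ)
    (hadd : ∀ f g, Bdd f → Bdd g → M (fun x => f x + g x) = M f + M g)
    (hsmul : ∀ (r : ℝ) f, Bdd f → M (fun x => r * f x) = r * M f)
    (hpos : ∀ f, Bdd f → (∀ x, 0 ≤ f x) → 0 ≤ M f) (hone : M (fun _ => 1) = 1)
    (f : H → ℝ) (C : ℝ) (hf : ∀ x, |f x| ≤ C) : |M f| ≤ C := by
  have hb : Bdd f := ⟨C, hf⟩
  have h1 : Bdd (fun _ : H => (1:ℝ)) := ⟨1, fun _ => by simp⟩
  have hc : Bdd (fun _ : H => C * 1) := ⟨|C|, fun _ => by simp⟩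
  have hcM : M (fun _ => C * 1) = C := by rw [hsmul C _ h1, hone, mul_one]
  have hbneg : Bdd (fun x => (-1) * f x) := ⟨C, fun x => by rw [abs_mul]; simpa using hf x⟩
  rw [abs_le]
  constructor
  · have h := hpos (fun x => C * 1 + f x) ⟨|C| + C, fun x => (abs_add_le _ _).trans
      (add_le_add (by simp) (hf x))⟩ (fun x => by have := (abs_le.1 (hf x)).1; linarith)
    rw [hadd _ _ hc hb, hcM] at h
    linarith
  · have h := hpos (fun x => C * 1 + (-1) * f x) ⟨|C| + C, fun x => (abs_add_le _ _).trans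
      (add_le_add (by simp) (by rw [abs_mul]; simpa using hf x))⟩
      (fun x => by have := (abs_le.1 (hf x)).2; linarith)
    rw [hadd _ _ hc hbneg, hcM, hsmul _ _ hb] at h
    linarith

/-- the group of units of absolute value one -/
noncomputable def USub : Subgroup KKˣ where
  carrier := {u | ‖((u : KK) : ℂ)‖ = 1}
  one_mem' := by simp
  mul_mem' := by
    intro a b ha hb
    simp only [Set.mem_ofPred_eq] at *
    push_cast
    rw [norm_mul, ha, hb, mul_one]
  inv_mem' := by
    intro a ha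
    simp only [Set.mem_ofPred_eq] at *
    push_cast
    rw [norm_inv, ha, inv_one]

abbrev UA := Additive USub

noncomputable def toUK (h : UA) : UK := ⟨((h.toMul : KKˣ) : KK), h.toMul.2⟩

noncomputable def ofUK (u : UK) : UA :=
  Additive.ofMul ⟨Units.mk0 u.1 (by
    intro h
    have := u.2
    rw [h] at this
    simp at this), u.2⟩

theorem toUK_add (h g : UA) : ((toUK (h + g)).1 : KK) = (toUK h).1 * (toUK g).1 := rfl

theorem toUK_ofUK (u : UK) : toUK (ofUK u) = u := rfl

theorem countable_UA_corr : Countable UA := by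
  have := countable_KK_corr
  have h : Function.Injective (fun h : UA => (toUK h).1) := by
    intro a b hab
    apply Additive.toMul.injective
    apply Subtype.ext
    apply Units.ext
    exact hab
  exact h.countable

/-- the indicator used in the correlations -/
noncomputable def cind {k : ℕ} (c : ℂ → Fin k) (i : Fin k) (x y : KK) (p : KK × UK) : ℝ :=
  {q : KK × UK | c (q.1 + q.2.1 * x) = i ∧ c (q.1 + q.2.1 * y) = i}.indicator
    (fun _ => (1:ℝ)) p

/-- indicator of one point -/
noncomputable def cind1 {k : ℕ} (c : ℂ → Fin k) (i : Fin k) (x : KK) (p : KK × UK) : ℝ :=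
  {q : KK × UK | c (q.1 + q.2.1 * x) = i}.indicator (fun _ => (1:ℝ)) p

theorem cind_eq {k : ℕ} (c : ℂ → Fin k) (i : Fin k) (x y : KK) (p : KK × UK) :
    cind c i x y p = cind1 c i x p * cind1 c i y p := by
  classical
  simp only [cind, cind1, Set.indicator_apply, Set.mem_ofPred_eq]
  by_cases h1 : c (p.1 + p.2.1 * x) = i <;> by_cases h2 : c (p.1 + p.2.1 * y) = i <;>
    simp [h1, h2]

theorem cind1_abs_le {k : ℕ} (c : ℂ → Fin k) (i : Fin k) (x : KK) (p : KK × UK) :
    |cind1 c i x p| ≤ 1 := by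
  classical
  simp only [cind1, Set.indicator_apply]
  split_ifs <;> simp

theorem cind_abs_le {k : ℕ} (c : ℂ → Fin k) (i : Fin k) (x y : KK) (p : KK × UK) :
    |cind c i x y p| ≤ 1 := by
  classical
  simp only [cind, Set.indicator_apply]
  split_ifs <;> simp

theorem cind_congr {k : ℕ} (c : ℂ → Fin k) (i : Fin k) (x y x' y' : KK) (p p' : KK × UK)
    (h1 : (p.1 : ℂ) + (p.2.1 : ℂ) * (x : ℂ) = (p'.1 : ℂ) + (p'.2.1 : ℂ) * (x' : ℂ))
    (h2 : (p.1 : ℂ) + (p.2.1 : ℂ) * (y : ℂ) = (p'.1 : ℂ) + (p'.2.1 : ℂ) * (y' : ℂ)) :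
    cind c i x y p = cind c i x' y' p' := by
  classical
  simp only [cind, Set.indicator_apply, Set.mem_ofPred_eq, h1, h2]

theorem corr : CorrStmt := by
  classical
  intro k c hc
  have hK := countable_KK_corr
  have hU := countable_UA_corr
  obtain ⟨M1, add1, smul1, pos1, one1, inv1⟩ := mean KK
  obtain ⟨M2, add2, smul2, pos2, one2, inv2⟩ := mean UA
  let E : (KK × UK → ℝ) → ℝ := fun F => M2 (fun h => M1 (fun b => F (b, toUK h)))
  have hbd1 : ∀ F : KK × UK → ℝ, Bdd F → ∀ u, Bdd (fun b => F (b, u)) := by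
    rintro F ⟨C, hC⟩ u
    exact ⟨C, fun b => hC _⟩
  have hbd2 : ∀ F : KK × UK → ℝ, Bdd F → Bdd (fun h : UA => M1 (fun b => F (b, toUK h))) := by
    rintro F ⟨C, hC⟩
    exact ⟨C, fun h => mean_abs_le M1 add1 smul1 pos1 one1 _ C (fun b => hC _)⟩
  have Eadd : ∀ g h, Bdd g → Bdd h → E (fun p => g p + h p) = E g + E h := by
    intro g h hg hh
    have : (fun u : UA => M1 (fun b => g (b, toUK u) + h (b, toUK u))) =
        fun u : UA => M1 (fun b => g (b, toUK u)) + M1 (fun b => h (b, toUK u)) := by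
      funext u
      exact add1 _ _ (hbd1 g hg _) (hbd1 h hh _)
    show M2 (fun u : UA => M1 (fun b => g (b, toUK u) + h (b, toUK u))) = _
    rw [this]
    exact add2 _ _ (hbd2 g hg) (hbd2 h hh)
  have Esmul : ∀ (r : ℝ) g, Bdd g → E (fun p => r * g p) = r * E g := by
    intro r g hg
    have : (fun u : UA => M1 (fun b => r * g (b, toUK u))) =
        fun u : UA => r * M1 (fun b => g (b, toUK u)) := by
      funext u
      exact smul1 _ _ (hbd1 g hg _)
    show M2 (fun u : UA => M1 (fun b => r * g (b, toUK u))) = _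
    rw [this]
    exact smul2 _ _ (hbd2 g hg)
  have Enonneg : ∀ g, Bdd g → (∀ p, 0 ≤ g p) → 0 ≤ E g := by
    intro g hg hpos
    exact pos2 _ (hbd2 g hg) (fun u => pos1 _ (hbd1 g hg _) (fun b => hpos _))
  have Eone : E (fun _ => 1) = 1 := by
    show M2 (fun _ => M1 (fun _ => 1)) = 1
    simp only [one1, one2]
  have Ezero : E (fun _ => 0) = 0 := by
    have := Esmul 0 (fun _ => 0) ⟨0, fun _ => by simp⟩
    simp only [mul_zero, zero_mul] at this
    exact this
  have Esum : ∀ {ι : Type} (s : Finset ι) (F : ι → KK × UK → ℝ), (∀ a, Bdd (F a)) →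
      Bdd (fun p => ∑ a ∈ s, F a p) ∧ E (fun p => ∑ a ∈ s, F a p) = ∑ a ∈ s, E (F a) := by
    intro ι s F hF
    induction s using Finset.induction_on with
    | empty => simp only [Finset.sum_empty]; exact ⟨⟨0, fun _ => by simp⟩, Ezero⟩
    | insert a s ha ih =>
      have h1 : (fun p => ∑ a ∈ insert a s, F a p) = fun p => F a p + ∑ a ∈ s, F a p := by
        funext p
        rw [Finset.sum_insert ha]
      rw [h1, Finset.sum_insert ha]
      refine ⟨?_, ?_⟩
      · obtain ⟨C, hC⟩ := hF a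
        obtain ⟨D, hD⟩ := ih.1
        exact ⟨C + D, fun p => (abs_add_le _ _).trans (add_le_add (hC p) (hD p))⟩
      · rw [Eadd _ _ (hF a) ih.1, ih.2]
  have hcb : ∀ i x y, Bdd (cind c i x y) := fun i x y => ⟨1, cind_abs_le c i x y⟩
  -- translation
  have hcorr : ∀ i (x y : KK), E (cind c i x y) = E (cind c i (x - y) 0) := by
    intro i x y
    show M2 (fun h => M1 (fun b => cind c i x y (b, toUK h))) =
      M2 (fun h => M1 (fun b => cind c i (x - y) 0 (b, toUK h)))
    congr 1
    funext h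
    rw [← inv1 (fun b => cind c i (x - y) 0 (b, toUK h)) ((toUK h).1 * y)
      (hbd1 _ (hcb i (x - y) 0) _)]
    congr 1
    funext b
    have e1 : ((b + (toUK h).1 * y : KK) : ℂ) + ((toUK h).1 : ℂ) * ((x - y : KK) : ℂ) =
        (b : ℂ) + ((toUK h).1 : ℂ) * (x : ℂ) := by
      push_cast; ring
    have e2 : ((b + (toUK h).1 * y : KK) : ℂ) + ((toUK h).1 : ℂ) * ((0 : KK) : ℂ) =
        (b : ℂ) + ((toUK h).1 : ℂ) * (y : ℂ) := by
      push_cast; ring
    exact cind_congr c i _ _ _ _ _ _ e1.symm e2.symm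
  have hsymm : ∀ i x y, cind c i x y = cind c i y x := by
    intro i x y
    funext p
    rw [cind_eq, cind_eq, mul_comm]
  let f : Fin k → KK → ℝ := fun i z => E (cind c i z 0)
  refine ⟨⟨E, f, Eadd, Esmul, Enonneg, Eone, ?_, ?_, ?_, ?_, ?_⟩⟩
  · -- posDef
    intro i s r
    have hb1 : ∀ x y : KK, Bdd (fun p => (r x * r y) * cind c i x y p) := by
      intro x y
      exact ⟨|r x * r y| * 1, fun p => by
        rw [abs_mul]; exact mul_le_mul_of_nonneg_left (cind_abs_le c i x y p) (abs_nonneg _)⟩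
    have hin : ∀ x : KK, Bdd (fun p => ∑ y ∈ s, (r x * r y) * cind c i x y p) ∧
        E (fun p => ∑ y ∈ s, (r x * r y) * cind c i x y p) =
          ∑ y ∈ s, E (fun p => (r x * r y) * cind c i x y p) :=
      fun x => Esum s (fun y p => (r x * r y) * cind c i x y p) (hb1 x)
    have hout := Esum s (fun x p => ∑ y ∈ s, (r x * r y) * cind c i x y p) (fun x => (hin x).1)
    have hval : ∑ x ∈ s, ∑ y ∈ s, r x * r y * f i (x - y) =
        E (fun p => ∑ x ∈ s, ∑ y ∈ s, (r x * r y) * cind c i x y p) := by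
      rw [hout.2]
      refine Finset.sum_congr rfl fun x _ => ?_
      rw [(hin x).2]
      refine Finset.sum_congr rfl fun y _ => ?_
      rw [Esmul _ _ (hcb i x y), hcorr i x y]
    rw [hval]
    refine Enonneg _ hout.1 fun p => ?_
    have : ∑ x ∈ s, ∑ y ∈ s, (r x * r y) * cind c i x y p =
        (∑ x ∈ s, r x * cind1 c i x p) * (∑ y ∈ s, r y * cind1 c i y p) := by
      rw [Finset.sum_mul_sum]
      refine Finset.sum_congr rfl fun x _ => Finset.sum_congr rfl fun y _ => ?_
      rw [cind_eq]; ring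
    rw [this]
    exact mul_self_nonneg _
  · -- even
    intro i x
    show E (cind c i (-x) 0) = E (cind c i x 0)
    have h1 := hcorr i 0 x
    rw [zero_sub] at h1
    rw [← h1, hsymm]
  · -- radial
    intro i w x hw
    show M2 (fun h => M1 (fun b => cind c i (w * x) 0 (b, toUK h))) =
      M2 (fun h => M1 (fun b => cind c i x 0 (b, toUK h)))
    rw [← inv2 (fun h => M1 (fun b => cind c i x 0 (b, toUK h))) (ofUK ⟨w, hw⟩)
      (hbd2 _ (hcb i x 0))]
    congr 1
    funext h
    congr 1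
    funext b
    have e1 : ((toUK (h + ofUK ⟨w, hw⟩)).1 : ℂ) * (x : ℂ) =
        ((toUK h).1 : ℂ) * ((w * x : KK) : ℂ) := by
      rw [toUK_add, toUK_ofUK]
      push_cast
      ring
    have e2 : ((toUK (h + ofUK ⟨w, hw⟩)).1 : ℂ) * ((0 : KK) : ℂ) =
        ((toUK h).1 : ℂ) * ((0 : KK) : ℂ) := by
      simp
    refine cind_congr c i _ _ _ _ _ _ ?_ ?_
    · rw [← e1]
    · rw [← e2]
  · -- unit
    intro i x hx
    show E (cind c i x 0) = 0
    have : cind c i x 0 = fun _ => 0 := by
      funext p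
      simp only [cind, Set.indicator_apply, Set.mem_ofPred_eq]
      rw [if_neg]
      rintro ⟨h1, h2⟩
      refine hc (p.1 + p.2.1 * x) (p.1 + p.2.1 * ((0 : KK) : ℂ)) ?_ (h1.trans h2.symm)
      rw [dist_eq_norm]
      have : ((p.1 : ℂ) + (p.2.1 : ℂ) * (x : ℂ)) - ((p.1 : ℂ) + (p.2.1 : ℂ) * ((0 : KK) : ℂ)) =
          (p.2.1 : ℂ) * (x : ℂ) := by
        push_cast; ring
      rw [this, norm_mul, hx, mul_one]
      exact p.2.2
    rw [this, Ezero]
  · intro i x y
    exact hcorr i x y

end Vale.Agent.P032.T
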