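import Vale.Agent.P032.T.Arith

/-!
P032, block RING: `RRset` is the image of a countable subring of the algebraic numbers.
-/

open MeasureTheory Set Filter Topology
open scoped ENNReal

namespace Vale.Agent.P032.T

open Ar

theorem countable_KK : Countable KK := by
  have h := Algebraic.countable ℚ ℂ
  have h2 : Countable {x : ℂ | IsAlgebraic ℚ x} := h.to_subtype
  exact Function.Injective.countable (f := fun y : KK =>
    (⟨(y : ℂ), mem_algebraicClosure_iff.1 y.2⟩ : {x : ℂ | IsAlgebraic ℚ x}))
    (fun x y hxy => Subtype.ext (congrArg (fun z => (z : {x : ℂ | IsAlgebraic ℚ x}).1) hxy))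

theorem isAlg_I : IsAlgebraic ℚ Complex.I := by
  refine IsAlgebraic.of_pow (n := 2) (by norm_num) ?_
  rw [Complex.I_sq]
  exact (isAlgebraic_one).neg

theorem isAlg_G (g : GaussianInt) : IsAlgebraic ℚ (g : ℂ) := by
  rw [GaussianInt.toComplex_def]
  exact (isAlgebraic_intCast _).add ((isAlgebraic_intCast _).mul isAlg_I)

/-- `RRset` as a subring of the algebraic numbers -/
noncomputable def RRsub : Subring KK where
  carrier := {y | (y : ℂ) ∈ RRset}
  mul_mem' := by
    rintro x y ⟨g, d, hd, h⟩ ⟨g', d', hd', h'⟩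
    refine ⟨g * g', d * d', ?_, ?_⟩
    · intro h2
      rcases gp_prime.dvd_or_dvd h2 with h2 | h2
      · exact hd h2
      · exact hd' h2
    · simp only [map_mul, MulMemClass.coe_mul]
      rw [← h, ← h']; ring
  one_mem' := ⟨1, 1, fun h => by rw [gp_dvd_iff] at h; simp at h, by simp⟩
  add_mem' := by
    rintro x y ⟨g, d, hd, h⟩ ⟨g', d', hd', h'⟩
    refine ⟨g * d' + g' * d, d * d', ?_, ?_⟩
    · intro h2
      rcases gp_prime.dvd_or_dvd h2 with h2 | h2
      · exact hd h2
      · exact hd' h2
    · simp only [map_mul, map_add, AddMemClass.coe_add]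
      rw [← h, ← h']; ring
  zero_mem' := ⟨0, 1, fun h => by rw [gp_dvd_iff] at h; simp at h, by simp⟩
  neg_mem' := by
    rintro x ⟨g, d, hd, h⟩
    refine ⟨-g, d, hd, ?_⟩
    simp only [map_neg, NegMemClass.coe_neg]
    rw [← h]; ring

theorem ring : RingStmt := by
  refine ⟨RRsub, ?_, ?_⟩
  · have := countable_KK
    exact Function.Injective.countable (f := fun y : RRsub => (y : KK)) Subtype.val_injective
  · intro z
    constructor
    · rintro ⟨g, d, hd, h⟩
      have hd0 := coe_ne_zero_of_not_dvd hd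
      have hz : z = (g : ℂ) / d := by rw [eq_div_iff hd0]; exact h
      have halg : IsAlgebraic ℚ z := by
        rw [hz, div_eq_mul_inv]
        exact (isAlg_G g).mul (isAlg_G d).inv
      exact ⟨⟨z, mem_algebraicClosure_iff.2 halg⟩, ⟨g, d, hd, h⟩, rfl⟩
    · rintro ⟨y, hy, rfl⟩
      exact hy

end Vale.Agent.P032.T
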