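import Vale.Agent.P032.T.Corr
import Vale.Agent.P032.T.Ring

/-! P032, transfer principle: block DISC (discretisation). -/

open MeasureTheory Set Filter Topology
open scoped ENNReal

namespace Vale.Agent.P032.T

namespace Di

theorem E_sum {k : ℕ} {c : ℂ → Fin k} (d : CorrData k c) {ι : Type} (s : Finset ι)
    (F : ι → KK × UK → ℝ) (hF : ∀ a, Bdd (F a)) :
    Bdd (fun p => ∑ a ∈ s, F a p) ∧ d.E (fun p => ∑ a ∈ s, F a p) = ∑ a ∈ s, d.E (F a) := by
  classical
  induction s using Finset.induction_on with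
  | empty =>
    simp only [Finset.sum_empty]
    refine ⟨⟨0, fun _ => by simp⟩, ?_⟩
    have := d.smul 0 (fun _ => 0) ⟨0, fun _ => by simp⟩
    simp only [mul_zero, zero_mul] at this
    exact this
  | insert a s ha ih =>
    have h1 : (fun p => ∑ a ∈ insert a s, F a p) = fun p => F a p + ∑ a ∈ s, F a p := by
      funext p
      rw [Finset.sum_insert ha]
    rw [h1, Finset.sum_insert ha]
    refine ⟨?_, ?_⟩
    · obtain ⟨C, hC⟩ := hF a
      obtain ⟨D, hD⟩ := ih.1
      exact ⟨C + D, fun p => (abs_add_le _ _).trans (add_le_add (hC p) (hD p))⟩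
    · rw [d.add _ _ (hF a) ih.1, ih.2]

/-- lattice point -/
noncomputable def lat (n : ℕ) (m : ℤ × ℤ) : ℂ := ((⟨m.1, m.2⟩ : GaussianInt) : ℂ) / (2 - Complex.I) ^ n

theorem two_sub_I_ne : (2 - Complex.I : ℂ) ≠ 0 := by
  intro h
  have := congrArg Complex.re h
  simp at this

theorem norm_two_sub_I : ‖(2 - Complex.I : ℂ)‖ = Real.sqrt 5 := by
  rw [Complex.norm_def, Complex.normSq_apply]
  norm_num

theorem isAlg_lat (n : ℕ) (m : ℤ × ℤ) : IsAlgebraic ℚ (lat n m) := by
  have h1 : (2 - Complex.I : ℂ) = ((⟨2, -1⟩ : GaussianInt) : ℂ) := by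
    simp [GaussianInt.toComplex_def, sub_eq_add_neg]
  unfold lat
  rw [h1, div_eq_mul_inv]
  exact (isAlg_G _).mul ((isAlg_G _).pow n).inv

noncomputable def pt (n : ℕ) (m : ℤ × ℤ) : KK := ⟨lat n m, mem_algebraicClosure_iff.2 (isAlg_lat n m)⟩

theorem coe_pt (n : ℕ) (m : ℤ × ℤ) : ((pt n m : KK) : ℂ) = lat n m := rfl

/-- floor of `x (2-i)^n` -/
noncomputable def fl (n : ℕ) (x : ℂ) : ℤ × ℤ :=
  (⌊(x * (2 - Complex.I) ^ n).re⌋, ⌊(x * (2 - Complex.I) ^ n).im⌋)

theorem measurable_fl (n : ℕ) : Measurable (fl n) := by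
  unfold fl
  refine Measurable.prodMk ?_ ?_
  · exact Int.measurable_floor.comp (Complex.measurable_re.comp (measurable_id.mul_const _))
  · exact Int.measurable_floor.comp (Complex.measurable_im.comp (measurable_id.mul_const _))

theorem dist_lat (n : ℕ) (x : ℂ) : ‖lat n (fl n x) - x‖ ≤ 2 / Real.sqrt 5 ^ n := by
  have hne : ((2 - Complex.I : ℂ)) ^ n ≠ 0 := pow_ne_zero n two_sub_I_ne
  set y := x * (2 - Complex.I) ^ n with hy
  have hx : lat n (fl n x) - x =
      (((⟨⌊y.re⌋, ⌊y.im⌋⟩ : GaussianInt) : ℂ) - y) / (2 - Complex.I) ^ n := by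
    unfold lat fl
    rw [sub_div]
    congr 1
    rw [hy, mul_div_cancel_right₀ _ hne]
  rw [hx, norm_div, norm_pow, norm_two_sub_I]
  refine div_le_div_of_nonneg_right ?_ (by positivity)
  refine (Complex.norm_le_abs_re_add_abs_im _).trans ?_
  have h1 : (((⟨⌊y.re⌋, ⌊y.im⌋⟩ : GaussianInt) : ℂ) - y).re = ⌊y.re⌋ - y.re := by
    simp [GaussianInt.toComplex_def]
  have h2 : (((⟨⌊y.re⌋, ⌊y.im⌋⟩ : GaussianInt) : ℂ) - y).im = ⌊y.im⌋ - y.im := by
    simp [GaussianInt.toComplex_def]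
  rw [h1, h2]
  have a1 : |(⌊y.re⌋ : ℝ) - y.re| ≤ 1 := by
    rw [abs_le]; constructor <;> linarith [Int.floor_le y.re, Int.lt_floor_add_one y.re]
  have a2 : |(⌊y.im⌋ : ℝ) - y.im| ≤ 1 := by
    rw [abs_le]; constructor <;> linarith [Int.floor_le y.im, Int.lt_floor_add_one y.im]
  linarith

theorem norm_e (t : ℝ) : ‖M.e t‖ = 1 := by
  unfold M.e
  exact Complex.norm_exp_ofReal_mul_I t

theorem measurable_e : Measurable M.e := by
  unfold M.e
  fun_prop

/-- cells -/
def cell (n N : ℕ) (f : (ℤ × ℤ) × (ℤ × ℤ)) : Set (ℂ × ℝ) :=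
  {p | (‖p.1‖ ≤ N ∧ p.2 ∈ Ioc (0:ℝ) (2 * Real.pi)) ∧ fl n (p.1 + M.e p.2) = f.1 ∧ fl n p.1 = f.2}

def box (N : ℕ) : Set (ℂ × ℝ) := {p | ‖p.1‖ ≤ N ∧ p.2 ∈ Ioc (0:ℝ) (2 * Real.pi)}

theorem box_eq (N : ℕ) : box N = Metric.closedBall 0 N ×ˢ Ioc (0:ℝ) (2 * Real.pi) := by
  ext p
  simp [box, Set.mem_prod, dist_zero_right]

theorem measurableSet_box (N : ℕ) : MeasurableSet (box N) := by
  rw [box_eq]
  exact Metric.isClosed_closedBall.measurableSet.prod measurableSet_Ioc

theorem volume_box (N : ℕ) : volume (box N) ≠ ∞ := by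
  rw [box_eq, Measure.volume_eq_prod, Measure.prod_prod]
  exact ENNReal.mul_ne_top (measure_closedBall_lt_top).ne measure_Ioc_lt_top.ne

theorem measurableSet_cell (n N : ℕ) (f : (ℤ × ℤ) × (ℤ × ℤ)) : MeasurableSet (cell n N f) := by
  have h1 : Measurable (fun p : ℂ × ℝ => fl n (p.1 + M.e p.2)) :=
    (measurable_fl n).comp (measurable_fst.add (measurable_e.comp measurable_snd))
  have h2 : Measurable (fun p : ℂ × ℝ => fl n p.1) := (measurable_fl n).comp measurable_fst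
  have : cell n N f = box N ∩ ((fun p : ℂ × ℝ => fl n (p.1 + M.e p.2)) ⁻¹' {f.1} ∩
      (fun p : ℂ × ℝ => fl n p.1) ⁻¹' {f.2}) := by
    ext p
    simp [cell, box]
  rw [this]
  exact (measurableSet_box N).inter ((h1 (measurableSet_singleton _)).inter
    (h2 (measurableSet_singleton _)))

theorem disjoint_cell (n N : ℕ) {f g : (ℤ × ℤ) × (ℤ × ℤ)} (h : f ≠ g) :
    Disjoint (cell n N f) (cell n N g) := by
  rw [Set.disjoint_left]
  rintro p ⟨_, h1, h2⟩ ⟨_, h3, h4⟩
  exact h (Prod.ext (h1.symm.trans h3) (h2.symm.trans h4))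

theorem sum_cell (n N : ℕ) (F : Finset ((ℤ × ℤ) × (ℤ × ℤ))) :
    ∑ f ∈ F, (volume (cell n N f)).toReal ≤ (volume (box N)).toReal := by
  have hlt : ∀ f, volume (cell n N f) ≠ ∞ := fun f =>
    ((measure_mono (fun p hp => hp.1 : cell n N f ⊆ box N)).trans_lt
      (lt_top_iff_ne_top.2 (volume_box N))).ne
  rw [← ENNReal.toReal_sum (fun f _ => hlt f)]
  refine ENNReal.toReal_mono (volume_box N) ?_
  rw [← measure_biUnion_finset (fun f _ g _ h => disjoint_cell n N h)
    (fun f _ => measurableSet_cell n N f)]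
  refine measure_mono ?_
  intro p hp
  simp only [Set.mem_iUnion] at hp
  obtain ⟨f, _, hf⟩ := hp
  exact hf.1

theorem sum_cind {k : ℕ} (c : ℂ → Fin k) (x y : KK) (p : KK × UK) :
    ∑ i, cind c i x y p = if c (p.1 + p.2.1 * x) = c (p.1 + p.2.1 * y) then 1 else 0 := by
  classical
  have h : ∀ i, cind c i x y p =
      if i = c (p.1 + p.2.1 * x) then
        (if c (p.1 + p.2.1 * x) = c (p.1 + p.2.1 * y) then 1 else 0) else 0 := by
    intro i
    simp only [cind, Set.indicator_apply, Set.mem_ofPred_eq]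
    by_cases h1 : i = c (p.1 + p.2.1 * x)
    · subst h1
      simp [eq_comm]
    · rw [if_neg h1, if_neg]
      rintro ⟨h2, _⟩
      exact h1 h2.symm
  rw [Finset.sum_congr rfl (fun i _ => h i), Finset.sum_ite_eq' Finset.univ]
  simp

theorem key (k : ℕ) (c : ℂ → Fin k) (d : CorrData k c) (hdec : ∀ i, Decay (d.f i)) (N : ℕ)
    (ε : ℝ) (hε : 0 < ε) :
    ∃ cN : ℂ → Fin k, Measurable cN ∧ (volume : Measure (ℂ × ℝ)) {p : ℂ × ℝ | ‖p.1‖ ≤ N ∧
      p.2 ∈ Ioc (0:ℝ) (2 * Real.pi) ∧ cN (p.1 + M.e p.2) = cN p.1} ≤ ENNReal.ofReal ε := by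
  classical
  set V : ℝ := (volume (box N)).toReal with hV
  have hV0 : 0 ≤ V := ENNReal.toReal_nonneg
  set ε' : ℝ := ε / ((V + 1) * (k + 1)) with hε'
  have hε'0 : 0 < ε' := by positivity
  choose δ' hδ'0 hδ' using fun i => hdec i ε' hε'0
  obtain ⟨δ, hδ0, hδ⟩ : ∃ δ : ℝ, 0 < δ ∧ ∀ i, δ ≤ δ' i := by
    have h1 : ∀ᶠ δ in 𝓝[>] (0:ℝ), ∀ i, δ ≤ δ' i := by
      rw [Filter.eventually_all]
      intro i
      exact (eventually_le_nhds (hδ'0 i)).filter_mono nhdsWithin_le_nhds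
    obtain ⟨δ, h2, h3⟩ := (h1.and self_mem_nhdsWithin).exists
    exact ⟨δ, h3, h2⟩
  have hs5 : (0:ℝ) < Real.sqrt 5 := Real.sqrt_pos.2 (by norm_num)
  have hs51 : 1 < Real.sqrt 5 := by
    rw [show (1:ℝ) = Real.sqrt 1 by simp]
    exact Real.sqrt_lt_sqrt (by norm_num) (by norm_num)
  obtain ⟨n, hn⟩ := exists_pow_lt_of_lt_one (show 0 < δ / 4 by positivity)
    (show (Real.sqrt 5)⁻¹ < 1 from inv_lt_one_of_one_lt₀ hs51)
  have hn' : 4 / Real.sqrt 5 ^ n < δ := by
    rw [inv_pow] at hn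
    rw [div_eq_mul_inv]
    linarith
  -- the finite set of pairs
  set K : ℤ := ⌈((N : ℝ) + 1) * Real.sqrt 5 ^ n⌉ + 1 with hK
  set B : Finset (ℤ × ℤ) := Finset.Icc (-K) K ×ˢ Finset.Icc (-K) K with hB
  set F : Finset ((ℤ × ℤ) × (ℤ × ℤ)) := B ×ˢ B with hF
  have hflB : ∀ x : ℂ, ‖x‖ ≤ (N : ℝ) + 1 → fl n x ∈ B := by
    intro x hx
    have h1 : ‖x * (2 - Complex.I) ^ n‖ ≤ ((N : ℝ) + 1) * Real.sqrt 5 ^ n := by
      rw [norm_mul, norm_pow, norm_two_sub_I]
      exact mul_le_mul_of_nonneg_right hx (by positivity)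
    have aux : ∀ r : ℝ, |r| ≤ ((N : ℝ) + 1) * Real.sqrt 5 ^ n → ⌊r⌋ ∈ Finset.Icc (-K) K := by
      intro r hr
      rw [Finset.mem_Icc]
      have h2 : ((N : ℝ) + 1) * Real.sqrt 5 ^ n ≤ (⌈((N : ℝ) + 1) * Real.sqrt 5 ^ n⌉ : ℝ) :=
        Int.le_ceil _
      have h3 := (abs_le.1 hr).1
      have h4 := (abs_le.1 hr).2
      constructor
      · rw [Int.le_floor, hK]
        push_cast
        linarith
      · have h5 : (⌊r⌋ : ℝ) ≤ K := by
          rw [hK]; push_cast
          linarith [Int.floor_le r]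
        exact_mod_cast h5
    rw [hB, Finset.mem_product]
    exact ⟨aux _ ((Complex.abs_re_le_norm _).trans h1), aux _ ((Complex.abs_im_le_norm _).trans h1)⟩
  -- the averaged defect
  set v : ((ℤ × ℤ) × (ℤ × ℤ)) → ℝ := fun f => (volume (cell n N f)).toReal with hv
  have hv0 : ∀ f, 0 ≤ v f := fun f => ENNReal.toReal_nonneg
  have hclt : ∀ f, volume (cell n N f) ≠ ∞ := fun f =>
    ((measure_mono (fun p hp => hp.1 : cell n N f ⊆ box N)).trans_lt
      (lt_top_iff_ne_top.2 (volume_box N))).ne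
  let W1 : ((ℤ × ℤ) × (ℤ × ℤ)) → KK × UK → ℝ := fun f p =>
    ∑ i, cind c i (pt n f.1) (pt n f.2) p
  have hW1 : ∀ f, Bdd (W1 f) ∧ d.E (W1 f) = ∑ i, d.f i (pt n f.1 - pt n f.2) := by
    intro f
    have h := E_sum d Finset.univ (fun i => cind c i (pt n f.1) (pt n f.2))
      (fun i => ⟨1, cind_abs_le c i _ _⟩)
    refine ⟨h.1, h.2.trans ?_⟩
    refine Finset.sum_congr rfl fun i _ => ?_
    exact d.corr i _ _
  have hW2 := E_sum d F (fun f p => v f * W1 f p) (fun f => by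
    obtain ⟨C, hC⟩ := (hW1 f).1
    exact ⟨|v f| * C, fun p => by rw [abs_mul]; exact mul_le_mul_of_nonneg_left (hC p) (abs_nonneg _)⟩)
  set W : KK × UK → ℝ := fun p => ∑ f ∈ F, v f * W1 f p with hW
  have hEW : d.E W ≤ V * (k * ε') := by
    rw [hW2.2]
    calc ∑ f ∈ F, d.E (fun p => v f * W1 f p) ≤ ∑ f ∈ F, v f * (k * ε') := by
          refine Finset.sum_le_sum fun f _ => ?_
          rw [d.smul _ _ (hW1 f).1, (hW1 f).2]
          by_cases he : (cell n N f).Nonempty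
          · refine mul_le_mul_of_nonneg_left ?_ (hv0 f)
            obtain ⟨p, hp, hp1, hp2⟩ := he
            have hnear : |‖((pt n f.1 - pt n f.2 : KK) : ℂ)‖ - 1| < δ := by
              have h1 := dist_lat n (p.1 + M.e p.2)
              have h2 := dist_lat n p.1
              rw [hp1] at h1
              rw [hp2] at h2
              have h3 : ((pt n f.1 - pt n f.2 : KK) : ℂ) = lat n f.1 - lat n f.2 := rfl
              rw [h3, ← norm_e p.2]
              refine (abs_norm_sub_norm_le _ _).trans_lt ?_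
              have h4 : lat n f.1 - lat n f.2 - M.e p.2 =
                  (lat n f.1 - (p.1 + M.e p.2)) - (lat n f.2 - p.1) := by ring
              rw [h4]
              refine ((norm_sub_le _ _).trans (add_le_add h1 h2)).trans_lt ?_
              have h5 : 2 / Real.sqrt 5 ^ n + 2 / Real.sqrt 5 ^ n = 4 / Real.sqrt 5 ^ n := by ring
              rw [h5]
              exact hn'
            have hG : ((pt n f.1 - pt n f.2 : KK) : ℂ) ∈ G0 := by
              refine ⟨(⟨f.1.1, f.1.2⟩ : GaussianInt) - ⟨f.2.1, f.2.2⟩, n, ?_⟩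
              have hne : ((2 - Complex.I : ℂ)) ^ n ≠ 0 := pow_ne_zero n two_sub_I_ne
              have h3 : ((pt n f.1 - pt n f.2 : KK) : ℂ) = lat n f.1 - lat n f.2 := rfl
              rw [h3]
              unfold lat
              rw [sub_mul, div_mul_cancel₀ _ hne, div_mul_cancel₀ _ hne, map_sub]
            calc ∑ i, d.f i (pt n f.1 - pt n f.2) ≤ ∑ _i : Fin k, ε' := by
                  refine Finset.sum_le_sum fun i _ => ?_
                  exact (le_abs_self _).trans (hδ' i _ hG (hnear.trans_le (hδ i))).le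
              _ = k * ε' := by simp
          · have h0 : v f = 0 := by
              rw [hv]
              simp only
              rw [Set.not_nonempty_iff_eq_empty.1 he]
              simp
            rw [h0]
            simp
      _ = (∑ f ∈ F, v f) * (k * ε') := by rw [Finset.sum_mul]
      _ ≤ V * (k * ε') := mul_le_mul_of_nonneg_right (sum_cell n N F) (by positivity)
  have hlt : V * (k * ε') < ε := by
    rw [hε']
    have h1 : V * (k * (ε / ((V + 1) * (k + 1)))) = ε * (V * k) / ((V + 1) * (k + 1)) := by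
      field_simp
    rw [h1, div_lt_iff₀ (by positivity)]
    have hk : (0:ℝ) ≤ k := by positivity
    nlinarith [mul_nonneg hV0 hk]
  obtain ⟨p, hp⟩ : ∃ p, W p ≤ ε := by
    by_contra hcon
    push Not at hcon
    have hb : Bdd (fun _ : KK × UK => (-ε) * 1) := ⟨ε, fun _ => by
      rw [abs_mul, abs_neg, abs_of_pos hε]; simp⟩
    have h1 : 0 ≤ d.E (fun p => W p + (-ε) * 1) := by
      refine d.nonneg _ ?_ fun p => by linarith [hcon p]
      obtain ⟨C, hC⟩ := hW2.1
      obtain ⟨D, hD⟩ := hb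
      exact ⟨C + D, fun p => (abs_add_le _ _).trans (add_le_add (hC p) (hD p))⟩
    rw [d.add _ _ hW2.1 hb, d.smul _ _ ⟨1, fun _ => by simp⟩, d.one] at h1
    linarith
  refine ⟨fun x => c (p.1 + p.2.1 * (pt n (fl n x) : KK)), ?_, ?_⟩
  · have h1 : Measurable (fun m : ℤ × ℤ => c (p.1 + p.2.1 * (pt n m : KK))) := measurable_of_countable _
    exact h1.comp (measurable_fl n)
  · set F' := F.filter (fun f => c (p.1 + p.2.1 * (pt n f.1 : KK)) = c (p.1 + p.2.1 * (pt n f.2 : KK)))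
      with hF'
    have hsub : {q : ℂ × ℝ | ‖q.1‖ ≤ N ∧ q.2 ∈ Ioc (0:ℝ) (2 * Real.pi) ∧
        c (p.1 + p.2.1 * (pt n (fl n (q.1 + M.e q.2)) : KK)) =
          c (p.1 + p.2.1 * (pt n (fl n q.1) : KK))} ⊆ ⋃ f ∈ F', cell n N f := by
      rintro q ⟨h1, h2, h3⟩
      simp only [Set.mem_iUnion]
      refine ⟨(fl n (q.1 + M.e q.2), fl n q.1), ?_, ⟨h1, h2⟩, rfl, rfl⟩
      rw [hF', Finset.mem_filter]
      refine ⟨?_, h3⟩
      rw [hF, Finset.mem_product]
      refine ⟨hflB _ ?_, hflB _ ?_⟩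
      · refine (norm_add_le _ _).trans ?_
        rw [norm_e]
        linarith
      · linarith
    refine (measure_mono hsub).trans ?_
    refine (measure_biUnion_finset_le _ _).trans ?_
    have h1 : ∑ f ∈ F', volume (cell n N f) = ENNReal.ofReal (∑ f ∈ F', v f) := by
      rw [ENNReal.ofReal_sum_of_nonneg (fun f _ => hv0 f)]
      refine Finset.sum_congr rfl fun f _ => ?_
      rw [hv]
      exact (ENNReal.ofReal_toReal (hclt f)).symm
    rw [h1]
    refine ENNReal.ofReal_le_ofReal (le_trans ?_ hp)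
    have h2 : ∑ f ∈ F, v f * W1 f p =
        ∑ f ∈ F, if c (p.1 + p.2.1 * (pt n f.1 : KK)) = c (p.1 + p.2.1 * (pt n f.2 : KK)) then v f
          else 0 := by
      refine Finset.sum_congr rfl fun f _ => ?_
      show v f * (∑ i, cind c i (pt n f.1) (pt n f.2) p) = _
      rw [sum_cind]
      split_ifs <;> simp
    show _ ≤ ∑ f ∈ F, v f * W1 f p
    rw [h2, ← Finset.sum_filter]

end Di

theorem disc : DiscStmt := by
  intro k c d hdec
  choose cN hm hv using fun N : ℕ => Di.key k c d hdec N (1 / ((N : ℝ) + 1)) (by positivity)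
  refine ⟨cN, hm, fun R => ?_⟩
  have h0 : Tendsto (fun N : ℕ => ENNReal.ofReal (1 / ((N : ℝ) + 1))) atTop (𝓝 0) := by
    have := ENNReal.tendsto_ofReal (tendsto_one_div_add_atTop_nhds_zero_nat (𝕜 := ℝ))
    rwa [ENNReal.ofReal_zero] at this
  refine tendsto_of_tendsto_of_tendsto_of_le_of_le' tendsto_const_nhds h0
    (Eventually.of_forall fun _ => bot_le) ?_
  obtain ⟨N0, hN0⟩ := exists_nat_ge R
  filter_upwards [eventually_ge_atTop N0] with N hN
  refine le_trans (measure_mono ?_) (hv N)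
  rintro p ⟨h1, h2, h3⟩
  refine ⟨h1.trans (hN0.trans (by exact_mod_cast hN)), h2, h3⟩

end Vale.Agent.P032.T
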