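import Vale.Agent.P032.M.Fub

/-!
P032, transfer principle (arbitrary colourings -> measurable colourings): shared definitions and
block statements. Each block `XxxStmt : Prop` is proved in its own file as `theorem xxx : XxxStmt`.
-/

open MeasureTheory Set Filter Topology
open scoped ENNReal

namespace Vale.Agent.P032.T

/-! ### circle valued functions -/

noncomputable instance : MeasurableSpace Circle := borel Circle
instance : BorelSpace Circle := ⟨rfl⟩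

/-- `e(x) = exp (2 π i x)` as an element of the circle. -/
noncomputable def ex (x : ℝ) : Circle := Circle.exp (2 * Real.pi * x)

/-- additive characters, as functions into the circle -/
def IsChar {Γ : Type*} [AddCommGroup Γ] (χ : Γ → Circle) : Prop := ∀ x y, χ (x + y) = χ x * χ y

/-- real positive definite functions -/
def PosDef {Γ : Type*} [AddCommGroup Γ] (f : Γ → ℝ) : Prop :=
  ∀ (s : Finset Γ) (r : Γ → ℝ), 0 ≤ ∑ x ∈ s, ∑ y ∈ s, r x * r y * f (x - y)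

/-! ### rings -/

/-- the field of algebraic numbers (countable) -/
noncomputable abbrev KK := algebraicClosure ℚ ℂ

/-- `Z[i][1/(2-i)]` -/
def G0 : Set ℂ := {z | ∃ (g : GaussianInt) (n : ℕ), z * (2 - Complex.I) ^ n = g}

/-- the Gaussian prime `2 + i` -/
def gp : GaussianInt := ⟨2, 1⟩

/-- quotients of Gaussian integers with denominator prime to `2 + i` -/
def RRset : Set ℂ := {z | ∃ g d : GaussianInt, ¬ gp ∣ d ∧ z * d = g}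

/-- `a = (2+i)/(2-i)` -/
noncomputable def aC : ℂ := (2 + Complex.I) / (2 - Complex.I)

/-- `L D j n = (1/D) (2+i)^j (2-i)^{-n} Z[i]` -/
def LL (D : GaussianInt) (j n : ℕ) : Set ℂ :=
  {z | ∃ g : GaussianInt, z * (D * (2 - Complex.I) ^ n) = (2 + Complex.I) ^ j * g}

/-! ### block MEAN -/

def Bdd {X : Type*} (f : X → ℝ) : Prop := ∃ C : ℝ, ∀ x, |f x| ≤ C

/-- invariant means on countable abelian groups -/
def MeanStmt : Prop :=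
  ∀ (H : Type) [AddCommGroup H] [Countable H], ∃ M : (H → ℝ) → ℝ,
    (∀ f g, Bdd f → Bdd g → M (fun x => f x + g x) = M f + M g) ∧
    (∀ (r : ℝ) f, Bdd f → M (fun x => r * f x) = r * M f) ∧
    (∀ f, Bdd f → (∀ x, 0 ≤ f x) → 0 ≤ M f) ∧ (M (fun _ => 1) = 1) ∧
    ∀ f (h : H), Bdd f → M (fun x => f (x + h)) = M f

/-- unit algebraic numbers -/
abbrev UK := {u : KK // ‖(u : ℂ)‖ = 1}

/-- averaged correlation data of a colouring -/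
structure CorrData (k : ℕ) (c : ℂ → Fin k) where
  E : (KK × UK → ℝ) → ℝ
  f : Fin k → KK → ℝ
  add : ∀ g h, Bdd g → Bdd h → E (fun p => g p + h p) = E g + E h
  smul : ∀ (r : ℝ) g, Bdd g → E (fun p => r * g p) = r * E g
  nonneg : ∀ g, Bdd g → (∀ p, 0 ≤ g p) → 0 ≤ E g
  one : E (fun _ => 1) = 1
  posDef : ∀ i, PosDef (f i)
  even : ∀ i x, f i (-x) = f i x
  radial : ∀ i (u x : KK), ‖(u : ℂ)‖ = 1 → f i (u * x) = f i x
  unit : ∀ i (x : KK), ‖(x : ℂ)‖ = 1 → f i x = 0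
  corr : ∀ i (x y : KK), E (fun p => ({q : KK × UK | c (q.1 + q.2.1 * x) = i ∧
    c (q.1 + q.2.1 * y) = i}.indicator (fun _ => (1:ℝ)) p)) = f i (x - y)

/-- block CORR -/
def CorrStmt : Prop :=
  ∀ (k : ℕ) (c : ℂ → Fin k), (∀ x y, dist x y = 1 → c x ≠ c y) → Nonempty (CorrData k c)

/-- the decay property `(T)` -/
def Decay (f : KK → ℝ) : Prop :=
  ∀ ε : ℝ, 0 < ε → ∃ δ : ℝ, 0 < δ ∧ ∀ x : KK, (x : ℂ) ∈ G0 → |‖(x : ℂ)‖ - 1| < δ → |f x| < ε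

/-- asymptotically proper sequences of colourings -/
def AsymProper {k : ℕ} (c : ℕ → ℂ → Fin k) : Prop :=
  ∀ R : ℝ, Tendsto (fun n => (volume : Measure (ℂ × ℝ)) {p : ℂ × ℝ | ‖p.1‖ ≤ R ∧
    p.2 ∈ Ioc (0:ℝ) (2 * Real.pi) ∧ c n (p.1 + M.e p.2) = c n p.1}) atTop (𝓝 0)

/-- block DISC: discretisation -/
def DiscStmt : Prop :=
  ∀ (k : ℕ) (c : ℂ → Fin k) (d : CorrData k c), (∀ i, Decay (d.f i)) →
    ∃ cn : ℕ → ℂ → Fin k, (∀ n, Measurable (cn n)) ∧ AsymProper cn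

/-- block LIM: limit lemma for asymptotically proper sequences -/
def LimStmt : Prop :=
  ∀ (k : ℕ) (c : ℕ → ℂ → Fin k), (∀ n, Measurable (c n)) → AsymProper c →
    ∃ c' : ℂ → Fin k, Measurable c' ∧ M.Proper c'

/-! ### measures on characters -/

/-- block BOCH, for countable additive subgroups of `ℂ` -/
def BochStmt : Prop :=
  ∀ (Γ : Type) [AddCommGroup Γ] [Countable Γ] (j : Γ →+ ℂ), Function.Injective j →
    ∀ f : Γ → ℝ, PosDef f → (∀ x, f (-x) = f x) →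
    ∃ μ : Measure (Γ → Circle), IsFiniteMeasure μ ∧ (∀ᵐ χ ∂μ, IsChar χ) ∧
      ∀ x, ∫ χ, ((χ x : Circle) : ℂ) ∂μ = f x

/-- block INV: invariance is read off the Fourier coefficients -/
def InvStmt : Prop :=
  ∀ (Γ : Type) [AddCommGroup Γ] [Countable Γ] (μ : Measure (Γ → Circle)) [IsFiniteMeasure μ],
    (∀ᵐ χ ∂μ, IsChar χ) → ∀ T : Γ →+ Γ,
    (∀ x, ∫ χ, ((χ (T x) : Circle) : ℂ) ∂μ = ∫ χ, ((χ x : Circle) : ℂ) ∂μ) →
    MeasurePreserving (fun (χ : Γ → Circle) x => χ (T x)) μ μ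

/-! ### block A1 (abstract transfer operator block) -/

def A1Stmt : Prop :=
  ∀ (Γ : Type) [AddCommGroup Γ] [Countable Γ] (q : ℕ) [NeZero q] (a : Γ →+ Γ) (c : Γ →+ ZMod q)
    (e₀ : Γ), Function.Injective a → c e₀ = 1 → (∀ y, c y = 0 ↔ ∃ y', a y' = y) →
    ∀ (μ : Measure (Γ → Circle)) [IsFiniteMeasure μ], (∀ᵐ χ ∂μ, IsChar χ) →
    MeasurePreserving (fun (χ : Γ → Circle) y => χ (a y)) μ μ →
    ∃ Xc : Set (Γ → Circle), MeasurableSet Xc ∧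
      (∀ᵐ χ ∂μ, (χ ∈ Xc ↔ (fun y => χ (a y)) ∈ Xc)) ∧
      (∀ u : Γ ≃+ Γ, (∀ y, u (a y) = a (u y)) →
        MeasurePreserving (fun (χ : Γ → Circle) y => χ (u y)) μ μ →
        ∀ᵐ χ ∂μ, (χ ∈ Xc ↔ (fun y => χ (u y)) ∈ Xc)) ∧
      (∀ (y : Γ) (C : ℕ), (∀ n : ℕ, ∃ W : Finset (Γ ≃+ Γ), q ^ n ≤ C * W.card ∧
          (∀ u ∈ W, (∀ z, u (a z) = a (u z)) ∧
            MeasurePreserving (fun (χ : Γ → Circle) z => χ (u z)) μ μ) ∧
          ∀ u ∈ W, ∀ v ∈ W, u ≠ v → ∀ z, a^[n] z ≠ u y - v y) →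
        ∫ χ in Xc, ((χ y : Circle) : ℂ) ∂μ = 0) ∧
      ∃ F : (Γ → Circle) → Circle, Measurable F ∧
        ∀ᵐ χ ∂μ, χ ∉ Xc → χ e₀ = F (fun y => χ (a y))

/-! ### block A2: maximal inequality -/

def MaxIneqStmt : Prop :=
  ∀ (X : Type) [MeasurableSpace X] (μ : Measure X) [IsFiniteMeasure μ] (S : X → X),
    MeasurePreserving S μ μ → ∀ Z : Set X, MeasurableSet Z → ∀ θ : ℝ, 0 < θ →
    μ {x | ∃ n : ℕ, θ * n < ∑ j ∈ Finset.range n, Z.indicator (fun _ => (1:ℝ)) (S^[j] x)} ≤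
      μ Z / ENNReal.ofReal θ

/-! ### block NAME: the deterministic part of the covering argument -/

/-- `δ` is `e(Re (ξ y))` on the set `L` -/
def LinOn {Y : Type*} (emb : Y → ℂ) (δ : Y → Circle) (ξ : ℂ) (L : Set ℂ) : Prop :=
  ∀ y : Y, emb y ∈ L → δ y = ex (ξ * emb y).re

/-- `RR` as a type will be any additive group with an injective map to `ℂ` with image `RRset`.
The deterministic naming lemma. -/
def NameStmt : Prop :=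
  ∀ (Γ : Type) [AddCommGroup Γ] (j : Γ →+ ℂ), Function.Injective j → range j = RRset →
    ∀ D : GaussianInt, ¬ gp ∣ D → ∀ ρ : ℝ, 0 < ρ → ρ ≤ 1 / 20 → ∃ ρ' : ℝ, 0 < ρ' ∧
    ∀ (n : ℕ) (δ : Γ → Circle), IsChar δ →
      (∀ y : Γ, j y * D = aC ^ n → dist (δ y) 1 < ρ') →
      (∀ y : Γ, j y * D = Complex.I * aC ^ n → dist (δ y) 1 < ρ') →
      (∀ (l : ℕ) (ξ : ℂ), l < n → ‖ξ‖ ≤ ρ → LinOn j δ ξ (LL D (l + 1) n) →
        ∀ y : Γ, j y = aC ^ l → dist (δ y) 1 ≤ 1 / 2) →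
      ∃ ξ : ℂ, ‖ξ‖ ≤ ρ ∧ LinOn j δ ξ (LL D 0 n)

/-! ### block RIG: consistency of the linear approximations -/

def RigStmt : Prop :=
  ∀ (Γ : Type) [AddCommGroup Γ] (j : Γ →+ ℂ), Function.Injective j → range j = RRset →
    ∀ (D : GaussianInt), D ≠ 0 → ∀ (C : ℝ) (χ : Γ → Circle), IsChar χ →
    (∀ᶠ n : ℕ in atTop, ∃ (m : ℤ) (ξ : ℂ), m ≠ 0 ∧ |(m : ℝ)| ≤ C * Real.exp ((1 / 10) * n) ∧
      ‖ξ‖ ≤ C * Real.exp ((1 / 10) * n) ∧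
      ∀ z : Γ, j z ∈ LL D 0 n → χ (m • z) = ex (ξ * j z).re) →
    ∃ o : ℕ, 0 < o ∧ ∀ ε : ℝ, 0 < ε → ∃ δ : ℝ, 0 < δ ∧ ∀ y : Γ, j y ∈ G0 → ‖j y‖ < δ →
      dist (χ (o • y)) 1 < ε

/-! ### block ARITH -/

def ArithStmt : Prop :=
  ∀ (Γ : Type) [CommRing Γ] (j : Γ →+* ℂ), Function.Injective j → range j = RRset →
    ∃ a : Γ, j a = aC ∧
      (∃ c : Γ →+ ZMod 5, c 1 = 1 ∧ ∀ y, c y = 0 ↔ ∃ y', a * y' = y) ∧
      ∃ u : ℕ → Γˣ, (∀ k : ℕ, ¬ 5 ∣ k ^ 2 + 1 → j (u k) * (k - Complex.I) = k + Complex.I) ∧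
        ∀ y : Γ, y ≠ 0 → ∃ v : ℕ, ∀ (n k l : ℕ) (z : Γ), ¬ 5 ∣ k ^ 2 + 1 → ¬ 5 ∣ l ^ 2 + 1 →
          a ^ n * z = ((u k : Γ) - u l) * y → (5 : ℤ) ^ (n - v) ∣ (k : ℤ) - l

/-- `RRset` is (the image of) a countable ring -/
def RingStmt : Prop :=
  ∃ (R : Subring KK), Countable R ∧ ∀ z : ℂ, z ∈ RRset ↔ ∃ y : KK, y ∈ R ∧ (y : ℂ) = z

/-! ### block A: Theorem A -/

def ThmAStmt : Prop :=
  ∀ (Γ : Type) [CommRing Γ] [Countable Γ] (j : Γ →+* ℂ), Function.Injective j →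
    range j = RRset → ∀ (μ : Measure (Γ → Circle)) [IsFiniteMeasure μ], (∀ᵐ χ ∂μ, IsChar χ) →
    (∀ u : Γ, ‖j u‖ = 1 → MeasurePreserving (fun (χ : Γ → Circle) y => χ (u * y)) μ μ) →
    ∃ Xc : Set (Γ → Circle), MeasurableSet Xc ∧
      (∀ y : Γ, y ≠ 0 → ∫ χ in Xc, ((χ y : Circle) : ℂ) ∂μ = 0) ∧
      ∀ᵐ χ ∂μ, χ ∉ Xc → ∃ o : ℕ, 0 < o ∧ ∀ ε : ℝ, 0 < ε → ∃ δ : ℝ, 0 < δ ∧
        ∀ y : Γ, j y ∈ G0 → ‖j y‖ < δ → dist (χ (o • y)) 1 < ε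

/-! ### block KILL -/

/-- `y ↦ χ (z y)` is continuous at `0` on `G0` -/
def ContG0 (χ : KK → Circle) (z : KK) : Prop :=
  ∀ ε : ℝ, 0 < ε → ∃ δ : ℝ, 0 < δ ∧ ∀ y : KK, (y : ℂ) ∈ G0 → ‖(y : ℂ)‖ < δ →
    dist (χ (z * y)) 1 < ε

def KillStmt : Prop :=
  ∀ (μ : Measure (KK → Circle)) [IsFiniteMeasure μ], (∀ᵐ χ ∂μ, IsChar χ) →
    (∀ u : KK, ‖(u : ℂ)‖ = 1 → MeasurePreserving (fun (χ : KK → Circle) y => χ (u * y)) μ μ) →
    ∀ᵐ χ ∂μ, (∃ o : ℕ, 0 < o ∧ ContG0 χ o) → ContG0 χ 1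

/-! ### block T: the decay property -/

def TStmt : Prop :=
  ∀ f : KK → ℝ, PosDef f → (∀ x, f (-x) = f x) →
    (∀ u x : KK, ‖(u : ℂ)‖ = 1 → f (u * x) = f x) → (∀ x : KK, ‖(x : ℂ)‖ = 1 → f x = 0) → Decay f

/-! ### final statement -/

def FinalStmt : Prop :=
  ∀ (k : ℕ) (c : ℂ → Fin k), (∀ x y, dist x y = 1 → c x ≠ c y) → 6 ≤ k

end Vale.Agent.P032.T
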