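import Vale.Agent.P032.M.LL
import Vale.Agent.P032.M.J
import Vale.Agent.P032.T.Defs

/-! P032, transfer principle: block LIM (limit lemma for asymptotically proper colourings). -/

open MeasureTheory Set Filter Topology
open scoped ENNReal RealInnerProductSpace

namespace Vale.Agent.P032.M

theorem mul_avg_zero' (hJ : SumNullStmt) {g : ℕ → ℂ → ℝ} {φ : ℂ → ℝ} (hm : ∀ n, Measurable (g n))
    (h0 : ∀ n x, 0 ≤ g n x) (h1 : ∀ n x, g n x ≤ 1) (hφm : Measurable φ) (hφ0 : ∀ x, 0 ≤ φ x)
    (hφ1 : ∀ x, φ x ≤ 1) (hw : WeakLim g φ)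
    (hz : ∀ R : ℕ, Tendsto (fun n => ∫ x in Metric.ball (0:ℂ) R, g n x * avg (g n) x) atTop (𝓝 0)) :
    ∀ᵐ x : ℂ, φ x * avg φ x = 0 := by
  have hb : ∀ n x, |g n x| ≤ 1 := fun n x => by rw [abs_of_nonneg (h0 n x)]; exact h1 n x
  have hφb : ∀ x, |φ x| ≤ 1 := fun x => by rw [abs_of_nonneg (hφ0 x)]; exact hφ1 x
  let h : ℕ → ℂ → ℝ := fun n x => g n x - φ x
  have hhm : ∀ n, Measurable (h n) := fun n => (hm n).sub hφm
  have hhb : ∀ n x, |h n x| ≤ 1 := fun n x => by
    rw [abs_le]
    have a1 := h0 n x
    have a2 := h1 n x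
    have a3 := hφ0 x
    have a4 := hφ1 x
    simp only [h]
    constructor <;> linarith
  have hhw : WeakLim h 0 := hw.sub_self hm hb hφm hφb
  have havg : ∀ n x, avg (h n) x = avg (g n) x - avg φ x := fun n x => by
    unfold avg
    rw [← integral_sub (integrableOn_dir (hm n) (hb n) x) (integrableOn_dir hφm hφb x)]
  have hzero : ∀ R : ℕ, ∫ x in Metric.ball (0:ℂ) R, φ x * avg φ x = 0 := by
    intro R
    set B := Metric.ball (0:ℂ) R with hB
    have hBm : MeasurableSet B := measurableSet_ball
    have hBf : volume B ≠ ∞ := measure_ball_lt_top.ne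
    have hF : Integrable (B.indicator (avg φ)) (volume : Measure ℂ) := by
      rw [integrable_indicator_iff hBm]
      refine Integrable.mono (g := fun _ => 2 * Real.pi) (integrableOn_const hBf)
        (measurable_avg hφm).aestronglyMeasurable (Eventually.of_forall fun x => ?_)
      rw [Real.norm_of_nonneg Real.two_pi_pos.le]
      exact abs_avg_le hφb x
    have e1 : ∀ u : ℂ → ℝ, ∫ x, u x * B.indicator (avg φ) x = ∫ x in B, u x * avg φ x := by
      intro u
      rw [← integral_indicator hBm]
      congr 1
      ext x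
      by_cases hx : x ∈ B <;> simp [hx]
    have hlim := hw.tendsto_volume hF
    simp only [e1] at hlim
    have hI := avg_sq_tendsto hJ hhm hhb hhw R
    rw [← hB] at hI
    have hint : ∀ (u v : ℂ → ℝ), Measurable u → Measurable v → (∀ x, |u x| ≤ 1) → (∀ x, |v x| ≤ 1) →
        IntegrableOn (fun x => u x * avg v x) B volume := by
      intro u v hu hv hub hvb
      refine Integrable.mono (g := fun _ => 2 * Real.pi) (integrableOn_const hBf)
        (hu.mul (measurable_avg hv)).aestronglyMeasurable (Eventually.of_forall fun x => ?_)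
      rw [Real.norm_of_nonneg Real.two_pi_pos.le, norm_mul]
      calc _ ≤ 1 * (2 * Real.pi) := mul_le_mul (hub x) (abs_avg_le hvb x) (abs_nonneg _) zero_le_one
        _ = _ := one_mul _
    have hsq : ∀ n, IntegrableOn (fun x => avg (h n) x ^ 2) B volume := by
      intro n
      have hci : Integrable (fun _ : ℂ => (2 * Real.pi) ^ 2) (volume.restrict B) :=
        integrableOn_const hBf
      refine hci.mono ((measurable_avg (hhm n)).pow_const 2).aestronglyMeasurable (Eventually.of_forall fun x => ?_)
      have hq : (0:ℝ) ≤ (2 * Real.pi) ^ 2 := by positivity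
      rw [Real.norm_of_nonneg hq, norm_pow]
      exact pow_le_pow_left₀ (norm_nonneg (avg (h n) x)) (abs_avg_le (hhb n) x) 2
    have hbound : ∀ ε : ℝ, 0 < ε → ∀ n, ∫ x in B, g n x * avg φ x ≤
        (∫ x in B, g n x * avg (g n) x) + (ε * volume.real B + (∫ x in B, avg (h n) x ^ 2) / ε) := by
      intro ε hε n
      have hci : Integrable (fun _ : ℂ => ε) (volume.restrict B) := integrableOn_const hBf
      have hi2 : Integrable (fun x => ε + avg (h n) x ^ 2 / ε) (volume.restrict B) :=
        hci.add ((hsq n).div_const ε)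
      have hi3 : Integrable (fun x => g n x * avg (g n) x) (volume.restrict B) :=
        hint _ _ (hm n) (hm n) (hb n) (hb n)
      have s1 : ∫ x in B, g n x * avg φ x ≤
          ∫ x in B, (g n x * avg (g n) x + (ε + avg (h n) x ^ 2 / ε)) := by
        refine integral_mono_ae (hint _ _ (hm n) hφm (hb n) hφb) (hi3.add hi2) ?_
        · refine Eventually.of_forall fun x => ?_
          have hx2 : g n x * avg φ x = g n x * avg (g n) x + - (g n x * avg (h n) x) := by
            rw [havg, mul_sub]; ring
          simp only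
          rw [hx2]
          refine add_le_add le_rfl ?_
          have hx3 : - (g n x * avg (h n) x) ≤ |avg (h n) x| := by
            calc _ ≤ |g n x * avg (h n) x| := neg_le_abs _
              _ = |g n x| * |avg (h n) x| := abs_mul _ _
              _ ≤ _ := mul_le_of_le_one_left (abs_nonneg _) (hb n x)
          refine hx3.trans ?_
          rw [← sq_abs (avg (h n) x)]
          by_cases hc : |avg (h n) x| ≤ ε
          · have : 0 ≤ |avg (h n) x| ^ 2 / ε := by positivity
            linarith
          · push Not at hc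
            have : |avg (h n) x| ≤ |avg (h n) x| ^ 2 / ε := by
              rw [le_div_iff₀ hε, sq]
              exact mul_le_mul_of_nonneg_left hc.le (abs_nonneg _)
            linarith
      rw [integral_add hi3 hi2, integral_add hci ((hsq n).div_const ε), setIntegral_const,
        integral_div, smul_eq_mul, mul_comm (volume.real B)] at s1
      exact s1
    have hle : ∀ ε : ℝ, 0 < ε → ∫ x in B, φ x * avg φ x ≤ ε * volume.real B := by
      intro ε hε
      have t1 : Tendsto (fun n => (∫ x in B, g n x * avg (g n) x) +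
          (ε * volume.real B + (∫ x in B, avg (h n) x ^ 2) / ε)) atTop
          (𝓝 (0 + (ε * volume.real B + 0 / ε))) := (hz R).add ((hI.div_const ε).const_add _)
      rw [zero_div, add_zero, zero_add] at t1
      exact le_of_tendsto_of_tendsto' hlim t1 (hbound ε hε)
    have hge : 0 ≤ ∫ x in B, φ x * avg φ x := integral_nonneg fun x =>
      mul_nonneg (hφ0 x) (avg_nonneg hφ0 x)
    refine le_antisymm ?_ hge
    have t2 : Tendsto (fun ε : ℝ => ε * volume.real B) (𝓝[>] 0) (𝓝 (0 * volume.real B)) :=
      (tendsto_id.mono_left nhdsWithin_le_nhds).mul_const _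
    rw [zero_mul] at t2
    exact ge_of_tendsto t2 (by filter_upwards [self_mem_nhdsWithin] with ε hε using hle ε hε)
  have hae : ∀ R : ℕ, ∀ᵐ x : ℂ, x ∈ Metric.ball (0:ℂ) R → φ x * avg φ x = 0 := by
    intro R
    have hnn : 0 ≤ᵐ[volume.restrict (Metric.ball (0:ℂ) R)] fun x => φ x * avg φ x :=
      Eventually.of_forall fun x => mul_nonneg (hφ0 x) (avg_nonneg hφ0 x)
    have hii : Integrable (fun x => φ x * avg φ x) (volume.restrict (Metric.ball (0:ℂ) R)) := by
      refine Integrable.mono (g := fun _ => 2 * Real.pi) (integrableOn_const measure_ball_lt_top.ne)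
        (hφm.mul (measurable_avg hφm)).aestronglyMeasurable (Eventually.of_forall fun x => ?_)
      rw [Real.norm_of_nonneg Real.two_pi_pos.le, norm_mul]
      calc _ ≤ 1 * (2 * Real.pi) := mul_le_mul (hφb x) (abs_avg_le hφb x) (abs_nonneg _) zero_le_one
        _ = _ := one_mul _
    have := (integral_eq_zero_iff_of_nonneg_ae hnn hii).1 (hzero R)
    exact (ae_restrict_iff' measurableSet_ball).1 this
  have hall : ∀ᵐ x : ℂ, ∀ R : ℕ, x ∈ Metric.ball (0:ℂ) R → φ x * avg φ x = 0 := ae_all_iff.2 hae
  filter_upwards [hall] with x hx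
  obtain ⟨R, hR⟩ := exists_nat_gt ‖x‖
  exact hx R (by simpa using hR)

/-- The colour defect tends to zero. -/
theorem asym_tendsto {k : ℕ} {c : ℕ → ℂ → Fin k} (hc : ∀ n, Measurable (c n))
    (hp : T.AsymProper c) (i : Fin k) (R : ℕ) :
    Tendsto (fun n => ∫ x in Metric.ball (0:ℂ) R, colInd (c n) i x * avg (colInd (c n) i) x)
      atTop (𝓝 0) := by
  set S : ℕ → Set (ℂ × ℝ) := fun n => {p : ℂ × ℝ | ‖p.1‖ ≤ R ∧
    p.2 ∈ Ioc (0:ℝ) (2 * Real.pi) ∧ c n (p.1 + e p.2) = c n p.1} with hS
  have hlim : Tendsto (fun n => (volume (S n)).toReal) atTop (𝓝 0) := by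
    have := (ENNReal.tendsto_toReal ENNReal.zero_ne_top).comp (hp R)
    rwa [ENNReal.toReal_zero] at this
  refine squeeze_zero (fun n => integral_nonneg fun x =>
    mul_nonneg (colInd_nonneg _ _ _) (avg_nonneg (colInd_nonneg _ _) _)) (fun n => ?_) hlim
  set B := Metric.ball (0:ℂ) R with hB
  set J := Ioc (0:ℝ) (2 * Real.pi) with hJ
  have hBf : volume B ≠ ∞ := measure_ball_lt_top.ne
  have hfin : IsFiniteMeasure (volume.restrict B) := ⟨by simpa using lt_top_iff_ne_top.2 hBf⟩
  have hfin2 : IsFiniteMeasure (volume.restrict J) :=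
    ⟨by rw [Measure.restrict_apply_univ, hJ]; exact measure_Ioc_lt_top⟩
  have hcm := measurable_colInd (hc n) i
  -- rewrite as an integral over the product
  have e1 : ∫ x in B, colInd (c n) i x * avg (colInd (c n) i) x =
      ∫ p, colInd (c n) i p.1 * colInd (c n) i (p.1 + e p.2)
        ∂((volume.restrict B).prod (volume.restrict J)) := by
    rw [integral_prod]
    · refine integral_congr_ae (Eventually.of_forall fun x => ?_)
      simp only [avg]
      rw [integral_const_mul]
    · refine (integrable_const (1:ℝ)).mono ?_ (Eventually.of_forall fun p => ?_)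
      · exact Measurable.aestronglyMeasurable (by fun_prop)
      · rw [norm_one, norm_mul, Real.norm_of_nonneg (colInd_nonneg _ _ _),
          Real.norm_of_nonneg (colInd_nonneg _ _ _)]
        exact mul_le_one₀ (colInd_le _ _ _) (colInd_nonneg _ _ _) (colInd_le _ _ _)
  have hTm : MeasurableSet {p : ℂ × ℝ | c n (p.1 + e p.2) = c n p.1} := by
    have h1 : Measurable (fun p : ℂ × ℝ => c n (p.1 + e p.2)) := (hc n).comp (by fun_prop)
    have h2 : Measurable (fun p : ℂ × ℝ => c n p.1) := (hc n).comp measurable_fst
    exact measurableSet_eq_fun h1 h2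
  rw [e1]
  have hprod : (volume.restrict B).prod (volume.restrict J) =
      (volume : Measure (ℂ × ℝ)).restrict (B ×ˢ J) := by
    rw [Measure.prod_restrict, Measure.volume_eq_prod]
  calc ∫ p, colInd (c n) i p.1 * colInd (c n) i (p.1 + e p.2)
        ∂((volume.restrict B).prod (volume.restrict J))
      ≤ ∫ p, ({p : ℂ × ℝ | c n (p.1 + e p.2) = c n p.1}.indicator (fun _ => (1:ℝ))) p
        ∂((volume.restrict B).prod (volume.restrict J)) := by
        refine integral_mono ?_ ?_ ?_
        · refine (integrable_const (1:ℝ)).mono ?_ (Eventually.of_forall fun p => ?_)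
          · exact Measurable.aestronglyMeasurable (by fun_prop)
          · rw [norm_one, norm_mul, Real.norm_of_nonneg (colInd_nonneg _ _ _),
              Real.norm_of_nonneg (colInd_nonneg _ _ _)]
            exact mul_le_one₀ (colInd_le _ _ _) (colInd_nonneg _ _ _) (colInd_le _ _ _)
        · exact (integrable_const (1:ℝ)).indicator hTm
        · intro p
          simp only
          by_cases h1 : c n p.1 = i
          · by_cases h2 : c n (p.1 + e p.2) = i
            · rw [indicator_of_mem (by show c n (p.1 + e p.2) = c n p.1; rw [h1, h2])]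
              exact mul_le_one₀ (colInd_le _ _ _) (colInd_nonneg _ _ _) (colInd_le _ _ _)
            · rw [colInd_eq_zero h2, mul_zero]
              exact indicator_nonneg (fun _ _ => zero_le_one) _
          · rw [colInd_eq_zero h1, zero_mul]
            exact indicator_nonneg (fun _ _ => zero_le_one) _
    _ = (((volume.restrict B).prod (volume.restrict J))
          {p : ℂ × ℝ | c n (p.1 + e p.2) = c n p.1}).toReal := by
        rw [integral_indicator hTm, setIntegral_const, smul_eq_mul, mul_one]
        rfl
    _ ≤ (volume (S n)).toReal := by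
        have hSf : volume (S n) ≠ ∞ := by
          have hle : volume (S n) ≤ volume (Metric.closedBall (0:ℂ) R ×ˢ J) := by
            refine measure_mono ?_
            rintro p ⟨h1, h2, _⟩
            exact ⟨by simpa using h1, h2⟩
          refine (hle.trans_lt ?_).ne
          rw [Measure.volume_eq_prod, Measure.prod_prod]
          exact ENNReal.mul_lt_top measure_closedBall_lt_top measure_Ioc_lt_top
        refine ENNReal.toReal_mono hSf ?_
        rw [hprod, Measure.restrict_apply hTm]
        refine measure_mono ?_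
        rintro p ⟨h1, h2, h3⟩
        refine ⟨?_, h3, h1⟩
        have : p.1 ∈ B := h2
        rw [hB, Metric.mem_ball, dist_zero_right] at this
        exact this.le

theorem lim : T.LimStmt := by
  intro k c hc hp
  have hJ : SumNullStmt := sumNull
  have hk : 0 < k := lt_of_le_of_lt (Nat.zero_le _) (c 0 0).2
  obtain ⟨s, hs, φ, hφm, hφ0, hφ1, hw⟩ := extract_all (fun (i : Fin k) n => colInd (c n) i)
    (fun i n => measurable_colInd (hc n) i) (fun i n x => colInd_nonneg _ _ _)
    (fun i n x => colInd_le _ _ _)
  have hφb : ∀ i x, |φ i x| ≤ 1 := fun i x => by rw [abs_of_nonneg (hφ0 i x)]; exact hφ1 i x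
  -- the sum is one
  have hsum : ∀ᵐ x : ℂ, ∑ i, φ i x = 1 := by
    refine ac_mu.ae_le ?_
    have hint : ∀ i, Integrable (φ i) mu := fun i => by
      refine (integrable_const (1:ℝ)).mono (hφm i).aestronglyMeasurable
        (Eventually.of_forall fun x => ?_)
      rw [norm_one]; exact hφb i x
    have hintc : ∀ n i, Integrable (colInd (c n) i) mu := fun n i => by
      refine (integrable_const (1:ℝ)).mono (measurable_colInd (hc n) i).aestronglyMeasurable
        (Eventually.of_forall fun x => ?_)
      rw [norm_one, Real.norm_of_nonneg (colInd_nonneg _ _ _)]; exact colInd_le _ _ _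
    have hsi : Integrable (fun x => ∑ i, φ i x) mu := integrable_finsetSum _ fun i _ => hint i
    refine Integrable.ae_eq_of_forall_setIntegral_eq _ _ hsi (integrable_const (1:ℝ)) ?_
    intro S hS _
    have e1 : ∀ u : ℂ → ℝ, ∫ x, u x * S.indicator (fun _ => (1:ℝ)) x ∂mu = ∫ x in S, u x ∂mu := by
      intro u
      rw [← integral_indicator hS]
      congr 1
      ext x
      by_cases hx : x ∈ S <;> simp [hx]
    have hSi : Integrable (S.indicator (fun _ => (1:ℝ))) mu := (integrable_const 1).indicator hS
    have h1 : ∀ i, Tendsto (fun n => ∫ x in S, colInd (c (s n)) i x ∂mu) atTop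
        (𝓝 (∫ x in S, φ i x ∂mu)) := by
      intro i
      have := hw i _ hSi
      simp only [e1] at this
      exact this
    have h2 := tendsto_finsetSum Finset.univ fun i _ => h1 i
    rw [integral_finsetSum _ fun i _ => (hint i).integrableOn]
    refine tendsto_nhds_unique h2 ?_
    refine tendsto_const_nhds.congr fun n => ?_
    rw [← integral_finsetSum _ fun i _ => (hintc _ i).integrableOn]
    congr 1
    ext x
    rw [Finset.sum_eq_single (c (s n) x)]
    · exact (colInd_eq_one rfl).symm
    · intro b _ hb
      exact colInd_eq_zero hb.symm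
    · intro h; exact absurd (Finset.mem_univ _) h
  -- the new colouring
  obtain ⟨c', hc'm, hc'⟩ := exists_min_pick hk (fun j => {x | 0 < φ j x})
    (fun j => measurableSet_lt measurable_const (hφm j))
  have hgood : ∀ x, ∑ i, φ i x = 1 → 0 < φ (c' x) x ∧ ∀ j, 0 < φ j x → c' x ≤ j := by
    intro x hx
    refine hc' x ?_
    by_contra hcon
    push Not at hcon
    have : ∑ i, φ i x ≤ 0 := Finset.sum_nonpos fun i _ => by
      have := hcon i
      simpa using this
    rw [hx] at this
    linarith
  refine ⟨c', hc'm, ?_⟩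
  · -- proper
    have h1 : ∀ᵐ x : ℂ, ∀ i, φ i x * avg (φ i) x = 0 := ae_all_iff.2 fun i =>
      mul_avg_zero' hJ (fun n => measurable_colInd (hc (s n)) i) (fun n x => colInd_nonneg _ _ _)
        (fun n x => colInd_le _ _ _) (hφm i) (hφ0 i) (hφ1 i) (hw i)
        (fun R => (asym_tendsto hc hp i R).comp hs.tendsto_atTop)
    have h2 : ∀ᵐ x : ℂ, ∀ᵐ t : ℝ, ∑ i, φ i (x + e t) = 1 := ae_shift hsum
    filter_upwards [h1, h2, hsum] with x hx1 hx2 hx3
    have hx4 := (hgood x hx3).1
    have hx5 : avg (φ (c' x)) x = 0 := by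
      rcases mul_eq_zero.1 (hx1 (c' x)) with h | h
      · exact absurd h hx4.ne'
      · exact h
    filter_upwards [hx2, ae_dir_of_avg_zero (hφm _) (hφ0 _) (hφ1 _) hx5] with t ht1 ht2 ht3
    have ht4 := (hgood _ ht1).1
    rw [ht3, ht2] at ht4
    exact lt_irrefl _ ht4

end Vale.Agent.P032.M

namespace Vale.Agent.P032.T

theorem lim : LimStmt := M.lim

end Vale.Agent.P032.T
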