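import Vale.Agent.P032.T.Defs

/-! P032, transfer principle: arithmetic of Gaussian integers at `2 + i` and elementary facts
about `ex`. -/

open Set Filter Topology

namespace Vale.Agent.P032.T.Ga

/-! ### `ex` -/

theorem ex_zero : ex 0 = 1 := by simp [ex]

theorem ex_add (x y : ℝ) : ex (x + y) = ex x * ex y := by
  unfold ex
  rw [mul_add, Circle.exp_add]

theorem ex_neg (x : ℝ) : ex (-x) = (ex x)⁻¹ := by
  rw [eq_inv_iff_mul_eq_one, ← ex_add]
  simp [ex_zero]

theorem ex_eq_one_iff {x : ℝ} : ex x = 1 ↔ ∃ n : ℤ, x = n := by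
  unfold ex
  rw [Circle.exp_eq_one]
  have hpi : (0:ℝ) < 2 * Real.pi := by positivity
  constructor
  · rintro ⟨n, hn⟩
    refine ⟨n, ?_⟩
    have : 2 * Real.pi * x = 2 * Real.pi * n := by rw [hn]; ring
    exact mul_left_cancel₀ hpi.ne' this
  · rintro ⟨n, hn⟩
    exact ⟨n, by rw [hn]; ring⟩

theorem coe_ex (x : ℝ) : ((ex x : Circle) : ℂ) = Complex.exp (Complex.I * ((2 * Real.pi * x : ℝ) : ℂ)) := by
  unfold ex
  rw [Circle.coe_exp, mul_comm]

theorem circle_dist (x y : Circle) : dist x y = ‖(x : ℂ) - y‖ := by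
  have h : dist x y = dist (x : ℂ) (y : ℂ) := rfl
  rw [h, dist_eq_norm]

theorem circle_dist_mul (x y : Circle) : dist (x * y) 1 ≤ dist x 1 + dist y 1 := by
  rw [circle_dist, circle_dist, circle_dist]
  have h : ((x * y : Circle) : ℂ) - ((1 : Circle) : ℂ)
      = (x : ℂ) * ((y : ℂ) - 1) + ((x : ℂ) - 1) := by
    rw [Circle.coe_mul, Circle.coe_one]; ring
  rw [h]
  refine (norm_add_le _ _).trans ?_
  rw [norm_mul, Circle.norm_coe, one_mul, Circle.coe_one, add_comm]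

theorem circle_dist_inv (x : Circle) : dist x⁻¹ 1 = dist x 1 := by
  rw [circle_dist, circle_dist, Circle.coe_one]
  have h : ((x⁻¹ : Circle) : ℂ) - 1 = - ((x⁻¹ : Circle) : ℂ) * ((x : ℂ) - 1) := by
    have h1 : ((x⁻¹ : Circle) : ℂ) * (x : ℂ) = 1 := by
      rw [← Circle.coe_mul, inv_mul_cancel, Circle.coe_one]
    linear_combination (1 : ℂ) * h1
  rw [h, norm_mul, norm_neg, Circle.norm_coe, one_mul]

theorem circle_dist_div (x y : Circle) : dist (x * y⁻¹) 1 = dist x y := by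
  rw [circle_dist, circle_dist, Circle.coe_one]
  have h : ((x * y⁻¹ : Circle) : ℂ) - 1 = ((y⁻¹ : Circle) : ℂ) * ((x : ℂ) - y) := by
    have h1 : ((y⁻¹ : Circle) : ℂ) * (y : ℂ) = 1 := by
      rw [← Circle.coe_mul, inv_mul_cancel, Circle.coe_one]
    rw [Circle.coe_mul]
    linear_combination (1 : ℂ) * h1
  rw [h, norm_mul, Circle.norm_coe, one_mul]

theorem dist_ex_one_le (x : ℝ) : dist (ex x) 1 ≤ 2 * Real.pi * |x| := by
  rw [circle_dist, coe_ex, Circle.coe_one]
  refine Real.norm_exp_I_mul_ofReal_sub_one_le.trans ?_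
  rw [Real.norm_eq_abs, abs_mul, abs_of_pos (by positivity : (0:ℝ) < 2 * Real.pi)]

/-! ### characters -/

theorem char_zero {Γ : Type*} [AddCommGroup Γ] {χ : Γ → Circle} (h : IsChar χ) : χ 0 = 1 := by
  have := h 0 0
  rw [add_zero] at this
  exact (mul_eq_left (a := χ 0)).1 this.symm

theorem char_neg {Γ : Type*} [AddCommGroup Γ] {χ : Γ → Circle} (h : IsChar χ) (x : Γ) :
    χ (-x) = (χ x)⁻¹ := by
  rw [eq_inv_iff_mul_eq_one, ← h, neg_add_cancel, char_zero h]

theorem char_sub {Γ : Type*} [AddCommGroup Γ] {χ : Γ → Circle} (h : IsChar χ) (x y : Γ) :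
    χ (x - y) = χ x * (χ y)⁻¹ := by
  rw [sub_eq_add_neg, h, char_neg h]

/-! ### Gaussian integers modulo `2 + i` -/

/-- reduction modulo `2 + i` -/
def phi : GaussianInt →+* ZMod 5 := Zsqrtd.lift ⟨(3 : ZMod 5), by decide⟩

theorem phi_apply (g : GaussianInt) : phi g = (g.re : ZMod 5) + g.im * 3 := by
  simp [phi, Zsqrtd.lift]

theorem phi_gp : phi gp = 0 := by
  rw [phi_apply]
  simp only [gp]
  decide

/-- `2 - i` -/
def gpb : GaussianInt := ⟨2, -1⟩

theorem phi_gpb : phi gpb ≠ 0 := by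
  rw [phi_apply]
  simp only [gpb]
  decide

theorem coe_gp : ((gp : GaussianInt) : ℂ) = 2 + Complex.I := by
  simp [gp, GaussianInt.toComplex_def]

theorem coe_gpb : ((gpb : GaussianInt) : ℂ) = 2 - Complex.I := by
  simp [gpb, GaussianInt.toComplex_def, sub_eq_add_neg]

theorem gp_mul_gpb : gp * gpb = 5 := by
  decide

theorem gp_dvd_iff (g : GaussianInt) : gp ∣ g ↔ phi g = 0 := by
  constructor
  · rintro ⟨h, rfl⟩
    rw [map_mul, phi_gp, zero_mul]
  · intro h
    rw [phi_apply] at h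
    -- re + 3 im ≡ 0 mod 5
    have h5 : ((g.re + g.im * 3 : ℤ) : ZMod 5) = 0 := by push_cast; exact h
    rw [ZMod.intCast_zmod_eq_zero_iff_dvd] at h5
    obtain ⟨t, ht⟩ := h5
    push_cast at ht
    -- g = (2+i) * (x + i y), x = (2 re + im)/5, y = (2 im - re)/5
    refine ⟨⟨2 * t - g.im, g.im - t⟩, ?_⟩
    have h1 : g.re = 5 * t - 3 * g.im := by linarith
    apply Zsqrtd.ext
    · simp only [gp, Zsqrtd.re_mul]
      rw [h1]; ring
    · simp only [gp, Zsqrtd.im_mul]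
      ring

theorem not_gp_dvd_gpb_pow (n : ℕ) : ¬ gp ∣ gpb ^ n := by
  rw [gp_dvd_iff, map_pow]
  have : Fact (Nat.Prime 5) := ⟨by norm_num⟩
  exact pow_ne_zero n phi_gpb

theorem not_gp_dvd_mul {a b : GaussianInt} (ha : ¬ gp ∣ a) (hb : ¬ gp ∣ b) : ¬ gp ∣ a * b := by
  have : Fact (Nat.Prime 5) := ⟨by norm_num⟩
  rw [gp_dvd_iff] at *
  rw [map_mul]
  exact mul_ne_zero ha hb

theorem isCoprime_gp_gpb : IsCoprime gp gpb := by
  refine ⟨gpb - 1, -1, ?_⟩
  decide

theorem two_sub_I_ne : (2 - Complex.I : ℂ) ≠ 0 := by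
  intro h
  have := congrArg Complex.re h
  simp at this

theorem two_add_I_ne : (2 + Complex.I : ℂ) ≠ 0 := by
  intro h
  have := congrArg Complex.re h
  simp at this

theorem norm_two_sub_I : ‖(2 - Complex.I : ℂ)‖ = Real.sqrt 5 := by
  rw [Complex.norm_def, Complex.normSq_apply]
  norm_num

theorem norm_two_add_I : ‖(2 + Complex.I : ℂ)‖ = Real.sqrt 5 := by
  rw [Complex.norm_def, Complex.normSq_apply]
  norm_num

end Vale.Agent.P032.T.Ga
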