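import Vale.Agent.P032.T.Defs

/-!
P032, transfer principle, block INV: a finite measure on characters which has the same Fourier
coefficients as its image under the dual of an endomorphism is invariant under that dual map.
-/

open MeasureTheory Set Filter Topology BoundedContinuousFunction
open scoped ENNReal

namespace Vale.Agent.P032.T

theorem continuous_circle_coe : Continuous (fun z : Circle => (z : ℂ)) :=
  continuous_subtype_val

section

variable {Γ : Type} [AddCommGroup Γ]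

private theorem invChar_zero {χ : Γ → Circle} (h : IsChar χ) : χ 0 = 1 := by
  have := h 0 0
  simpa using this

private theorem invChar_neg {χ : Γ → Circle} (h : IsChar χ) (x : Γ) : χ (-x) = (χ x)⁻¹ := by
  have h1 := h x (-x)
  rw [add_neg_cancel, invChar_zero h] at h1
  exact (inv_eq_of_mul_eq_one_right h1.symm).symm

/-- functions which coincide with a trigonometric polynomial on characters -/
def Trig (g : (Γ → Circle) → ℂ) : Prop :=
  ∃ (ι : Type) (_ : Fintype ι) (c : ι → ℂ) (x : ι → Γ), ∀ χ : Γ → Circle, IsChar χ →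
    g χ = ∑ i, c i * ((χ (x i) : Circle) : ℂ)

theorem Trig.add {g g' : (Γ → Circle) → ℂ} (h : Trig g) (h' : Trig g') :
    Trig (fun χ => g χ + g' χ) := by
  obtain ⟨ι, _, c, x, hl⟩ := h
  obtain ⟨ι', _, c', x', hl'⟩ := h'
  refine ⟨ι ⊕ ι', inferInstance, Sum.elim c c', Sum.elim x x', fun χ hχ => ?_⟩
  change g χ + g' χ = _
  rw [hl χ hχ, hl' χ hχ, Fintype.sum_sum_type]
  rfl

theorem Trig.mul {g g' : (Γ → Circle) → ℂ} (h : Trig g) (h' : Trig g') :
    Trig (fun χ => g χ * g' χ) := by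
  obtain ⟨ι, _, c, x, hl⟩ := h
  obtain ⟨ι', _, c', x', hl'⟩ := h'
  refine ⟨ι × ι', inferInstance, fun p => c p.1 * c' p.2, fun p => x p.1 + x' p.2,
    fun χ hχ => ?_⟩
  change g χ * g' χ = _
  rw [hl χ hχ, hl' χ hχ, Finset.sum_mul_sum, Fintype.sum_prod_type]
  refine Finset.sum_congr rfl fun i _ => Finset.sum_congr rfl fun i' _ => ?_
  have e : ((χ (x i + x' i') : Circle) : ℂ) = (χ (x i) : Circle) * (χ (x' i') : Circle) := by
    rw [hχ, Circle.coe_mul]
  change c i * ((χ (x i) : Circle) : ℂ) * (c' i' * ((χ (x' i') : Circle) : ℂ)) =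
    c i * c' i' * ((χ (x i + x' i') : Circle) : ℂ)
  rw [e]
  ring

theorem trig_const (c : ℂ) : Trig (fun _ : Γ → Circle => c) :=
  ⟨Unit, inferInstance, fun _ => c, fun _ => 0, fun χ hχ => by
    simp [invChar_zero hχ]⟩

theorem trig_coord (x : Γ) : Trig (fun χ : Γ → Circle => ((χ x : Circle) : ℂ)) :=
  ⟨Unit, inferInstance, fun _ => 1, fun _ => x, fun χ hχ => by
    simp⟩

theorem Trig.star' {g : (Γ → Circle) → ℂ} (h : Trig g) : Trig (fun χ => star (g χ)) := by
  obtain ⟨ι, _, c, x, hl⟩ := h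
  refine ⟨ι, inferInstance, fun i => starRingEnd ℂ (c i), fun i => -x i, fun χ hχ => ?_⟩
  change star (g χ) = _
  rw [hl χ hχ, star_sum]
  refine Finset.sum_congr rfl fun i _ => ?_
  have e : ((χ (-x i) : Circle) : ℂ) = starRingEnd ℂ (χ (x i) : Circle) := by
    rw [invChar_neg hχ, Circle.coe_inv_eq_conj]
  rw [star_mul', e]
  rfl

theorem Trig.integral {g : (Γ → Circle) → ℂ} (h : Trig g) (T : Γ →+ Γ)
    (μ : Measure (Γ → Circle)) [IsFiniteMeasure μ] (hμ : ∀ᵐ χ ∂μ, IsChar χ)
    (hT : ∀ x, ∫ χ, ((χ (T x) : Circle) : ℂ) ∂μ = ∫ χ, ((χ x : Circle) : ℂ) ∂μ) :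
    ∫ χ, g (fun x => χ (T x)) ∂μ = ∫ χ, g χ ∂μ := by
  obtain ⟨ι, _, c, x, hl⟩ := h
  have hint : ∀ x : Γ, Integrable (fun χ : Γ → Circle => ((χ x : Circle) : ℂ)) μ := by
    intro x
    refine Integrable.of_bound (C := 1) ?_ ?_
    · exact (continuous_circle_coe.measurable.comp
        (measurable_pi_apply x)).aestronglyMeasurable
    · exact Eventually.of_forall fun χ => (Circle.norm_coe _).le
  have e1 : ∫ χ, g χ ∂μ = ∑ i, c i * ∫ χ, ((χ (x i) : Circle) : ℂ) ∂μ := by
    have : ∫ χ, g χ ∂μ = ∫ χ, ∑ i, c i * ((χ (x i) : Circle) : ℂ) ∂μ := by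
      refine integral_congr_ae ?_
      filter_upwards [hμ] with χ hχ
      rw [hl χ hχ]
    rw [this, integral_finsetSum _ fun i _ => (hint (x i)).const_mul _]
    exact Finset.sum_congr rfl fun x _ => integral_const_mul _ _
  have e2 : ∫ χ, g (fun x => χ (T x)) ∂μ =
      ∑ i, c i * ∫ χ, ((χ (T (x i)) : Circle) : ℂ) ∂μ := by
    have : ∫ χ, g (fun x => χ (T x)) ∂μ =
        ∫ χ, ∑ i, c i * ((χ (T (x i)) : Circle) : ℂ) ∂μ := by
      refine integral_congr_ae ?_
      filter_upwards [hμ] with χ hχ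
      have hχ' : IsChar (fun x => χ (T x)) := fun x y => by
        show χ (T (x + y)) = _
        rw [map_add, hχ]
      rw [hl _ hχ']
    rw [this, integral_finsetSum _ fun i _ => (hint (T (x i))).const_mul _]
    exact Finset.sum_congr rfl fun x _ => integral_const_mul _ _
  rw [e1, e2]
  simp only [hT]

omit [AddCommGroup Γ] in
/-- the coordinate as a bounded continuous function -/
noncomputable def coordB (x : Γ) : (Γ → Circle) →ᵇ ℂ :=
  BoundedContinuousFunction.mkOfBound
    ⟨fun χ => ((χ x : Circle) : ℂ), continuous_circle_coe.comp (continuous_apply x)⟩ 2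
    (fun χ χ' => by
      have h1 : ‖((χ x : Circle) : ℂ)‖ = 1 := Circle.norm_coe _
      have h2 : ‖((χ' x : Circle) : ℂ)‖ = 1 := Circle.norm_coe _
      change dist ((χ x : Circle) : ℂ) ((χ' x : Circle) : ℂ) ≤ 2
      rw [dist_eq_norm]
      calc ‖((χ x : Circle) : ℂ) - ((χ' x : Circle) : ℂ)‖
          ≤ ‖((χ x : Circle) : ℂ)‖ + ‖((χ' x : Circle) : ℂ)‖ := norm_sub_le _ _
        _ = 2 := by rw [h1, h2]; norm_num)

end

theorem inv : InvStmt := by
  intro Γ _ _ μ _ hμ T hT
  have hm : Measurable (fun (χ : Γ → Circle) x => χ (T x)) :=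
    measurable_pi_lambda _ fun x => measurable_pi_apply (T x)
  refine ⟨hm, ?_⟩
  let A : StarSubalgebra ℂ ((Γ → Circle) →ᵇ ℂ) :=
    StarAlgebra.adjoin ℂ (range (coordB : Γ → ((Γ → Circle) →ᵇ ℂ)))
  have : PolishSpace (Γ → Circle) := PolishSpace.mk
  refine ext_of_forall_mem_subalgebra_integral_eq_of_polish (A := A) ?_ ?_
  · intro χ χ' hne
    obtain ⟨x, hx⟩ := Function.ne_iff.mp hne
    refine ⟨fun χ => ((χ x : Circle) : ℂ), ⟨?_, ?_⟩⟩
    · refine ⟨toContinuousMapStarₐ ℂ (coordB x), ?_, rfl⟩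
      exact ⟨coordB x, StarAlgebra.subset_adjoin ℂ _ ⟨x, rfl⟩, rfl⟩
    · intro h
      exact hx (Circle.ext h)
  · intro g hg
    have htr : Trig (fun χ => g χ) := by
      refine StarAlgebra.adjoin_induction (p := fun g _ => Trig (fun χ => g χ)) ?_ ?_ ?_ ?_ ?_ hg
      · rintro _ ⟨x, rfl⟩
        exact trig_coord x
      · intro c
        exact trig_const c
      · intro g g' _ _ h h'
        exact h.add h'
      · intro g g' _ _ h h'
        exact h.mul h'
      · intro g _ h
        exact h.star'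
    rw [integral_map hm.aemeasurable g.continuous.measurable.aestronglyMeasurable]
    exact htr.integral T μ hμ hT

end Vale.Agent.P032.T
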