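import Vale.Agent.P032.T.Boch
import Vale.Agent.P032.T.Inv
import Vale.Agent.P032.T.Gauss

/-!
P032, block T (decay of the correlation function) from Theorem A, Bochner and invariance.
The integer `o` of Theorem A is removed by the square root step and the two-unit-vector lemma.
-/

open MeasureTheory Set Filter Topology
open scoped ENNReal NNReal

namespace Vale.Agent.P032.T.TT

open Ga

/-! ### arithmetic -/

/-- Gaussian rationals -/
def QI (z : ℂ) : Prop := ∃ a b : ℚ, z = a + b * Complex.I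

theorem QI.add {x y : ℂ} (hx : QI x) (hy : QI y) : QI (x + y) := by
  obtain ⟨a, b, rfl⟩ := hx
  obtain ⟨c, d, rfl⟩ := hy
  exact ⟨a + c, b + d, by push_cast; ring⟩

theorem QI.mul {x y : ℂ} (hx : QI x) (hy : QI y) : QI (x * y) := by
  obtain ⟨a, b, rfl⟩ := hx
  obtain ⟨c, d, rfl⟩ := hy
  refine ⟨a * c - b * d, a * d + b * c, ?_⟩
  push_cast
  linear_combination ((b : ℂ) * d) * Complex.I_sq

theorem QI.rat (q : ℚ) : QI (q : ℂ) := ⟨q, 0, by simp⟩

theorem QI.nat (n : ℕ) : QI (n : ℂ) := by exact_mod_cast QI.rat n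

theorem QI.I : QI Complex.I := ⟨0, 1, by simp⟩

theorem QI.neg {x : ℂ} (hx : QI x) : QI (-x) := by
  obtain ⟨a, b, rfl⟩ := hx
  exact ⟨-a, -b, by push_cast; ring⟩

theorem QI.sub {x y : ℂ} (hx : QI x) (hy : QI y) : QI (x - y) := by
  rw [sub_eq_add_neg]; exact hx.add hy.neg

theorem QI.normSq {x : ℂ} (hx : QI x) : ∃ r : ℚ, ‖x‖ ^ 2 = r := by
  obtain ⟨a, b, rfl⟩ := hx
  refine ⟨a ^ 2 + b ^ 2, ?_⟩
  rw [← Complex.normSq_eq_norm_sq, Complex.normSq_apply]
  push_cast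
  simp
  ring

theorem QI.inv {x : ℂ} (hx : QI x) : QI x⁻¹ := by
  obtain ⟨r, hr⟩ := hx.normSq
  obtain ⟨a, b, rfl⟩ := hx
  rw [Complex.inv_def, Complex.normSq_eq_norm_sq, hr]
  have : (starRingEnd ℂ) ((a : ℂ) + b * Complex.I) = (a : ℂ) + ((-b : ℚ) : ℂ) * Complex.I := by
    apply Complex.ext <;> simp
  rw [this]
  have h2 : (((r : ℝ)⁻¹ : ℝ) : ℂ) = ((r⁻¹ : ℚ) : ℂ) := by push_cast; rfl
  rw [h2]
  exact QI.mul ⟨a, -b, rfl⟩ (QI.rat _)

theorem QI.div {x y : ℂ} (hx : QI x) (hy : QI y) : QI (x / y) := by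
  rw [div_eq_mul_inv]; exact hx.mul hy.inv

theorem QI.gauss (g : GaussianInt) : QI (g : ℂ) :=
  ⟨g.re, g.im, by rw [GaussianInt.toComplex_def]; push_cast; rfl⟩

theorem QI.pow {x : ℂ} (hx : QI x) (n : ℕ) : QI (x ^ n) := by
  induction n with
  | zero => simpa using QI.nat 1
  | succ n ih => rw [pow_succ]; exact ih.mul hx

theorem QI.G0 {x : ℂ} (hx : x ∈ G0) : QI x := by
  obtain ⟨g, n, h⟩ := hx
  have h2 : (2 - Complex.I) ≠ 0 := by
    intro h; have := congrArg Complex.re h; simp at this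
  have h3 : x = g * ((2 - Complex.I) ^ n)⁻¹ := by
    rw [← h, mul_assoc, mul_inv_cancel₀ (pow_ne_zero _ h2), mul_one]
  rw [h3]
  have h4 : QI (2 - Complex.I) := by simpa using (QI.nat 2).sub QI.I
  exact (QI.gauss g).mul (h4.pow n).inv

theorem QI.exists_den {x : ℂ} (hx : QI x) : ∃ (N : ℕ) (g : GaussianInt), 0 < N ∧
    (N : ℂ) * x = g := by
  obtain ⟨a, b, rfl⟩ := hx
  refine ⟨a.den * b.den, ⟨a.num * b.den, b.num * a.den⟩, Nat.mul_pos a.pos b.pos, ?_⟩
  rw [GaussianInt.toComplex_def]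
  have ha : (a : ℂ) * a.den = a.num := by exact_mod_cast Rat.mul_den_eq_num a
  have hb : (b : ℂ) * b.den = b.num := by exact_mod_cast Rat.mul_den_eq_num b
  push_cast
  linear_combination (b.den : ℂ) * ha + (a.den : ℂ) * Complex.I * hb

theorem G0_mul {x : ℂ} (hx : x ∈ G0) (g : GaussianInt) : (g : ℂ) * x ∈ G0 := by
  obtain ⟨h, n, e⟩ := hx
  exact ⟨g * h, n, by rw [mul_assoc, e]; simp⟩

theorem G0_nat {x : ℂ} (hx : x ∈ G0) (m : ℕ) : (m : ℂ) * x ∈ G0 := by
  have := G0_mul hx (m : GaussianInt)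
  simpa using this

theorem pib_ne : (2 - Complex.I) ≠ 0 := by
  intro h; have := congrArg Complex.re h; simp at this

theorem norm_pib_sq : ‖(2 - Complex.I)‖ ^ 2 = 5 := by
  rw [← Complex.normSq_eq_norm_sq, Complex.normSq_apply]; simp; norm_num

theorem G0_pib (n : ℕ) : ((2 - Complex.I) ^ n)⁻¹ ∈ G0 :=
  ⟨1, n, by rw [inv_mul_cancel₀ (pow_ne_zero _ pib_ne)]; simp⟩

instance countable_KK' : Countable KK := by
  have h := Algebraic.countable ℚ ℂ
  have h2 : ({x : ℂ | IsAlgebraic ℚ x}) = ((KK : Set ℂ)) := by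
    ext x; simp [mem_algebraicClosure_iff]
  rw [h2] at h
  exact h.to_subtype

theorem mem_KK {x : ℂ} : x ∈ KK ↔ IsAlgebraic ℚ x := mem_algebraicClosure_iff

theorem I_mem_KK : Complex.I ∈ KK := by
  rw [mem_KK]
  apply IsAlgebraic.of_pow (n := 2) (by norm_num)
  rw [Complex.I_sq]
  exact (isAlgebraic_one (R := ℚ) (A := ℂ)).neg

theorem rat_mem_KK (q : ℚ) : ((q : ℚ) : ℂ) ∈ KK := by
  rw [mem_KK]
  exact isAlgebraic_algebraMap (R := ℚ) (A := ℂ) q

theorem coe_rat (q : ℚ) : (((q : ℚ) : KK) : ℂ) = (q : ℂ) := by push_cast; rfl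

theorem QI.mem_KK {x : ℂ} (hx : QI x) : x ∈ KK := by
  obtain ⟨a, b, rfl⟩ := hx
  exact add_mem (rat_mem_KK a) (mul_mem (rat_mem_KK b) I_mem_KK)

theorem sqrt_mem_KK {s : ℝ} {d : ℚ} (hs : s ^ 2 = d) : (s : ℂ) ∈ KK := by
  rw [T.TT.mem_KK]
  apply IsAlgebraic.of_pow (n := 2) (by norm_num)
  have : (s : ℂ) ^ 2 = ((d : ℚ) : ℂ) := by exact_mod_cast congrArg (fun x : ℝ => (x : ℂ)) hs
  rw [this]
  exact isAlgebraic_algebraMap (R := ℚ) (A := ℂ) d

/-! ### the sets `E_z` -/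

/-- rotation of characters -/
noncomputable def rot (u : KK) (χ : KK → Circle) : KK → Circle := fun y => χ (u * y)

theorem measurable_rot (u : KK) : Measurable (rot u) :=
  measurable_pi_lambda _ fun y => measurable_pi_apply (u * y)

/-- characters `χ` such that `y ↦ χ (z o y)` is continuous at `0` on `G0` for some `o ≥ 1` -/
def EE (z : KK) : Set (KK → Circle) :=
  {χ | IsChar χ ∧ ∃ o : ℕ, 0 < o ∧ ∀ ε : ℝ, 0 < ε → ∃ δ : ℝ, 0 < δ ∧
    ∀ y : KK, (y : ℂ) ∈ G0 → ‖(y : ℂ)‖ < δ → dist (χ (z * (o * y))) 1 < ε}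

theorem measurableSet_isChar : MeasurableSet {χ : KK → Circle | IsChar χ} := by
  have : {χ : KK → Circle | IsChar χ} = ⋂ x, ⋂ y, {χ | χ (x + y) = χ x * χ y} := by
    ext χ; simp only [IsChar, mem_iInter, mem_ofPred_eq]
  rw [this]
  refine MeasurableSet.iInter fun x => MeasurableSet.iInter fun y => ?_
  exact measurableSet_eq_fun (measurable_pi_apply (x + y))
    (Measurable.mul (measurable_pi_apply x) (measurable_pi_apply y))

theorem EE_eq (z : KK) : EE z = {χ | IsChar χ} ∩ ⋃ o : ℕ, ⋂ k : ℕ, ⋃ l : ℕ, ⋂ y : KK,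
    {χ | 0 < o ∧ ((y : ℂ) ∈ G0 → ‖(y : ℂ)‖ < 1 / ((l : ℝ) + 1) →
      dist (χ (z * (o * y))) 1 < 1 / ((k : ℝ) + 1))} := by
  ext χ
  simp only [EE, mem_inter_iff, mem_ofPred_eq, mem_iUnion, mem_iInter]
  refine and_congr_right fun _ => exists_congr fun o => ?_
  constructor
  · rintro ⟨ho, h⟩ k
    obtain ⟨δ, hδ, hy⟩ := h (1 / ((k : ℝ) + 1)) (by positivity)
    obtain ⟨l, hl⟩ := exists_nat_one_div_lt hδ
    exact ⟨l, fun y => ⟨ho, fun h1 h2 => hy y h1 (h2.trans hl)⟩⟩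
  · intro h
    refine ⟨?_, fun ε hε => ?_⟩
    · obtain ⟨l, hl⟩ := h 0
      exact (hl 0).1
    · obtain ⟨k, hk⟩ := exists_nat_one_div_lt hε
      obtain ⟨l, hl⟩ := h k
      exact ⟨1 / ((l : ℝ) + 1), by positivity, fun y h1 h2 => ((hl y).2 h1 h2).trans hk⟩

theorem measurableSet_EE (z : KK) : MeasurableSet (EE z) := by
  rw [EE_eq]
  refine measurableSet_isChar.inter (MeasurableSet.iUnion fun o => MeasurableSet.iInter fun k =>
    MeasurableSet.iUnion fun l => MeasurableSet.iInter fun y => ?_)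
  by_cases h : 0 < o ∧ (y : ℂ) ∈ G0 ∧ ‖(y : ℂ)‖ < 1 / ((l : ℝ) + 1)
  · have : {χ : KK → Circle | 0 < o ∧ ((y : ℂ) ∈ G0 → ‖(y : ℂ)‖ < 1 / ((l : ℝ) + 1) →
      dist (χ (z * (o * y))) 1 < 1 / ((k : ℝ) + 1))} =
      {χ | dist (χ (z * (o * y))) 1 < 1 / ((k : ℝ) + 1)} := by
      ext χ; simp only [mem_ofPred_eq]; tauto
    rw [this]
    exact measurableSet_lt ((measurable_pi_apply _).dist measurable_const) measurable_const
  · by_cases ho : 0 < o
    · have : {χ : KK → Circle | 0 < o ∧ ((y : ℂ) ∈ G0 → ‖(y : ℂ)‖ < 1 / ((l : ℝ) + 1) →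
        dist (χ (z * (o * y))) 1 < 1 / ((k : ℝ) + 1))} = univ := by
        ext χ; simp only [mem_ofPred_eq, mem_univ, iff_true]; tauto
      rw [this]; exact MeasurableSet.univ
    · have : {χ : KK → Circle | 0 < o ∧ ((y : ℂ) ∈ G0 → ‖(y : ℂ)‖ < 1 / ((l : ℝ) + 1) →
        dist (χ (z * (o * y))) 1 < 1 / ((k : ℝ) + 1))} = ∅ := by
        ext χ; simp only [mem_ofPred_eq, mem_empty_iff_false, iff_false]; tauto
      rw [this]; exact MeasurableSet.empty

theorem EE_smul {z q : KK} (hq : QI (q : ℂ)) : EE z ⊆ EE (q * z) := by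
  rintro χ ⟨hχ, o, ho, h⟩
  obtain ⟨N, g, hN, hg⟩ := hq.exists_den
  refine ⟨hχ, o * N, Nat.mul_pos ho hN, fun ε hε => ?_⟩
  obtain ⟨δ, hδ, hy⟩ := h ε hε
  refine ⟨δ / (‖(g : ℂ)‖ + 1), by positivity, fun y h1 h2 => ?_⟩
  have hc : (((N : KK) * q * y : KK) : ℂ) = (g : ℂ) * (y : ℂ) := by
    push_cast
    rw [← hg]
  have := hy ((N : KK) * q * y) (by rw [hc]; exact G0_mul h1 g) (by
    rw [hc, norm_mul]
    rw [lt_div_iff₀ (by positivity)] at h2
    nlinarith [norm_nonneg (g : ℂ), norm_nonneg (y : ℂ)])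
  have e : q * z * ((o * N : ℕ) * y) = z * (o * ((N : KK) * q * y)) := by push_cast; ring
  rw [e]
  exact this

theorem EE_smul_eq {z q : KK} (hq : QI (q : ℂ)) (hq0 : q ≠ 0) : EE (q * z) = EE z := by
  apply Subset.antisymm _ (EE_smul hq)
  have h : QI ((q⁻¹ : KK) : ℂ) := by push_cast; exact hq.inv
  have := EE_smul (z := q * z) h
  rwa [← mul_assoc, inv_mul_cancel₀ hq0, one_mul] at this

theorem EE_add (x y : KK) : EE x ∩ EE y ⊆ EE (x + y) := by
  rintro χ ⟨⟨hχ, o, ho, h⟩, ⟨-, o', ho', h'⟩⟩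
  refine ⟨hχ, o * o', Nat.mul_pos ho ho', fun ε hε => ?_⟩
  obtain ⟨δ, hδ, hy⟩ := h (ε / 2) (by positivity)
  obtain ⟨δ', hδ', hy'⟩ := h' (ε / 2) (by positivity)
  have hoR : (0:ℝ) < o := by exact_mod_cast ho
  have hoR' : (0:ℝ) < o' := by exact_mod_cast ho'
  refine ⟨min (δ / o') (δ' / o), by positivity, fun w h1 h2 => ?_⟩
  have e : (x + y) * ((o * o' : ℕ) * w) = x * (o * (o' * w)) + y * (o' * (o * w)) := by
    push_cast; ring
  rw [e, hχ]
  have a1 := hy (o' * w) (by push_cast; exact G0_nat h1 o') (by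
    push_cast
    rw [norm_mul, Complex.norm_natCast]
    have := h2.trans_le (min_le_left _ _)
    rw [lt_div_iff₀ hoR'] at this
    linarith)
  have a2 := hy' (o * w) (by push_cast; exact G0_nat h1 o) (by
    push_cast
    rw [norm_mul, Complex.norm_natCast]
    have := h2.trans_le (min_le_right _ _)
    rw [lt_div_iff₀ hoR] at this
    linarith)
  exact (circle_dist_mul _ _).trans_lt (by linarith)

theorem isChar_rot {u : KK} {χ : KK → Circle} (h : IsChar χ) : IsChar (rot u χ) := by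
  intro x y
  simp only [rot]
  rw [mul_add, h]

theorem isChar_rot_iff {u : KK} (hu : u ≠ 0) {χ : KK → Circle} : IsChar (rot u χ) ↔ IsChar χ := by
  refine ⟨fun h => ?_, isChar_rot⟩
  have : rot u⁻¹ (rot u χ) = χ := by
    funext y; simp only [rot]; rw [← mul_assoc, mul_inv_cancel₀ hu, one_mul]
  rw [← this]
  exact isChar_rot h

theorem EE_rot {u : KK} (hu : u ≠ 0) (z : KK) : rot u ⁻¹' (EE z) = EE (u * z) := by
  ext χ
  simp only [EE, mem_preimage, mem_ofPred_eq, isChar_rot_iff hu]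
  refine and_congr_right fun _ => exists_congr fun o => and_congr_right fun _ => ?_
  simp only [rot, mul_assoc]

/-! ### the measure -/

/-- rotation invariance -/
def RInv (μ : Measure (KK → Circle)) : Prop :=
  ∀ u : KK, ‖(u : ℂ)‖ = 1 → MeasurePreserving (rot u) μ μ

theorem ne_zero_of_norm {u : KK} (hu : ‖(u : ℂ)‖ = 1) : u ≠ 0 := by
  rintro rfl; simp at hu

variable {μ : Measure (KK → Circle)}

theorem measure_EE (hI : RInv μ) {u : KK} (hu : ‖(u : ℂ)‖ = 1) (z : KK) :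
    μ (EE (u * z)) = μ (EE z) := by
  rw [← EE_rot (ne_zero_of_norm hu) z]
  exact (hI u hu).measure_preimage (measurableSet_EE z).nullMeasurableSet

/-- the unit vectors `(t + i s) / (t - i s)` -/
noncomputable def ut (s : KK) (t : ℕ) : KK :=
  ((t : KK) + ⟨Complex.I, I_mem_KK⟩ * s) / ((t : KK) - ⟨Complex.I, I_mem_KK⟩ * s)

theorem den_ne {s : ℝ} {t : ℕ} (ht : 0 < t) : (t : ℂ) - Complex.I * s ≠ 0 := by
  intro h
  have := congrArg Complex.re h
  simp at this
  omega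

theorem coe_ut {s : KK} {sr : ℝ} (hs : (s : ℂ) = sr) (t : ℕ) :
    ((ut s t : KK) : ℂ) = (t + Complex.I * sr) / (t - Complex.I * sr) := by
  unfold ut
  push_cast
  rw [hs]

theorem norm_ut {s : KK} {sr : ℝ} (hs : (s : ℂ) = sr) {t : ℕ} (ht : 0 < t) :
    ‖((ut s t : KK) : ℂ)‖ = 1 := by
  rw [coe_ut hs, norm_div]
  have h1 : (t : ℂ) + Complex.I * sr = (starRingEnd ℂ) (t - Complex.I * sr) := by
    apply Complex.ext <;> simp
  rw [h1, Complex.norm_conj]
  apply div_self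
  rw [norm_ne_zero_iff]
  exact den_ne ht

theorem ut_key {s : KK} {sr : ℝ} {d : ℚ} (hs : (s : ℂ) = sr) (hd : sr ^ 2 = d)
    {t : ℕ} (ht : 0 < t) : ((ut s t : KK) : ℂ) * ((t : ℂ) ^ 2 + d) =
      (t : ℂ) ^ 2 - d + 2 * Complex.I * t * sr := by
  have hd' : (sr : ℂ) ^ 2 = d := by exact_mod_cast congrArg (fun x : ℝ => (x : ℂ)) hd
  have hden : ((t : ℂ) - Complex.I * sr) ≠ 0 := den_ne ht
  rw [coe_ut hs, div_mul_eq_mul_div, div_eq_iff hden]
  linear_combination (2 * t * (sr : ℂ) ^ 2) * Complex.I_sq - (2 * t) * hd'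

/-- the square root step, pointwise part -/
theorem EE_inter {s : KK} {sr : ℝ} {d : ℚ} (hs : (s : ℂ) = sr) (hd : sr ^ 2 = d) (x : KK)
    {t t' : ℕ} (ht : 0 < t) (ht' : 0 < t') (hne : t ≠ t') :
    EE (ut s t * x) ∩ EE (ut s t' * x) ⊆ EE x ∩ EE (s * x) := by
  have hdpos : (0:ℚ) ≤ d := by
    have : (0:ℝ) ≤ d := by rw [← hd]; positivity
    exact_mod_cast this
  have htQ : (0:ℚ) < t := by exact_mod_cast ht
  have htQ' : (0:ℚ) < t' := by exact_mod_cast ht'
  have hneQ : (t : ℚ) - t' ≠ 0 := by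
    rw [sub_ne_zero]; exact_mod_cast hne
  have hp : (t : ℚ) * t' + d ≠ 0 := by positivity
  have hneC : (t : ℂ) - t' ≠ 0 := by exact_mod_cast hneQ
  have hpC : (t : ℂ) * t' + d ≠ 0 := by exact_mod_cast hp
  have k1 := ut_key hs hd ht
  have k2 := ut_key hs hd ht'
  set A := ((ut s t : KK) : ℂ) with hA
  set B := ((ut s t' : KK) : ℂ) with hB
  set r1 : ℚ := t' * (t ^ 2 + d) / ((t - t') * (t * t' + d)) with hr1
  set r2 : ℚ := - (t * (t' ^ 2 + d) / ((t - t') * (t * t' + d))) with hr2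
  set r3 : ℚ := (t' ^ 2 - d) * (t ^ 2 + d) / (2 * (t - t') * (t * t' + d)) with hr3
  set r4 : ℚ := - ((t ^ 2 - d) * (t' ^ 2 + d) / (2 * (t - t') * (t * t' + d))) with hr4
  have hMQ : ((t : ℚ) - t') * (t * t' + d) ≠ 0 := mul_ne_zero hneQ hp
  have hMC : ((t : ℂ) - t') * (t * t' + d) ≠ 0 := mul_ne_zero hneC hpC
  have q1 : (r1 : ℂ) * (((t : ℂ) - t') * (t * t' + d)) = t' * (t ^ 2 + d) := by
    have : r1 * (((t : ℚ) - t') * (t * t' + d)) = t' * (t ^ 2 + d) := by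
      rw [hr1, div_mul_cancel₀ _ hMQ]
    exact_mod_cast this
  have q2 : (r2 : ℂ) * (((t : ℂ) - t') * (t * t' + d)) = - (t * (t' ^ 2 + d)) := by
    have : r2 * (((t : ℚ) - t') * (t * t' + d)) = - (t * (t' ^ 2 + d)) := by
      rw [hr2, neg_mul, div_mul_cancel₀ _ hMQ]
    exact_mod_cast this
  have hMQ2 : 2 * ((t : ℚ) - t') * (t * t' + d) ≠ 0 :=
    mul_ne_zero (mul_ne_zero two_ne_zero hneQ) hp
  have hMC2 : 2 * ((t : ℂ) - t') * (t * t' + d) ≠ 0 :=
    mul_ne_zero (mul_ne_zero two_ne_zero hneC) hpC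
  have q3 : (r3 : ℂ) * (2 * ((t : ℂ) - t') * (t * t' + d)) = (t' ^ 2 - d) * (t ^ 2 + d) := by
    have : r3 * (2 * ((t : ℚ) - t') * (t * t' + d)) = (t' ^ 2 - d) * (t ^ 2 + d) := by
      rw [hr3, div_mul_cancel₀ _ hMQ2]
    exact_mod_cast this
  have q4 : (r4 : ℂ) * (2 * ((t : ℂ) - t') * (t * t' + d)) = - ((t ^ 2 - d) * (t' ^ 2 + d)) := by
    have : r4 * (2 * ((t : ℚ) - t') * (t * t' + d)) = - ((t ^ 2 - d) * (t' ^ 2 + d)) := by
      rw [hr4, neg_mul, div_mul_cancel₀ _ hMQ2]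
    exact_mod_cast this
  have e1 : (r1 : ℂ) * A + r2 * B = 1 := by
    apply mul_right_cancel₀ hMC
    linear_combination A * q1 + B * q2 + (t' : ℂ) * k1 - (t : ℂ) * k2
  have e2 : (Complex.I * r3) * A + (Complex.I * r4) * B = sr := by
    apply mul_right_cancel₀ hMC2
    linear_combination (Complex.I * A) * q3 + (Complex.I * B) * q4 +
      (Complex.I * ((t' : ℂ) ^ 2 - d)) * k1 - (Complex.I * ((t : ℂ) ^ 2 - d)) * k2
      + (2 * sr * (t' - t) * (t * t' + d)) * Complex.I_sq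
  rintro χ ⟨h1, h2⟩
  constructor
  · have a1 := EE_smul (q := ((r1 : ℚ) : KK)) (by push_cast; exact QI.rat r1) h1
    have a2 := EE_smul (q := ((r2 : ℚ) : KK)) (by push_cast; exact QI.rat r2) h2
    have a3 := EE_add _ _ ⟨a1, a2⟩
    have : ((r1 : ℚ) : KK) * (ut s t * x) + ((r2 : ℚ) : KK) * (ut s t' * x) = x := by
      apply Subtype.ext
      push_cast
      rw [← hA, ← hB]
      linear_combination (x : ℂ) * e1
    rwa [this] at a3
  · have a1 := EE_smul (q := ⟨Complex.I, I_mem_KK⟩ * ((r3 : ℚ) : KK))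
      (by push_cast; exact QI.I.mul (QI.rat r3)) h1
    have a2 := EE_smul (q := ⟨Complex.I, I_mem_KK⟩ * ((r4 : ℚ) : KK))
      (by push_cast; exact QI.I.mul (QI.rat r4)) h2
    have a3 := EE_add _ _ ⟨a1, a2⟩
    have : ⟨Complex.I, I_mem_KK⟩ * ((r3 : ℚ) : KK) * (ut s t * x) +
        ⟨Complex.I, I_mem_KK⟩ * ((r4 : ℚ) : KK) * (ut s t' * x) = s * x := by
      apply Subtype.ext
      push_cast
      rw [← hA, ← hB, hs]
      linear_combination (x : ℂ) * e2
    rwa [this] at a3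

/-- the square root step -/
theorem EE_sqrt [IsFiniteMeasure μ] (hI : RInv μ) {s : KK} {sr : ℝ} {d : ℚ} (hs : (s : ℂ) = sr)
    (hd : sr ^ 2 = d) (x : KK) : μ (EE x \ EE (s * x)) = 0 := by
  set W := EE x ∩ EE (s * x) with hW
  have hWm : MeasurableSet W := (measurableSet_EE _).inter (measurableSet_EE _)
  have hx : EE x \ EE (s * x) = EE x \ W := by rw [hW]; simp
  rw [hx]
  by_contra hne
  have hpos : 0 < μ (EE x \ W) := pos_iff_ne_zero.2 hne
  have hge : ∀ t : ℕ, μ (EE x \ W) ≤ μ (EE (ut s (t + 1) * x) \ W) := by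
    intro t
    rw [measure_sdiff inter_subset_left hWm.nullMeasurableSet (measure_ne_top _ _),
      ← measure_EE hI (norm_ut hs (Nat.succ_pos t)) x]
    exact le_measure_sdiff
  have hdis : Pairwise (Function.onFun Disjoint fun t : ℕ => EE (ut s (t + 1) * x) \ W) := by
    intro t t' htt
    rw [Function.onFun, Set.disjoint_left]
    rintro χ ⟨h1, h2⟩ ⟨h3, -⟩
    exact h2 (EE_inter hs hd x (Nat.succ_pos t) (Nat.succ_pos t') (by omega) ⟨h1, h3⟩)
  have hsum := measure_iUnion (μ := μ) hdis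
    (fun t => (measurableSet_EE (ut s (t + 1) * x)).diff hWm)
  have hinf : ∑' _ : ℕ, μ (EE x \ W) ≤ ∑' t : ℕ, μ (EE (ut s (t + 1) * x) \ W) :=
    ENNReal.tsum_le_tsum hge
  rw [← hsum, ENNReal.tsum_const_eq_top_of_ne_zero hne] at hinf
  exact (measure_lt_top μ _).not_ge hinf

/-- `E_u = E_1` almost everywhere for unit vectors in a quadratic extension of `Q(i)` -/
theorem EE_unit [IsFiniteMeasure μ] (hI : RInv μ) {s : KK} {sr : ℝ} {d : ℚ} (hs : (s : ℂ) = sr)
    (hd : sr ^ 2 = d) {a b u : KK} (ha : QI (a : ℂ)) (hb : QI (b : ℂ)) (hu : u = a + b * s)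
    (hu1 : ‖(u : ℂ)‖ = 1) : EE u =ᵐ[μ] EE 1 := by
  have h1 : μ (EE 1 \ EE s) = 0 := by simpa using EE_sqrt hI hs hd 1
  have h2 : EE 1 ∩ EE s ⊆ EE u := by
    rintro χ ⟨h, h'⟩
    have a1 := EE_smul ha h
    have a2 := EE_smul hb h'
    rw [hu]
    simpa using EE_add _ _ ⟨a1, a2⟩
  have h3 : μ (EE 1 \ EE u) = 0 := by
    refine measure_mono_null ?_ h1
    rintro χ ⟨h, h'⟩
    exact ⟨h, fun h4 => h' (h2 ⟨h, h4⟩)⟩
  have h4 : μ (EE u) = μ (EE 1) := by
    have := measure_EE hI hu1 1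
    rwa [mul_one] at this
  have h5 : EE 1 ≤ᵐ[μ] EE u := by
    rw [ae_le_set]; exact h3
  exact (ae_eq_of_ae_subset_of_measure_ge h5 h4.le (measurableSet_EE _).nullMeasurableSet
    (measure_ne_top _ _)).symm

/-- invariance of integrals over `E_1` -/
theorem integral_EE_unit [IsFiniteMeasure μ] (hI : RInv μ) {s : KK} {sr : ℝ} {d : ℚ}
    (hs : (s : ℂ) = sr) (hd : sr ^ 2 = d) {a b u : KK} (ha : QI (a : ℂ)) (hb : QI (b : ℂ))
    (hu : u = a + b * s) (hu1 : ‖(u : ℂ)‖ = 1) (h : (KK → Circle) → ℝ) (hm : Measurable h) :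
    ∫ χ in EE 1, h (rot u χ) ∂μ = ∫ χ in EE 1, h χ ∂μ := by
  have h1 : μ.restrict (EE 1) = μ.restrict (rot u ⁻¹' (EE 1)) := by
    rw [EE_rot (ne_zero_of_norm hu1), mul_one]
    exact (Measure.restrict_congr_set (EE_unit hI hs hd ha hb hu hu1)).symm
  have h2 := (hI u hu1).restrict_preimage (measurableSet_EE 1)
  calc ∫ χ in EE 1, h (rot u χ) ∂μ = ∫ χ in rot u ⁻¹' EE 1, h (rot u χ) ∂μ := by rw [← h1]
    _ = ∫ χ, h χ ∂((μ.restrict (rot u ⁻¹' EE 1)).map (rot u)) :=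
      (integral_map (measurable_rot u).aemeasurable hm.aestronglyMeasurable).symm
    _ = ∫ χ in EE 1, h χ ∂μ := by rw [h2.map_eq]

/-- `g(x) = ∫_{E_1} (1 - Re χ(x))` -/
noncomputable def gg (μ : Measure (KK → Circle)) (x : KK) : ℝ :=
  ∫ χ in EE 1, (1 - ((χ x : Circle) : ℂ).re) ∂μ

theorem measurable_re (x : KK) : Measurable fun χ : KK → Circle => 1 - ((χ x : Circle) : ℂ).re :=
  measurable_const.sub (Complex.measurable_re.comp (continuous_coeC.measurable.comp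
    (measurable_pi_apply x)))

theorem re_bound (z : Circle) : 0 ≤ 1 - (z : ℂ).re ∧ 1 - (z : ℂ).re ≤ 2 := by
  have h1 := Complex.abs_re_le_norm (z : ℂ)
  rw [Circle.norm_coe, abs_le] at h1
  constructor <;> linarith [h1.1, h1.2]

theorem integrable_re [IsFiniteMeasure μ] (x : KK) :
    Integrable (fun χ : KK → Circle => 1 - ((χ x : Circle) : ℂ).re) μ := by
  refine Integrable.of_bound (measurable_re x).aestronglyMeasurable 2
    (Eventually.of_forall fun χ => ?_)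
  rw [Real.norm_eq_abs, abs_le]
  constructor <;> linarith [(re_bound (χ x)).1, (re_bound (χ x)).2]

theorem gg_nonneg (x : KK) : 0 ≤ gg μ x :=
  integral_nonneg fun χ => (re_bound (χ x)).1

theorem gg_unit [IsFiniteMeasure μ] (hI : RInv μ) {s : KK} {sr : ℝ} {d : ℚ}
    (hs : (s : ℂ) = sr) (hd : sr ^ 2 = d) {a b u : KK} (ha : QI (a : ℂ)) (hb : QI (b : ℂ))
    (hu : u = a + b * s) (hu1 : ‖(u : ℂ)‖ = 1) (x : KK) : gg μ (u * x) = gg μ x :=
  integral_EE_unit hI hs hd ha hb hu hu1 (fun χ => 1 - ((χ x : Circle) : ℂ).re) (measurable_re x)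

theorem re_mul_le (a b : Circle) : 1 - ((a * b : Circle) : ℂ).re ≤
    2 * (1 - (a : ℂ).re) + 2 * (1 - (b : ℂ).re) := by
  have ha : (a : ℂ).re ^ 2 + (a : ℂ).im ^ 2 = 1 := by
    have := Circle.normSq_coe a
    rw [Complex.normSq_apply] at this
    linarith
  have hb : (b : ℂ).re ^ 2 + (b : ℂ).im ^ 2 = 1 := by
    have := Circle.normSq_coe b
    rw [Complex.normSq_apply] at this
    linarith
  rw [Circle.coe_mul, Complex.mul_re]
  nlinarith [sq_nonneg ((a : ℂ).re + (b : ℂ).re - 2), sq_nonneg ((a : ℂ).im - (b : ℂ).im),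
    sq_nonneg ((a : ℂ).re - (b : ℂ).re), sq_nonneg ((a : ℂ).im + (b : ℂ).im)]

theorem gg_add [IsFiniteMeasure μ] (x y : KK) : gg μ (x + y) ≤ 2 * gg μ x + 2 * gg μ y := by
  unfold gg
  rw [← integral_const_mul, ← integral_const_mul, ← integral_add
    ((integrable_re x).integrableOn.const_mul 2) ((integrable_re y).integrableOn.const_mul 2)]
  refine setIntegral_mono_on (integrable_re _).integrableOn
    (((integrable_re x).integrableOn.const_mul 2).add ((integrable_re y).integrableOn.const_mul 2))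
    (measurableSet_EE 1) fun χ hχ => ?_
  rw [hχ.1 x y]
  exact re_mul_le _ _

/-- the two unit vector lemma -/
theorem gg_le [IsFiniteMeasure μ] (hI : RInv μ) {x y : KK} (hx : QI (x : ℂ)) (hy : QI (y : ℂ))
    (hx0 : x ≠ 0) (hy0 : y ≠ 0) (hyx : ‖(y : ℂ)‖ ≤ 2 * ‖(x : ℂ)‖) : gg μ y ≤ 4 * gg μ x := by
  set w : KK := y / x with hw
  have hwQ : QI (w : ℂ) := by rw [hw]; push_cast; exact hy.div hx
  have hxC : (x : ℂ) ≠ 0 := by
    intro h; exact hx0 (Subtype.ext (by simpa using h))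
  have hyC : (y : ℂ) ≠ 0 := by
    intro h; exact hy0 (Subtype.ext (by simpa using h))
  have hwn : ‖(w : ℂ)‖ = ‖(y : ℂ)‖ / ‖(x : ℂ)‖ := by rw [hw]; push_cast; rw [norm_div]
  have hw2 : ‖(w : ℂ)‖ ≤ 2 := by
    rw [hwn, div_le_iff₀ (norm_pos_iff.2 hxC)]; exact hyx
  have hw0 : 0 < ‖(w : ℂ)‖ := by
    rw [hwn]; exact div_pos (norm_pos_iff.2 hyC) (norm_pos_iff.2 hxC)
  obtain ⟨r, hr⟩ := hwQ.normSq
  have hr0 : (0:ℝ) < r := by rw [← hr]; positivity
  have hr4 : (r : ℝ) ≤ 4 := by rw [← hr]; nlinarith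
  set d : ℚ := 1 / r - 1 / 4 with hd
  have hd0 : (0:ℝ) ≤ (d : ℝ) := by
    rw [hd]; push_cast
    have : (1:ℝ) / 4 ≤ 1 / r := one_div_le_one_div_of_le hr0 hr4
    linarith
  have hsq : (√(d : ℝ)) ^ 2 = (d : ℝ) := Real.sq_sqrt hd0
  set s : KK := ⟨((√(d : ℝ) : ℝ) : ℂ), sqrt_mem_KK hsq⟩ with hs
  have hsC : (s : ℂ) = ((√(d : ℝ) : ℝ) : ℂ) := rfl
  set II : KK := ⟨Complex.I, I_mem_KK⟩ with hII
  have hnorm : ∀ sg : ℝ, sg ^ 2 = 1 →
      ‖(w : ℂ) * (1 / 2 + sg * (Complex.I * ((√(d : ℝ) : ℝ) : ℂ)))‖ = 1 := by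
    intro sg hsg
    have h1 : ‖(1 / 2 + sg * (Complex.I * ((√(d : ℝ) : ℝ) : ℂ)) : ℂ)‖ ^ 2 = 1 / r := by
      rw [← Complex.normSq_eq_norm_sq, Complex.normSq_apply]
      have e1 : ((1 / 2 + sg * (Complex.I * ((√(d : ℝ) : ℝ) : ℂ)) : ℂ)).re = 1 / 2 := by simp
      have e2 : ((1 / 2 + sg * (Complex.I * ((√(d : ℝ) : ℝ) : ℂ)) : ℂ)).im = sg * √(d : ℝ) := by
        simp
      rw [e1, e2]
      have : sg * √(d : ℝ) * (sg * √(d : ℝ)) = d := by
        calc _ = sg ^ 2 * (√(d : ℝ)) ^ 2 := by ring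
          _ = d := by rw [hsg, hsq, one_mul]
      rw [this, hd]; push_cast; ring
    have h2 : (‖(w : ℂ) * (1 / 2 + sg * (Complex.I * ((√(d : ℝ) : ℝ) : ℂ)))‖) ^ 2 = 1 := by
      rw [norm_mul, mul_pow, h1, hr, mul_one_div_cancel hr0.ne']
    have h3 := norm_nonneg ((w : ℂ) * (1 / 2 + sg * (Complex.I * ((√(d : ℝ) : ℝ) : ℂ))))
    nlinarith
  set H : KK := ((1 / 2 : ℚ) : KK) with hH
  have hHC : (H : ℂ) = 1 / 2 := by rw [hH, coe_rat]; norm_num
  have hHH : H + H = 1 := by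
    apply Subtype.ext; push_cast; rw [hHC]; norm_num
  have hIIC : (II : ℂ) = Complex.I := rfl
  have hQh : QI ((w * H : KK) : ℂ) := by
    push_cast
    exact hwQ.mul (by rw [hHC]; simpa using QI.rat (1 / 2))
  have hQI : QI ((II * w : KK) : ℂ) := by push_cast; exact QI.I.mul hwQ
  have hQI' : QI ((-(II * w) : KK) : ℂ) := by push_cast; exact (QI.I.mul hwQ).neg
  have u1 := gg_unit (μ := μ) hI hsC hsq hQh hQI (u := w * H + II * w * s) rfl (by
    have := hnorm 1 (by norm_num)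
    rw [← this]
    congr 1
    push_cast
    rw [hsC, hHC, hIIC]
    ring) x
  have u2 := gg_unit (μ := μ) hI hsC hsq hQh hQI' (u := w * H + -(II * w) * s) rfl (by
    have := hnorm (-1) (by norm_num)
    rw [← this]
    congr 1
    push_cast
    rw [hsC, hHC, hIIC]
    ring) x
  have hsum : (w * H + II * w * s) * x + (w * H + -(II * w) * s) * x = y := by
    have : w * x = y := by rw [hw, div_mul_cancel₀ _ hx0]
    rw [← this]
    linear_combination (w * x) * hHH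
  have := gg_add (μ := μ) ((w * H + II * w * s) * x) ((w * H + -(II * w) * s) * x)
  rw [hsum, u1, u2] at this
  linarith

/-- the test sequence -/
noncomputable def xn (n : ℕ) : KK :=
  ⟨(n.factorial : ℂ) * ((2 - Complex.I) ^ (2 * n.factorial))⁻¹,
    ((QI.nat n.factorial).mul (QI.G0 (G0_pib _))).mem_KK⟩

theorem norm_pib_pow (k : ℕ) : ‖((2 - Complex.I) ^ (2 * k))⁻¹‖ = (1 / 5) ^ k := by
  rw [norm_inv, norm_pow, pow_mul, norm_pib_sq, one_div, inv_pow]

theorem xn_ne (n : ℕ) : xn n ≠ 0 := by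
  intro h
  have := congrArg (fun x : KK => (x : ℂ)) h
  simp only [xn, ZeroMemClass.coe_zero] at this
  rcases mul_eq_zero.1 this with h1 | h1
  · exact (Nat.cast_ne_zero.2 n.factorial_ne_zero) h1
  · exact (inv_ne_zero (pow_ne_zero _ pib_ne)) h1

theorem xn_QI (n : ℕ) : QI ((xn n : KK) : ℂ) := (QI.nat n.factorial).mul (QI.G0 (G0_pib _))

theorem xn_norm (n : ℕ) : ‖((xn n : KK) : ℂ)‖ = n.factorial * (1 / 5) ^ n.factorial := by
  show ‖(n.factorial : ℂ) * ((2 - Complex.I) ^ (2 * n.factorial))⁻¹‖ = _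
  rw [norm_mul, norm_pib_pow, Complex.norm_natCast]

theorem tendsto_xn : Tendsto (fun n => ‖((xn n : KK) : ℂ)‖) atTop (𝓝 0) := by
  simp only [xn_norm]
  have h1 : Tendsto (fun k : ℕ => (k : ℝ) * (1 / 5) ^ k) atTop (𝓝 0) :=
    tendsto_self_mul_const_pow_of_lt_one (by norm_num) (by norm_num)
  exact h1.comp (tendsto_atTop_mono Nat.self_le_factorial tendsto_id)

theorem tendsto_char {χ : KK → Circle} (hχ : χ ∈ EE 1) :
    Tendsto (fun n => ((χ (xn n) : Circle) : ℂ)) atTop (𝓝 1) := by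
  obtain ⟨-, o, ho, h⟩ := hχ
  rw [Metric.tendsto_atTop]
  intro ε hε
  obtain ⟨δ, hδ, hy⟩ := h ε hε
  obtain ⟨N, hN⟩ := (Metric.tendsto_atTop.1 tendsto_xn) δ hδ
  refine ⟨max N o, fun n hn => ?_⟩
  have h1 := hN n (le_of_max_le_left hn)
  rw [Real.dist_eq, sub_zero, abs_of_nonneg (norm_nonneg _)] at h1
  obtain ⟨m, hm⟩ := Nat.dvd_factorial ho (le_of_max_le_right hn)
  -- `w = xn / o`
  have hoC : (o : ℂ) ≠ 0 := by exact_mod_cast ho.ne'
  have hG : (m : ℂ) * ((2 - Complex.I) ^ (2 * n.factorial))⁻¹ ∈ G0 := G0_nat (G0_pib _) m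
  have hfac : (n.factorial : ℂ) = o * m := by exact_mod_cast hm
  obtain ⟨w, hwC⟩ : ∃ w : KK, (w : ℂ) = (m : ℂ) * ((2 - Complex.I) ^ (2 * n.factorial))⁻¹ :=
    ⟨⟨_, (QI.G0 hG).mem_KK⟩, rfl⟩
  have he : xn n = 1 * (o * w) := by
    apply Subtype.ext
    push_cast
    show (n.factorial : ℂ) * ((2 - Complex.I) ^ (2 * n.factorial))⁻¹ = _
    rw [hfac, hwC]
    ring
  have hwn : ‖(w : ℂ)‖ < δ := by
    refine lt_of_le_of_lt ?_ h1
    have h3 : ‖((xn n : KK) : ℂ)‖ = o * ‖(w : ℂ)‖ := by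
      rw [he]
      push_cast
      rw [one_mul, norm_mul, Complex.norm_natCast]
    rw [h3]
    have : (1:ℝ) ≤ o := by exact_mod_cast ho
    nlinarith [norm_nonneg (w : ℂ)]
  have := hy w (by rw [hwC]; exact hG) hwn
  rw [← he] at this
  rw [circle_dist, Circle.coe_one] at this
  rwa [dist_eq_norm]

theorem tendsto_gg [IsFiniteMeasure μ] : Tendsto (fun n => gg μ (xn n)) atTop (𝓝 0) := by
  have : (0:ℝ) = ∫ χ in EE 1, (0:ℝ) ∂μ := by simp
  rw [this]
  unfold gg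
  refine tendsto_integral_of_dominated_convergence (fun _ => 2)
    (fun n => (measurable_re _).aestronglyMeasurable) (integrable_const _) (fun n => ?_) ?_
  · refine Eventually.of_forall fun χ => ?_
    rw [Real.norm_eq_abs, abs_le]
    constructor <;> linarith [(re_bound (χ (xn n))).1, (re_bound (χ (xn n))).2]
  · rw [ae_restrict_iff' (measurableSet_EE 1)]
    refine Eventually.of_forall fun χ hχ => ?_
    have h1 := (Complex.continuous_re.tendsto 1).comp (tendsto_char hχ)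
    have h2 := h1.const_sub 1
    simpa using h2

theorem gg_small [IsFiniteMeasure μ] (hI : RInv μ) {ε : ℝ} (hε : 0 < ε) :
    ∃ r : ℝ, 0 < r ∧ ∀ y : KK, QI (y : ℂ) → ‖(y : ℂ)‖ < r → gg μ y ≤ ε := by
  obtain ⟨n, hn⟩ := ((tendsto_gg (μ := μ)).eventually (gt_mem_nhds (by positivity : 0 < ε / 4))).exists
  have hx0 : ((xn n : KK) : ℂ) ≠ 0 := by
    intro h; exact xn_ne n (Subtype.ext (by simpa using h))
  refine ⟨2 * ‖((xn n : KK) : ℂ)‖, by positivity, fun y hy hyr => ?_⟩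
  by_cases hy0 : y = 0
  · subst hy0
    have : gg μ 0 = 0 := by
      unfold gg
      rw [setIntegral_congr_fun (g := fun _ => (0:ℝ)) (measurableSet_EE 1) ?_]
      · simp
      · intro χ hχ
        simp only
        rw [char_zero hχ.1]; simp
    rw [this]; exact hε.le
  · have := gg_le (μ := μ) hI (xn_QI n) hy (xn_ne n) hy0 hyr.le
    linarith

/-! ### Theorem A on lines -/

theorem measurable_ev {ι : Type*} (x : ι) :
    Measurable fun χ : ι → Circle => ((χ x : Circle) : ℂ) :=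
  continuous_coeC.measurable.comp (measurable_pi_apply x)

theorem norm_ev_le {ι : Type*} (x : ι) (χ : ι → Circle) : ‖((χ x : Circle) : ℂ)‖ ≤ 1 :=
  (Circle.norm_coe _).le

theorem QI.of_RRset {x : ℂ} (hx : x ∈ RRset) : QI x := by
  obtain ⟨g, d, hd, h⟩ := hx
  have hd0 : (d : ℂ) ≠ 0 := by
    intro h0
    apply hd
    have : d = 0 := by simpa using h0
    rw [this]; exact dvd_zero _
  have : x = g / d := by rw [eq_div_iff hd0]; exact h
  rw [this]
  exact (QI.gauss g).div (QI.gauss d)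

theorem G0_sub_RRset : G0 ⊆ RRset := by
  rintro x ⟨g, n, h⟩
  refine ⟨g, gpb ^ n, not_gp_dvd_gpb_pow n, ?_⟩
  rw [← h, map_pow, coe_gpb]

theorem integral_compl (hA : ThmAStmt) (hR : RingStmt) [IsFiniteMeasure μ]
    (hχ : ∀ᵐ χ ∂μ, IsChar χ) (hI : RInv μ) (z : KK) :
    ∫ χ in (EE z)ᶜ, ((χ z : Circle) : ℂ) ∂μ = 0 := by
  obtain ⟨R, hRc, hRset⟩ := hR
  let j : R →+* ℂ := (KK.val : KK →ₐ[ℚ] ℂ).toRingHom.comp R.subtype
  have hj : ∀ y : R, j y = ((y : KK) : ℂ) := fun y => rfl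
  have hjinj : Function.Injective j := by
    intro a b hab
    rw [hj, hj] at hab
    exact Subtype.ext (Subtype.ext hab)
  have hrange : range j = RRset := by
    ext w
    rw [hRset w]
    constructor
    · rintro ⟨y, rfl⟩; exact ⟨y, y.2, rfl⟩
    · rintro ⟨y, hy, rfl⟩; exact ⟨⟨y, hy⟩, rfl⟩
  let L : (KK → Circle) → (R → Circle) := fun χ y => χ (z * y)
  have hL : Measurable L := measurable_pi_lambda _ fun y => measurable_pi_apply _
  set ν : Measure (KK → Circle) := μ.restrict (EE z)ᶜ with hν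
  have hcm : MeasurableSet {χ : R → Circle | IsChar χ} := by
    have : {χ : R → Circle | IsChar χ} = ⋂ x, ⋂ y, {χ | χ (x + y) = χ x * χ y} := by
      ext χ; simp only [IsChar, mem_iInter, mem_ofPred_eq]
    rw [this]
    refine MeasurableSet.iInter fun x => MeasurableSet.iInter fun y => ?_
    exact measurableSet_eq_fun (measurable_pi_apply (x + y))
      (Measurable.mul (measurable_pi_apply x) (measurable_pi_apply y))
  have hνχ : ∀ᵐ χ ∂ν, IsChar χ := ae_restrict_of_ae hχ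
  have h1 : ∀ᵐ χ ∂(ν.map L), IsChar χ := by
    rw [ae_map_iff hL.aemeasurable hcm]
    filter_upwards [hνχ] with χ hχ x y
    show χ (z * ((x + y : R) : KK)) = _
    push_cast
    rw [mul_add, hχ]
  have h2 : ∀ u : R, ‖j u‖ = 1 →
      MeasurePreserving (fun (χ : R → Circle) y => χ (u * y)) (ν.map L) (ν.map L) := by
    intro u hu
    have hu' : ‖((u : KK) : ℂ)‖ = 1 := hu
    have hu0 : (u : KK) ≠ 0 := ne_zero_of_norm hu'
    have hV : Measurable fun (χ : R → Circle) (y : R) => χ (u * y) :=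
      measurable_pi_lambda _ fun y => measurable_pi_apply _
    have huQ : QI ((u : KK) : ℂ) := QI.of_RRset (by rw [← hrange]; exact ⟨u, rfl⟩)
    have hpre : rot (u : KK) ⁻¹' (EE z)ᶜ = (EE z)ᶜ := by
      rw [preimage_compl, EE_rot hu0, EE_smul_eq huQ hu0]
    have hp := (hI u hu').restrict_preimage (measurableSet_EE z).compl
    rw [hpre] at hp
    refine ⟨hV, ?_⟩
    rw [Measure.map_map hV hL]
    have : (fun (χ : R → Circle) (y : R) => χ (u * y)) ∘ L = L ∘ rot (u : KK) := by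
      funext χ y
      show χ (z * ((u * y : R) : KK)) = χ (u * (z * y))
      push_cast
      congr 1
      ring
    rw [this, ← Measure.map_map hL (measurable_rot _), hp.map_eq]
  obtain ⟨Xc, hXm, h0, hcont⟩ := hA R j hjinj hrange (ν.map L) h1 h2
  have hmem : ∀ᵐ χ ∂(ν.map L), χ ∈ Xc := by
    refine (ae_map_iff (p := fun χ => χ ∈ Xc) hL.aemeasurable hXm).2 ?_
    have h3 := ae_of_ae_map hL.aemeasurable hcont
    have h4 : ∀ᵐ χ ∂ν, χ ∈ (EE z)ᶜ := ae_restrict_mem (measurableSet_EE z).compl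
    filter_upwards [h3, h4, hνχ] with χ a1 a2 a3
    by_contra hne
    obtain ⟨o, ho, h⟩ := a1 hne
    apply a2
    refine ⟨a3, o, ho, fun ε hε => ?_⟩
    obtain ⟨δ, hδ, hy⟩ := h ε hε
    refine ⟨δ, hδ, fun y hy1 hy2 => ?_⟩
    obtain ⟨y', hy'R, hy'⟩ := (hRset (y : ℂ)).1 (G0_sub_RRset hy1)
    have hyy : y' = y := Subtype.ext hy'
    subst hyy
    have := hy ⟨y', hy'R⟩ hy1 hy2
    have e : L χ (o • (⟨y', hy'R⟩ : R)) = χ (z * (o * y')) := by
      show χ (z * ((o • (⟨y', hy'R⟩ : R) : R) : KK)) = _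
      congr 2
      simp
    rwa [e] at this
  have h5 := h0 1 one_ne_zero
  rw [Measure.restrict_eq_self_of_ae_mem hmem] at h5
  have h6 : ∫ χ, ((χ 1 : Circle) : ℂ) ∂(ν.map L) = ∫ χ, ((L χ 1 : Circle) : ℂ) ∂ν :=
    integral_map hL.aemeasurable (measurable_ev (1 : R)).aestronglyMeasurable
  rw [h6] at h5
  have h7 : ∀ χ : KK → Circle, L χ 1 = χ z := by
    intro χ
    show χ (z * ((1 : R) : KK)) = χ z
    rw [OneMemClass.coe_one, mul_one]
  simp only [h7] at h5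
  exact h5

/-- Gaussian rational unit vectors are dense in the circle -/
theorem exists_QI_unit {z : ℂ} (hz : ‖z‖ = 1) {ε : ℝ} (hε : 0 < ε) :
    ∃ v : ℂ, QI v ∧ ‖v‖ = 1 ∧ ‖v - z‖ < ε := by
  by_cases hz1 : z = 1
  · exact ⟨1, by simpa using QI.nat 1, by simp, by simpa [hz1] using hε⟩
  have hn : z.re ^ 2 + z.im ^ 2 = 1 := by
    have := Complex.normSq_eq_norm_sq z
    rw [hz, Complex.normSq_apply] at this
    linarith
  have hre : 1 - z.re ≠ 0 := by
    intro h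
    apply hz1
    have h1 : z.re = 1 := by linarith
    have h2 : z.im = 0 := by
      rw [h1] at hn
      have : z.im ^ 2 = 0 := by linarith
      exact pow_eq_zero_iff (two_ne_zero) |>.1 this
    exact Complex.ext (by simpa using h1) (by simpa using h2)
  have hden : ∀ s : ℝ, (s : ℂ) - Complex.I ≠ 0 := by
    intro s h
    have := congrArg Complex.im h
    simp at this
  obtain ⟨s0, hs0⟩ : ∃ s0 : ℝ, s0 * (1 - z.re) = z.im := ⟨z.im / (1 - z.re), div_mul_cancel₀ _ hre⟩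
  have hF : ((s0 : ℂ) + Complex.I) / ((s0 : ℂ) - Complex.I) = z := by
    rw [div_eq_iff (hden _)]
    apply Complex.ext
    · simp
      linear_combination hs0
    · simp
      apply mul_left_cancel₀ hre
      linear_combination (- z.im) * hs0 - hn
  have hcont : ContinuousAt (fun s : ℝ => ((s : ℂ) + Complex.I) / ((s : ℂ) - Complex.I)) s0 := by
    apply ContinuousAt.div
    · fun_prop
    · fun_prop
    · exact hden _
  have hev := Metric.tendsto_nhds.1 hcont.tendsto ε hε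
  obtain ⟨q, hq⟩ := (Rat.denseRange_cast (𝕜 := ℝ)).exists_mem_open isOpen_interior
    ⟨_, mem_interior_iff_mem_nhds.2 hev⟩
  have hq' := interior_subset hq
  simp only [mem_ofPred_eq] at hq'
  refine ⟨((q : ℝ) + Complex.I) / ((q : ℝ) - Complex.I), ?_, ?_, ?_⟩
  · have : (((q : ℝ) : ℂ)) = ((q : ℚ) : ℂ) := by push_cast; rfl
    rw [this]
    exact ((QI.rat q).add QI.I).div ((QI.rat q).sub QI.I)
  · rw [norm_div]
    have h1 : ((q : ℝ) : ℂ) + Complex.I = (starRingEnd ℂ) ((q : ℝ) - Complex.I) := by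
      apply Complex.ext <;> simp
    rw [h1, Complex.norm_conj]
    exact div_self (norm_ne_zero_iff.2 (hden _))
  · rw [hF] at hq'
    rwa [dist_eq_norm] at hq'

theorem tStmt_of (hA : ThmAStmt) (hR : RingStmt) : TStmt := by
  intro f hf he hrad hunit
  obtain ⟨μ, hμ, hχ, hint⟩ := boch KK (KK.val : KK →ₐ[ℚ] ℂ).toRingHom.toAddMonoidHom
    (fun a b h => Subtype.ext h) f hf he
  have hI : RInv μ := by
    intro u hu
    refine inv KK μ hχ (AddMonoidHom.mulLeft u) fun x => ?_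
    rw [hint, hint]
    exact_mod_cast hrad u x hu
  -- the formula for `f`
  have hform : ∀ x : KK, QI (x : ℂ) → x ≠ 0 →
      (f x : ℂ) = ∫ χ in EE 1, ((χ x : Circle) : ℂ) ∂μ := by
    intro x hx hx0
    have hi : Integrable (fun χ : KK → Circle => ((χ x : Circle) : ℂ)) μ :=
      Integrable.of_bound (measurable_ev x).aestronglyMeasurable 1
        (Eventually.of_forall fun χ => norm_ev_le x χ)
    have h1 := integral_compl hA hR hχ hI x
    have h2 : EE x = EE 1 := by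
      have := EE_smul_eq (z := 1) hx hx0
      rwa [mul_one] at this
    rw [h2] at h1
    rw [← hint, ← integral_add_compl (measurableSet_EE 1) hi, h1, add_zero]
  -- the modulus of continuity
  have hmod : ∀ η : ℝ, 0 < η → ∀ x v : KK, QI (x : ℂ) → QI (v : ℂ) → x ≠ 0 → v ≠ 0 →
      |f x - f v| ≤ η * μ.real (EE 1) + gg μ (x - v) / η := by
    intro η hη x v hx hv hx0 hv0
    have h1 : (((f x - f v : ℝ)) : ℂ) =
        ∫ χ in EE 1, (((χ x : Circle) : ℂ) - ((χ v : Circle) : ℂ)) ∂μ := by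
      rw [integral_sub]
      · rw [← hform x hx hx0, ← hform v hv hv0]; push_cast; ring
      · exact (Integrable.of_bound (measurable_ev x).aestronglyMeasurable 1
          (Eventually.of_forall fun χ => norm_ev_le x χ))
      · exact (Integrable.of_bound (measurable_ev v).aestronglyMeasurable 1
          (Eventually.of_forall fun χ => norm_ev_le v χ))
    have h2 : |f x - f v| = ‖(((f x - f v : ℝ)) : ℂ)‖ := by
      rw [Complex.norm_real, Real.norm_eq_abs]
    rw [h2, h1]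
    refine (norm_integral_le_integral_norm _).trans ?_
    have h3 : ∫ χ in EE 1, ‖((χ x : Circle) : ℂ) - ((χ v : Circle) : ℂ)‖ ∂μ ≤
        ∫ χ in EE 1, (η + (1 - ((χ (x - v) : Circle) : ℂ).re) / η) ∂μ := by
      refine setIntegral_mono_on ?_ ?_ (measurableSet_EE 1) fun χ hχ => ?_
      · exact (Integrable.of_bound ((measurable_ev x).sub (measurable_ev v)).norm.aestronglyMeasurable
          2 (Eventually.of_forall fun χ => by
            rw [norm_norm]
            exact (norm_sub_le _ _).trans (by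
              linarith [norm_ev_le x χ, norm_ev_le v χ]))).integrableOn
      · exact ((integrable_const η).add ((integrable_re (x - v)).div_const η)).integrableOn
      · have hc := hχ.1
        have e1 : ‖((χ x : Circle) : ℂ) - ((χ v : Circle) : ℂ)‖ =
            ‖((χ (x - v) : Circle) : ℂ) - 1‖ := by
          rw [Ga.char_sub hc]
          have h4 : ((χ x : Circle) : ℂ) - ((χ v : Circle) : ℂ) =
              ((χ v : Circle) : ℂ) * (((χ x * (χ v)⁻¹ : Circle) : ℂ) - 1) := by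
            have h5 : ((χ v : Circle) : ℂ) * (((χ v)⁻¹ : Circle) : ℂ) = 1 := by
              rw [← Circle.coe_mul, mul_inv_cancel, Circle.coe_one]
            rw [Circle.coe_mul]
            linear_combination (- ((χ x : Circle) : ℂ)) * h5
          rw [h4, norm_mul, Circle.norm_coe, one_mul]
        rw [e1]
        generalize χ (x - v) = w
        have h6 : ‖(w : ℂ) - 1‖ ^ 2 = 2 * (1 - (w : ℂ).re) := by
          rw [← Complex.normSq_eq_norm_sq, Complex.normSq_apply]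
          have := Circle.normSq_coe w
          rw [Complex.normSq_apply] at this
          simp
          linarith
        have h7 : (1 - (w : ℂ).re) = ‖(w : ℂ) - 1‖ ^ 2 / 2 := by rw [h6]; ring
        rw [h7]
        have h8 : ‖(w : ℂ) - 1‖ * η ≤ η * η + ‖(w : ℂ) - 1‖ ^ 2 / 2 := by
          nlinarith [sq_nonneg (‖(w : ℂ) - 1‖ - η), sq_nonneg η]
        have h9 : η + ‖(w : ℂ) - 1‖ ^ 2 / 2 / η = (η * η + ‖(w : ℂ) - 1‖ ^ 2 / 2) / η := by
          field_simp
        rw [h9, le_div_iff₀ hη]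
        exact h8
    refine h3.trans (le_of_eq ?_)
    rw [integral_add (integrable_const η) ((integrable_re (x - v)).integrableOn.div_const η),
      integral_div]
    simp [gg, Measure.real, mul_comm]
  intro ε hε
  set M : ℝ := μ.real (EE 1) with hM
  have hM0 : 0 ≤ M := measureReal_nonneg
  set η : ℝ := ε / (4 * (M + 1)) with hη
  have hη0 : 0 < η := by positivity
  obtain ⟨r, hr, hgr⟩ := gg_small (μ := μ) hI (show 0 < ε / 4 * η by positivity)
  refine ⟨min (r / 2) (1 / 2), by positivity, fun x hxG hx => ?_⟩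
  have hx1 := hx.trans_le (min_le_left _ _)
  have hx2 := hx.trans_le (min_le_right _ _)
  have hxn : 0 < ‖(x : ℂ)‖ := by
    rw [abs_lt] at hx2; linarith [hx2.1]
  have hxC : (x : ℂ) ≠ 0 := norm_pos_iff.1 hxn
  have hx0 : x ≠ 0 := by rintro rfl; simp at hxC
  have hunitx : ‖(x : ℂ) / ‖(x : ℂ)‖‖ = 1 := by
    rw [norm_div, Complex.norm_real, norm_norm, div_self hxn.ne']
  obtain ⟨v, hvQ, hv1, hvd⟩ := exists_QI_unit hunitx (half_pos hr)
  set vK : KK := ⟨v, hvQ.mem_KK⟩ with hvK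
  have hvKC : (vK : ℂ) = v := rfl
  have hvK0 : vK ≠ 0 := ne_zero_of_norm (u := vK) (by rw [hvKC]; exact hv1)
  have hxQ : QI (x : ℂ) := QI.G0 hxG
  have hdist : ‖((x - vK : KK) : ℂ)‖ < r := by
    have e1 : ((x - vK : KK) : ℂ) = ((x : ℂ) - (x : ℂ) / ‖(x : ℂ)‖) - (v - (x : ℂ) / ‖(x : ℂ)‖) := by
      push_cast
      rw [hvKC]; ring
    have e2 : ‖(x : ℂ) - (x : ℂ) / ‖(x : ℂ)‖‖ = |‖(x : ℂ)‖ - 1| := by
      have : (x : ℂ) - (x : ℂ) / ‖(x : ℂ)‖ =
          ((‖(x : ℂ)‖ - 1 : ℝ) : ℂ) * ((x : ℂ) / ‖(x : ℂ)‖) := by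
        have hne : (‖(x : ℂ)‖ : ℂ) ≠ 0 := by exact_mod_cast hxn.ne'
        push_cast
        field_simp
      rw [this, norm_mul, hunitx, mul_one, Complex.norm_real, Real.norm_eq_abs]
    rw [e1]
    refine (norm_sub_le _ _).trans_lt ?_
    rw [e2]
    linarith
  have h1 := hmod η hη0 x vK hxQ (by rw [hvKC]; exact hvQ) hx0 hvK0
  have h2 := hgr (x - vK) (by push_cast; rw [hvKC]; exact hxQ.sub hvQ) hdist
  have h3 : f vK = 0 := hunit vK (by rw [hvKC]; exact hv1)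
  rw [h3, sub_zero] at h1
  have h4 : gg μ (x - vK) / η ≤ ε / 4 := by
    rw [div_le_iff₀ hη0]; exact h2
  have h5 : η * M ≤ ε / 4 := by
    rw [hη, div_mul_eq_mul_div, div_le_div_iff₀ (by positivity) (by norm_num)]
    nlinarith
  linarith

end Vale.Agent.P032.T.TT
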