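import Vale.Agent.P032.T.Defs

/-!
P032 transfer, block THMA: the sub-block statements.
-/

open MeasureTheory Set Filter Topology
open scoped ENNReal

namespace Vale.Agent.P032.T

/-- S1 (from `a1` and `arith`) -/
def HostStmt : Prop :=
  ∀ (Γ : Type) [CommRing Γ] [Countable Γ] (j : Γ →+* ℂ), Function.Injective j →
    range j = RRset → ∀ (μ : Measure (Γ → Circle)) [IsFiniteMeasure μ], (∀ᵐ χ ∂μ, IsChar χ) →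
    (∀ u : Γ, ‖j u‖ = 1 → MeasurePreserving (fun (χ : Γ → Circle) y => χ (u * y)) μ μ) →
    ∃ (a : Γ) (Xc : Set (Γ → Circle)), j a = aC ∧ MeasurableSet Xc ∧
      (∀ᵐ χ ∂μ, (χ ∈ Xc ↔ (fun y => χ (a * y)) ∈ Xc)) ∧
      (∀ y : Γ, y ≠ 0 → ∫ χ in Xc, ((χ y : Circle) : ℂ) ∂μ = 0) ∧
      ∃ F : (Γ → Circle) → Circle, Measurable F ∧
        ∀ᵐ χ ∂μ, χ ∉ Xc → χ 1 = F (fun y => χ (a * y))

/-- S2: a measurable function is nearly uniformly continuous -/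
def ApproxStmt : Prop :=
  ∀ (Γ : Type) [Countable Γ] (μ : Measure (Γ → Circle)) [IsFiniteMeasure μ]
    (F : (Γ → Circle) → Circle), Measurable F → ∀ η : ℝ, 0 < η →
    -- one compact family of moduli for all `ε` is not needed: `Y₀, δ₂` may depend on `ε`
    ∀ ε : ℝ, 0 < ε → ∃ (Y₀ : Finset Γ) (δ₂ : ℝ) (Z : Set (Γ → Circle)), 0 < δ₂ ∧
      MeasurableSet Z ∧ μ Z ≤ ENNReal.ofReal ε ∧
      ∀ χ χ' : Γ → Circle, χ ∉ Z → χ' ∉ Z → (∀ y ∈ Y₀, dist (χ y) (χ' y) < δ₂) →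
        dist (F χ) (F χ') ≤ η

/-- CELL: the deterministic part (from `name`) -/
def CellStmt : Prop :=
  ∀ (Γ : Type) [CommRing Γ] (j : Γ →+* ℂ), Function.Injective j → range j = RRset →
    ∀ a : Γ, j a = aC → ∀ (F : (Γ → Circle) → Circle) (Y₀ : Finset Γ) (δ₂ : ℝ)
      (Z : Set (Γ → Circle)), 0 < δ₂ →
    (∀ χ χ' : Γ → Circle, χ ∉ Z → χ' ∉ Z → (∀ y ∈ Y₀, dist (χ y) (χ' y) < δ₂) →
        dist (F χ) (F χ') ≤ 1 / 2) →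
    ∃ (D : GaussianInt) (ρ' : ℝ), ¬ gp ∣ D ∧ 0 < ρ' ∧
      ∀ (n : ℕ) (χ χ' : Γ → Circle), IsChar χ → IsChar χ' →
      (∀ y : Γ, j y * D = aC ^ n → dist (χ y) (χ' y) < ρ') →
      (∀ y : Γ, j y * D = Complex.I * aC ^ n → dist (χ y) (χ' y) < ρ') →
      (∀ l < n, dist (χ (a ^ l)) (χ' (a ^ l)) ≤ 1 / 2 ∨
        (χ (a ^ l) = F (fun y => χ (a ^ (l + 1) * y)) ∧
          χ' (a ^ l) = F (fun y => χ' (a ^ (l + 1) * y)) ∧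
          (fun y => χ (a ^ (l + 1) * y)) ∉ Z ∧ (fun y => χ' (a ^ (l + 1) * y)) ∉ Z)) →
      ∃ ξ : ℂ, ‖ξ‖ ≤ 1 / 20 ∧ LinOn j (fun y => χ' y / χ y) ξ (LL D 0 n)

/-- S3: Borel-Cantelli for names -/
def BCStmt : Prop :=
  ∀ (X : Type) [MeasurableSpace X] (μ : Measure X) [IsFiniteMeasure μ] (A : ℕ → Type)
    (N : ∀ n, X → A n) (G : Set X) (S : ∀ n, Finset (A n)) (C : ℝ),
    (∀ n (b : A n), MeasurableSet (N n ⁻¹' {b})) → MeasurableSet G →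
    (∀ n, ∀ x ∈ G, N n x ∈ S n) → (∀ n, ((S n).card : ℝ) ≤ C * Real.exp ((1 / 40) * n)) →
    ∀ᵐ x ∂μ, x ∈ G → ∀ᶠ n : ℕ in atTop,
      ENNReal.ofReal (Real.exp (-(1 / 20) * n)) ≤ μ (G ∩ N n ⁻¹' {N n x})

/-- S4: growth -/
def GrowthStmt : Prop :=
  ∀ (Γ : Type) [CommRing Γ] [Countable Γ] (j : Γ →+* ℂ), Function.Injective j →
    range j = RRset → ∀ (μ : Measure (Γ → Circle)) [IsFiniteMeasure μ],
    (∀ u : Γ, ‖j u‖ = 1 → MeasurePreserving (fun (χ : Γ → Circle) y => χ (u * y)) μ μ) →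
    ∀ D : GaussianInt, ¬ gp ∣ D → ∃ C : ℝ, ∀ (n : ℕ) (B : Set (Γ → Circle)), MeasurableSet B →
      ENNReal.ofReal (Real.exp (-(1 / 20) * n)) ≤ μ B → (∀ χ ∈ B, IsChar χ) →
      (∀ χ ∈ B, ∀ χ' ∈ B, ∃ ξ : ℂ, ‖ξ‖ ≤ 1 / 20 ∧
        LinOn j (fun y => χ' y / χ y) ξ (LL D 0 n)) →
      ∀ χ ∈ B, ∃ (m : ℤ) (ξ : ℂ), m ≠ 0 ∧ |(m : ℝ)| ≤ C * Real.exp ((1 / 10) * n) ∧
        ‖ξ‖ ≤ C * Real.exp ((1 / 10) * n) ∧
        ∀ z : Γ, j z ∈ LL D 0 n → χ (m • z) = ex (ξ * j z).re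

end Vale.Agent.P032.T
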