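import Vale.Agent.P032.T.Arith
import Vale.Agent.P032.T.A1c
import Vale.Agent.P032.T.ThDefs

/-!
P032, part S1 of block THMA: the units `u_{5i}` used in the large sieve (Host's argument).
-/

open MeasureTheory Set Filter Topology
open scoped ENNReal

namespace Vale.Agent.P032.T.Th

theorem five_ok (i : ℕ) : ¬ 5 ∣ (5 * i) ^ 2 + 1 := by
  intro h
  have h1 : 5 ∣ (5 * i) ^ 2 := ⟨5 * i ^ 2, by ring⟩
  have h2 : 5 ∣ 1 := (Nat.dvd_add_right h1).1 h
  omega

variable {Γ : Type} [CommRing Γ] (j : Γ →+* ℂ)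

theorem natAdd_ne_zero (k : ℕ) : (k : ℂ) + Complex.I ≠ 0 := by
  intro h
  have := congrArg Complex.im h
  simp at this

theorem natSub_ne_zero (k : ℕ) : (k : ℂ) - Complex.I ≠ 0 := by
  intro h
  have := congrArg Complex.im h
  simp at this

theorem norm_natSub (k : ℕ) : ‖(k : ℂ) - Complex.I‖ = ‖(k : ℂ) + Complex.I‖ := by
  have : (k : ℂ) - Complex.I = (starRingEnd ℂ) ((k : ℂ) + Complex.I) := by simp [sub_eq_add_neg]
  rw [this, RCLike.norm_conj]

theorem norm_u {u : ℕ → Γˣ}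
    (hu : ∀ k : ℕ, ¬ 5 ∣ k ^ 2 + 1 → j (u k) * (k - Complex.I) = k + Complex.I)
    {k : ℕ} (hk : ¬ 5 ∣ k ^ 2 + 1) : ‖j (u k)‖ = 1 := by
  have h := congrArg norm (hu k hk)
  rw [norm_mul, norm_natSub] at h
  have h0 : ‖(k : ℂ) + Complex.I‖ ≠ 0 := norm_ne_zero_iff.2 (natAdd_ne_zero k)
  exact mul_right_cancel₀ h0 (by rw [h, one_mul])

theorem iter_mul (a : Γ) (n : ℕ) (z : Γ) : (AddMonoidHom.mulLeft a)^[n] z = a ^ n * z := by
  induction n generalizing z with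
  | zero => simp
  | succ n ih =>
    rw [Function.iterate_succ_apply, ih, AddMonoidHom.coe_mulLeft, pow_succ, mul_assoc]

theorem host_family (μ : Measure (Γ → Circle))
    (hinv : ∀ u : Γ, ‖j u‖ = 1 → MeasurePreserving (fun (χ : Γ → Circle) y => χ (u * y)) μ μ)
    (a : Γ) (u : ℕ → Γˣ)
    (hu : ∀ k : ℕ, ¬ 5 ∣ k ^ 2 + 1 → j (u k) * (k - Complex.I) = k + Complex.I)
    (y : Γ) (v : ℕ) (hv : ∀ (n k l : ℕ) (z : Γ), ¬ 5 ∣ k ^ 2 + 1 → ¬ 5 ∣ l ^ 2 + 1 →
          a ^ n * z = ((u k : Γ) - u l) * y → (5 : ℤ) ^ (n - v) ∣ (k : ℤ) - l) :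
    ∃ C : ℕ, ∀ n : ℕ, ∃ W : Finset (Γ ≃+ Γ), 5 ^ n ≤ C * W.card ∧
          (∀ w ∈ W, (∀ z, w (AddMonoidHom.mulLeft a z) = AddMonoidHom.mulLeft a (w z)) ∧
            MeasurePreserving (fun (χ : Γ → Circle) z => χ (w z)) μ μ) ∧
          ∀ w ∈ W, ∀ w' ∈ W, w ≠ w' → ∀ z, (AddMonoidHom.mulLeft a)^[n] z ≠ w y - w' y := by
  classical
  refine ⟨5 ^ (v + 1), fun n => ?_⟩
  set f : ℕ → (Γ ≃+ Γ) := fun i => AddAut.mulLeft (u (5 * i)) with hf
  have hfa : ∀ i z, f i z = (u (5 * i) : Γ) * z := fun i z => rfl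
  -- separation
  have hsep : ∀ i l : ℕ, i < 5 ^ (n - v - 1) → l < 5 ^ (n - v - 1) → ∀ z,
      (AddMonoidHom.mulLeft a)^[n] z = f i y - f l y → i = l := by
    intro i l hi hl z hz
    rw [iter_mul, hfa, hfa, ← sub_mul] at hz
    have h1 := hv n (5 * i) (5 * l) z (five_ok i) (five_ok l) hz
    have h2 : (5 : ℤ) ^ (n - v - 1) ∣ (i : ℤ) - l := by
      rcases Nat.eq_zero_or_pos (n - v) with h0 | h0
      · rw [h0]; simp
      · have h3 : (5 : ℤ) ^ (n - v) = 5 * 5 ^ (n - v - 1) := by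
          rw [← pow_succ']; congr 1; omega
        rw [h3] at h1
        push_cast at h1
        rw [← mul_sub] at h1
        exact (mul_dvd_mul_iff_left (by norm_num)).1 h1
    have h4 : |(i : ℤ) - l| < (5 : ℤ) ^ (n - v - 1) := by
      have hi' : (i : ℤ) < (5 : ℤ) ^ (n - v - 1) := by exact_mod_cast hi
      have hl' : (l : ℤ) < (5 : ℤ) ^ (n - v - 1) := by exact_mod_cast hl
      rw [abs_lt]; constructor <;> omega
    have h5 := Int.eq_zero_of_abs_lt_dvd h2 h4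
    omega
  have hinj : Set.InjOn f (Finset.range (5 ^ (n - v - 1)) : Set ℕ) := by
    intro i hi l hl h
    rw [Finset.mem_coe, Finset.mem_range] at hi hl
    refine hsep i l hi hl 0 ?_
    rw [h, sub_self, iter_mul, mul_zero]
  refine ⟨(Finset.range (5 ^ (n - v - 1))).image f, ?_, ?_, ?_⟩
  · rw [Finset.card_image_of_injOn hinj, Finset.card_range, ← pow_add]
    exact Nat.pow_le_pow_right (by norm_num) (by omega)
  · intro w hw
    obtain ⟨i, _, rfl⟩ := Finset.mem_image.1 hw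
    refine ⟨fun z => ?_, ?_⟩
    · rw [hfa, hfa, AddMonoidHom.coe_mulLeft]; ring
    · exact hinv _ (norm_u j hu (five_ok i))
  · intro w hw w' hw' hne z hz
    obtain ⟨i, hi, rfl⟩ := Finset.mem_image.1 hw
    obtain ⟨l, hl, rfl⟩ := Finset.mem_image.1 hw'
    rw [Finset.mem_range] at hi hl
    exact hne (by rw [hsep i l hi hl z hz])

end Vale.Agent.P032.T.Th

namespace Vale.Agent.P032.T

theorem host : HostStmt := by
  intro Γ _ _ j hj hr μ _ hchar hinv
  obtain ⟨a, ha, ⟨c, hc1, hcker⟩, u, hu, hsep⟩ := arith Γ j hj hr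
  have hnI : ‖(2 + Complex.I : ℂ)‖ = ‖(2 - Complex.I : ℂ)‖ := by
    have := Th.norm_natSub 2
    push_cast at this
    exact this.symm
  have hq0 : (2 - Complex.I : ℂ) ≠ 0 := by
    have := Th.natSub_ne_zero 2
    push_cast at this
    exact this
  have hna : ‖j a‖ = 1 := by
    rw [ha, aC, norm_div, hnI, div_self (norm_ne_zero_iff.2 hq0)]
  have ha0 : j a ≠ 0 := by
    intro h; rw [h, norm_zero] at hna; exact zero_ne_one hna
  have hinj : Function.Injective (AddMonoidHom.mulLeft a : Γ →+ Γ) := by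
    intro x y hxy
    rw [AddMonoidHom.coe_mulLeft] at hxy
    have h1 := congrArg j hxy
    simp only [map_mul] at h1
    exact hj (mul_left_cancel₀ ha0 h1)
  obtain ⟨Xc, hXc, hS, -, hhost, F, hF, hFae⟩ := a1 Γ 5 (AddMonoidHom.mulLeft a) c 1 hinj hc1
    hcker μ hchar (hinv a hna)
  refine ⟨a, Xc, ha, hXc, hS, ?_, F, hF, hFae⟩
  intro y hy
  obtain ⟨v, hv⟩ := hsep y hy
  obtain ⟨C, hC⟩ := Th.host_family j μ hinv a u hu y v hv
  exact hhost y C hC

end Vale.Agent.P032.T
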