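import Vale.Agent.P032.T.ThDefs

/-!
P032, Theorem A, part S2: measurable functions on the dual depend approximately on finitely many
coordinates (`helper321`).
-/

open MeasureTheory Set Filter Topology
open scoped ENNReal Uniformity

namespace Vale.Agent.P032.T

theorem unif_pi {Γ : Type} {U : Set ((Γ → Circle) × (Γ → Circle))}
    (hU : U ∈ 𝓤 (Γ → Circle)) : ∃ Y : Finset Γ, ∃ δ : ℝ, 0 < δ ∧
      ∀ χ χ' : Γ → Circle, (∀ y ∈ Y, dist (χ y) (χ' y) < δ) → (χ, χ') ∈ U := by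
  classical
  rw [Pi.uniformity] at hU
  have hb := Filter.HasBasis.iInf (fun i : Γ => (Metric.uniformity_basis_dist (α := Circle)).comap
    (fun a : (Γ → Circle) × (Γ → Circle) => (a.1 i, a.2 i)))
  obtain ⟨⟨I, f⟩, ⟨hI, hf⟩, hsub⟩ := hb.mem_iff.mp hU
  have : Fintype I := hI.fintype
  -- the minimum of the radii
  obtain ⟨δ, hδ, hδ'⟩ : ∃ δ : ℝ, 0 < δ ∧ ∀ i : I, δ ≤ f i := by
    by_cases hne : Nonempty I
    · refine ⟨Finset.univ.inf' (Finset.univ_nonempty) (fun i : I => (f i : ℝ)), ?_, ?_⟩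
      · rw [Finset.lt_inf'_iff]
        exact fun i _ => hf i
      · exact fun i => Finset.inf'_le _ (Finset.mem_univ i)
    · exact ⟨1, one_pos, fun i => absurd ⟨i⟩ hne⟩
  refine ⟨hI.toFinset, δ, hδ, fun χ χ' h => hsub ?_⟩
  rw [mem_iInter]
  intro i
  change dist (χ i) (χ' i) < f i
  exact lt_of_lt_of_le (h i (by simp)) (hδ' i)

/-- Approximation of a measurable function by functions of finitely many coordinates. -/
theorem approx_aux {Γ : Type} [Countable Γ] (F : (Γ → Circle) → Circle) (hF : Measurable F)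
    (μ : Measure (Γ → Circle)) [IsFiniteMeasure μ] {ε η : ℝ} (hε : 0 < ε) (hη : 0 < η) :
    ∃ (Y : Finset Γ) (δ : ℝ) (Z : Set (Γ → Circle)), 0 < δ ∧ MeasurableSet Z ∧
      μ Z ≤ ENNReal.ofReal ε ∧ ∀ χ χ' : Γ → Circle, χ ∉ Z → χ' ∉ Z →
        (∀ y ∈ Y, dist (χ y) (χ' y) < δ) → dist (F χ) (F χ') ≤ η := by
  have hcc : Continuous (fun z : Circle => (z : ℂ)) := continuous_subtype_val
  have hcm : Measurable (fun z : Circle => (z : ℂ)) := hcc.measurable
  have hfm : Measurable (fun χ => (F χ : ℂ)) := hcm.comp hF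
  have hfi : Integrable (fun χ => (F χ : ℂ)) μ := by
    refine Integrable.of_bound hfm.aestronglyMeasurable 1 (Eventually.of_forall fun χ => ?_)
    rw [Circle.norm_coe]
  obtain ⟨g, hg, hgi⟩ := hfi.exists_boundedContinuous_integral_sub_le
    (ε := ε * (η / 3)) (by positivity)
  have huc : UniformContinuous g := CompactSpace.uniformContinuous_of_continuous g.continuous
  have hU := huc (Metric.dist_mem_uniformity (α := ℂ) (show 0 < η / 3 by positivity))
  obtain ⟨Y, δ, hδ, hY⟩ := unif_pi hU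
  set Z : Set (Γ → Circle) := {χ | η / 3 ≤ ‖(F χ : ℂ) - g χ‖} with hZ
  have hgm : Measurable g := g.continuous.measurable
  have hZm : MeasurableSet Z := measurableSet_le measurable_const (hfm.sub hgm).norm
  refine ⟨Y, δ, Z, hδ, hZm, ?_, ?_⟩
  · have h1 := mul_meas_ge_le_integral_of_nonneg (μ := μ)
      (f := fun χ => ‖(F χ : ℂ) - g χ‖) (Eventually.of_forall fun χ => norm_nonneg _)
      (hfi.sub hgi).norm (η / 3)
    have h2 : η / 3 * μ.real Z ≤ ε * (η / 3) := h1.trans hg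
    have h3 : μ.real Z ≤ ε := by
      have : 0 < η / 3 := by positivity
      nlinarith
    rw [← ENNReal.ofReal_toReal (measure_ne_top μ Z)]
    exact ENNReal.ofReal_le_ofReal h3
  · intro χ χ' h h' hc
    have h1 : ‖(F χ : ℂ) - g χ‖ < η / 3 := not_le.mp h
    have h2 : ‖(F χ' : ℂ) - g χ'‖ < η / 3 := not_le.mp h'
    have h3 : dist (g χ) (g χ') < η / 3 := hY χ χ' hc
    rw [dist_eq_norm] at h3
    change dist ((F χ : Circle) : ℂ) ((F χ' : Circle) : ℂ) ≤ η
    rw [dist_eq_norm]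
    have e : (F χ : ℂ) - F χ' = ((F χ : ℂ) - g χ) + (g χ - g χ') - ((F χ' : ℂ) - g χ') := by ring
    rw [e]
    refine (norm_sub_le _ _).trans ?_
    have := norm_add_le ((F χ : ℂ) - g χ) (g χ - g χ')
    linarith

/-- block S2 -/
theorem approx : ApproxStmt := by
  intro Γ _ μ _ F hF η hη ε hε
  obtain ⟨Y, δ, Z, h1, h2, h3, h4⟩ := approx_aux F hF μ hε hη
  exact ⟨Y, δ, Z, h1, h2, h3, h4⟩

end Vale.Agent.P032.T
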