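import Vale.Agent.P032.T.Th1

/-!
P032, part S4 of block THMA: growth. A cell of measure `≥ exp (-2 κ n)` all of whose members
differ by small linear characters on `LL D 0 n` gives the hypothesis of `RigStmt` at level `n`.
-/

open MeasureTheory Set Filter Topology
open scoped ENNReal

namespace Vale.Agent.P032.T.Th

open Ar

theorem LL_mul (h : GaussianInt) {D : GaussianInt} {l n : ℕ} {z : ℂ} (hz : z ∈ LL D l n) :
    (h : ℂ) * z ∈ LL D l n := by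
  obtain ⟨g, hg⟩ := hz
  refine ⟨h * g, ?_⟩
  rw [map_mul, mul_assoc, hg]; ring

theorem norm_natAdd (k : ℕ) : ‖(k : ℂ) + Complex.I‖ ≤ k + 1 := by
  refine (norm_add_le _ _).trans ?_
  rw [Complex.norm_I, Complex.norm_natCast]

variable {Γ : Type} [CommRing Γ] (j : Γ →+* ℂ)

/-- deterministic part -/
theorem growth_det (hj : Function.Injective j) (hr : range j = RRset) (u : ℕ → Γˣ)
    (hu : ∀ k : ℕ, ¬ 5 ∣ k ^ 2 + 1 → j (u k) * (k - Complex.I) = k + Complex.I)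
    (D : GaussianInt) (n : ℕ) (ρ : ℝ) (B : Set (Γ → Circle)) (hBc : ∀ χ ∈ B, IsChar χ)
    (hB : ∀ χ ∈ B, ∀ χ' ∈ B, ∃ ξ : ℂ, ‖ξ‖ ≤ ρ ∧
      LinOn j (fun y => χ' y * (χ y)⁻¹) ξ (LL D 0 n))
    (χ₀ : Γ → Circle) {k l : ℕ} (hk : ¬ 5 ∣ k ^ 2 + 1) (hl : ¬ 5 ∣ l ^ 2 + 1)
    (h1 : (fun y => χ₀ (u k * y)) ∈ B) (h2 : (fun y => χ₀ (u l * y)) ∈ B)
    (χ : Γ → Circle) (hχ : χ ∈ B) :
    ∃ ξ : ℂ, ‖ξ‖ ≤ 2 * ρ * ((k + 1) * (l + 1)) ∧
      ∀ z : Γ, j z ∈ LL D 0 n → χ ((2 * ((k : ℤ) - l)) • z) = ex (ξ * j z).re := by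
  obtain ⟨J, hJ⟩ : ∃ J : Γ, j J = Complex.I := by
    have : Complex.I ∈ range j := by
      rw [hr]
      refine ⟨⟨0, 1⟩, 1, ?_, ?_⟩
      · rw [gp_dvd_iff]; simp
      · rw [GaussianInt.toComplex_def, GaussianInt.toComplex_def]; simp
    exact this
  obtain ⟨ξ₁, hξ₁, hL₁⟩ := hB χ hχ _ h1
  obtain ⟨ξ₂, hξ₂, hL₂⟩ := hB χ hχ _ h2
  set c₁ : ℂ := (k - Complex.I) * (l + Complex.I) * (-Complex.I) with hc₁
  set c₂ : ℂ := (k + Complex.I) * (l - Complex.I) * (-Complex.I) with hc₂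
  have hg₁ : c₁ = ((km k * kp l * ⟨0, -1⟩ : GaussianInt) : ℂ) := by
    simp only [map_mul, coe_km, coe_kp]
    rw [GaussianInt.toComplex_def ⟨0, -1⟩, hc₁]; simp
  have hg₂ : c₂ = ((kp k * km l * ⟨0, -1⟩ : GaussianInt) : ℂ) := by
    simp only [map_mul, coe_km, coe_kp]
    rw [GaussianInt.toComplex_def ⟨0, -1⟩, hc₂]; simp
  have hnI : ‖(-Complex.I : ℂ)‖ = 1 := by rw [norm_neg, Complex.norm_I]
  have hn₁ : ‖c₁‖ ≤ (k + 1) * (l + 1) := by
    rw [hc₁, norm_mul, norm_mul, hnI, mul_one, norm_natSub]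
    exact mul_le_mul (norm_natAdd k) (norm_natAdd l) (norm_nonneg _) (by positivity)
  have hn₂ : ‖c₂‖ ≤ (k + 1) * (l + 1) := by
    rw [hc₂, norm_mul, norm_mul, hnI, mul_one, norm_natSub]
    exact mul_le_mul (norm_natAdd k) (norm_natAdd l) (norm_nonneg _) (by positivity)
  refine ⟨ξ₂ * c₂ - ξ₁ * c₁, ?_, ?_⟩
  · have hρ : 0 ≤ ρ := (norm_nonneg _).trans hξ₁
    calc ‖ξ₂ * c₂ - ξ₁ * c₁‖ ≤ ‖ξ₂ * c₂‖ + ‖ξ₁ * c₁‖ := norm_sub_le _ _
      _ ≤ ρ * ((k + 1) * (l + 1)) + ρ * ((k + 1) * (l + 1)) := by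
          rw [norm_mul ξ₂ c₂, norm_mul ξ₁ c₁]
          exact add_le_add (mul_le_mul hξ₂ hn₂ (norm_nonneg _) hρ)
            (mul_le_mul hξ₁ hn₁ (norm_nonneg _) hρ)
      _ = _ := by ring
  · intro z hz
    set y₁ : Γ := ((k : Γ) - J) * (l + J) * (-J) * z with hy₁
    set y₂ : Γ := ((k : Γ) + J) * (l - J) * (-J) * z with hy₂
    have hjy₁ : j y₁ = c₁ * j z := by
      simp only [hy₁, hc₁, map_mul, map_sub, map_add, map_neg, map_natCast, hJ]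
    have hjy₂ : j y₂ = c₂ * j z := by
      simp only [hy₂, hc₂, map_mul, map_sub, map_add, map_neg, map_natCast, hJ]
    have hm₁ : j y₁ ∈ LL D 0 n := by rw [hjy₁, hg₁]; exact LL_mul _ hz
    have hm₂ : j y₂ ∈ LL D 0 n := by rw [hjy₂, hg₂]; exact LL_mul _ hz
    have e₁ := hL₁ y₁ hm₁
    have e₂ := hL₂ y₂ hm₂
    have huu : (u k : Γ) * y₁ = (u l : Γ) * y₂ := by
      apply hj
      rw [map_mul j (u k : Γ) y₁, map_mul j (u l : Γ) y₂, hjy₁, hjy₂, hc₁, hc₂]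
      have a1 := hu k hk
      have a2 := hu l hl
      linear_combination ((l : ℂ) + Complex.I) * (-Complex.I) * j z * a1 -
        ((k : ℂ) + Complex.I) * (-Complex.I) * j z * a2
    have hJJ : J * J = -1 := by
      apply hj
      rw [map_mul, hJ, map_neg, map_one, Complex.I_mul_I]
    have hsub : (2 * ((k : ℤ) - l)) • z = y₁ - y₂ := by
      rw [zsmul_eq_mul, hy₁, hy₂]
      push_cast
      linear_combination (2 * ((k : Γ) - l) * z) * hJJ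
    have hc := hBc χ hχ
    have hc0 : χ 0 = 1 := by
      have := hc 0 0
      rw [add_zero] at this
      exact (mul_eq_left.1 this.symm)
    have hneg : ∀ y, χ (-y) = (χ y)⁻¹ := by
      intro y
      have := hc y (-y)
      rw [add_neg_cancel, hc0] at this
      exact (eq_inv_of_mul_eq_one_right this.symm)
    rw [hsub, sub_eq_add_neg, hc, hneg]
    beta_reduce at e₁ e₂
    rw [huu] at e₁
    have hex : ∀ s t : ℝ, ex (s - t) = ex s * (ex t)⁻¹ := by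
      intro s t
      simp only [ex, mul_sub, Circle.exp_sub, div_eq_mul_inv]
    have hre : ((ξ₂ * c₂ - ξ₁ * c₁) * j z).re = (ξ₂ * j y₂).re - (ξ₁ * j y₁).re := by
      rw [← Complex.sub_re, hjy₁, hjy₂]; congr 1; ring
    rw [hre, hex, ← e₁, ← e₂, mul_inv, inv_inv, mul_mul_mul_comm, mul_inv_cancel, one_mul, mul_comm]

/-- block S4 -/
theorem growth (hj : Function.Injective j) (hr : range j = RRset) (u : ℕ → Γˣ)
    (hu : ∀ k : ℕ, ¬ 5 ∣ k ^ 2 + 1 → j (u k) * (k - Complex.I) = k + Complex.I)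
    (μ : Measure (Γ → Circle)) [IsFiniteMeasure μ]
    (hinv : ∀ u : Γ, ‖j u‖ = 1 → MeasurePreserving (fun (χ : Γ → Circle) y => χ (u * y)) μ μ)
    (D : GaussianInt) (ρ κ : ℝ) (hρ : 0 ≤ ρ) (hκ : 0 < κ) :
    ∃ C : ℝ, 0 ≤ C ∧ ∀ (n : ℕ) (B : Set (Γ → Circle)), MeasurableSet B →
    (∀ χ ∈ B, IsChar χ) → (∀ χ ∈ B, ∀ χ' ∈ B, ∃ ξ : ℂ, ‖ξ‖ ≤ ρ ∧
      LinOn j (fun y => χ' y * (χ y)⁻¹) ξ (LL D 0 n)) →
    ENNReal.ofReal (Real.exp (-(2 * κ) * n)) ≤ μ B →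
    ∀ χ ∈ B, ∃ (m : ℤ) (ξ : ℂ), m ≠ 0 ∧ |(m : ℝ)| ≤ C * Real.exp (4 * κ * n) ∧
      ‖ξ‖ ≤ C * Real.exp (4 * κ * n) ∧
      ∀ z : Γ, j z ∈ LL D 0 n → χ (m • z) = ex (ξ * j z).re := by
  set M : ℝ := μ.real univ with hM
  have hM0 : 0 ≤ M := measureReal_nonneg
  refine ⟨10 * (M + 2) + 2 * ρ * (36 * (M + 2) ^ 2), by positivity, ?_⟩
  intro n B hBm hBc hB hμB χ hχ
  set E : ℝ := Real.exp (2 * κ * n) with hE
  have hE1 : 1 ≤ E := Real.one_le_exp (by positivity)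
  obtain ⟨N, hN1, hN2⟩ : ∃ N : ℕ, M * E < N ∧ (N : ℝ) ≤ M * E + 2 :=
    ⟨⌊M * E⌋₊ + 1, by push_cast; exact Nat.lt_floor_add_one _, by
      push_cast
      have := Nat.floor_le (show 0 ≤ M * E by positivity)
      linarith⟩
  have hN3 : (N : ℝ) ≤ (M + 2) * E := by nlinarith
  have hN0 : (0 : ℝ) < N := lt_of_le_of_lt (by positivity) hN1
  have hmp : ∀ i : ℕ, MeasurePreserving (fun (χ : Γ → Circle) y => χ ((u (5 * i) : Γ) * y)) μ μ :=
    fun i => hinv _ (norm_u j hu (five_ok i))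
  obtain ⟨i, hi, l, hl, hil, χ₀, h1, h2⟩ := exists_nonempty_inter_of_measure_univ_lt_sum_measure μ
    (s := Finset.range N)
    (t := fun i => (fun (χ : Γ → Circle) y => χ ((u (5 * i) : Γ) * y)) ⁻¹' B)
    (fun i _ => ((hmp i).measurable hBm).nullMeasurableSet) (by
      simp only [(hmp _).measure_preimage hBm.nullMeasurableSet]
      rw [Finset.sum_const, Finset.card_range, nsmul_eq_mul]
      calc μ univ = ENNReal.ofReal M := by
            rw [hM, ofReal_measureReal]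
        _ < ENNReal.ofReal (N * Real.exp (-(2 * κ) * n)) := by
            rw [ENNReal.ofReal_lt_ofReal_iff (by positivity)]
            have : M = (M * E) * Real.exp (-(2 * κ) * n) := by
              rw [hE, mul_assoc, ← Real.exp_add]; ring_nf; simp
            rw [this]
            gcongr
        _ = N * ENNReal.ofReal (Real.exp (-(2 * κ) * n)) := by
            rw [ENNReal.ofReal_mul (by positivity), ENNReal.ofReal_natCast]
        _ ≤ N * μ B := by gcongr)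
  rw [Finset.mem_range] at hi hl
  obtain ⟨ξ, hξ, hlin⟩ := growth_det j hj hr u hu D n ρ B hBc hB χ₀ (five_ok i) (five_ok l) h1 h2
    χ hχ
  have hi' : (i : ℝ) + 1 ≤ N := by exact_mod_cast hi
  have hl' : (l : ℝ) + 1 ≤ N := by exact_mod_cast hl
  have hE2 : Real.exp (4 * κ * n) = E ^ 2 := by
    rw [hE, ← Real.exp_nat_mul]; ring_nf
  have hEE : E ≤ E ^ 2 := by nlinarith
  refine ⟨2 * (((5 * i : ℕ) : ℤ) - ((5 * l : ℕ) : ℤ)), ξ, ?_, ?_, ?_, hlin⟩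
  · intro h
    apply hil
    push_cast at h
    omega
  · rw [hE2]
    have e1 : |((2 * (((5 * i : ℕ) : ℤ) - ((5 * l : ℕ) : ℤ)) : ℤ) : ℝ)| ≤ 10 * N := by
      push_cast
      rw [abs_le]
      constructor <;> nlinarith [Nat.cast_nonneg (α := ℝ) i, Nat.cast_nonneg (α := ℝ) l]
    calc _ ≤ 10 * (N : ℝ) := e1
      _ ≤ 10 * ((M + 2) * E) := by linarith
      _ = 10 * (M + 2) * E := by ring
      _ ≤ 10 * (M + 2) * E ^ 2 := by gcongr
      _ ≤ (10 * (M + 2) + 2 * ρ * (36 * (M + 2) ^ 2)) * E ^ 2 := by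
          gcongr
          have : 0 ≤ 2 * ρ * (36 * (M + 2) ^ 2) := by positivity
          linarith
  · rw [hE2]
    have e2 : ((5 * i : ℕ) : ℝ) + 1 ≤ 6 * N := by push_cast; nlinarith
    have e3 : ((5 * l : ℕ) : ℝ) + 1 ≤ 6 * N := by push_cast; nlinarith
    calc ‖ξ‖ ≤ 2 * ρ * ((((5 * i : ℕ) : ℝ) + 1) * (((5 * l : ℕ) : ℝ) + 1)) := hξ
      _ ≤ 2 * ρ * ((6 * N) * (6 * N)) := by gcongr
      _ = 2 * ρ * 36 * N ^ 2 := by ring
      _ ≤ 2 * ρ * 36 * ((M + 2) * E) ^ 2 := by gcongr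
      _ = 2 * ρ * (36 * (M + 2) ^ 2) * E ^ 2 := by ring
      _ ≤ (10 * (M + 2) + 2 * ρ * (36 * (M + 2) ^ 2)) * E ^ 2 := by
          gcongr
          have : 0 ≤ 10 * (M + 2) := by positivity
          linarith

end Vale.Agent.P032.T.Th

namespace Vale.Agent.P032.T

theorem growth : GrowthStmt := by
  intro Γ _ _ j hj hr μ _ hinv D _
  obtain ⟨a, ha, -, u, hu, -⟩ := arith Γ j hj hr
  obtain ⟨C, -, hC⟩ := Th.growth j hj hr u hu μ hinv D (1 / 20) (1 / 40) (by norm_num) (by norm_num)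
  refine ⟨C, fun n B hB hμ hBc hBB => ?_⟩
  have e : (-(2 * (1 / 40 : ℝ))) = -(1 / 20) := by norm_num
  have e2 : (4 * (1 / 40) : ℝ) = 1 / 10 := by norm_num
  have h := hC n B hB hBc (by simpa only [div_eq_mul_inv] using hBB) (by rw [e]; exact hμ)
  rw [e2] at h
  exact h

end Vale.Agent.P032.T
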