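import Vale.Agent.P032.T.ThmA
import Vale.Agent.P032.T.Th1
import Vale.Agent.P032.T.Th2
import Vale.Agent.P032.T.Cell
import Vale.Agent.P032.T.Th4

/-!
P032 transfer: Theorem A.
-/

namespace Vale.Agent.P032.T

theorem thmA : ThmAStmt := thmA_of host approx cell growth

end Vale.Agent.P032.T
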