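import Vale.Agent.P032.M.Fin
import Vale.Agent.P032.T.ThmAll
import Vale.Agent.P032.T.TT
import Vale.Agent.P032.T.Ring
import Vale.Agent.P032.T.Corr
import Vale.Agent.P032.T.Disc
import Vale.Agent.P032.T.Lim

/-!
P032: the transfer principle and the bound `6 ≤ k` for arbitrary colourings of the plane.
-/

open MeasureTheory Set Filter Topology

namespace Vale.Agent.P032.T

theorem tStmt : TStmt := TT.tStmt_of thmA ring

/-- The transfer principle: a proper colouring of the plane with `k` colours gives a Borel
measurable colouring with `k` colours, which is proper almost everywhere. -/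
theorem transfer {k : ℕ} (c : ℂ → Fin k) (hc : ∀ x y, dist x y = 1 → c x ≠ c y) :
    ∃ c' : ℂ → Fin k, Measurable c' ∧ M.Proper c' := by
  obtain ⟨d⟩ := corr k c hc
  have hdec : ∀ i, Decay (d.f i) := fun i =>
    tStmt (d.f i) (d.posDef i) (d.even i) (fun u x hu => d.radial i u x hu) (d.unit i)
  obtain ⟨cn, hm, has⟩ := disc k c d hdec
  exact lim k cn hm has

theorem chi_six : FinalStmt := by
  intro k c hc
  obtain ⟨c', hc', hp⟩ := transfer c hc
  exact M.six_le c' hc' hp

end Vale.Agent.P032.T
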