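import Mathlib

/-!
P032, block COUNT: the number of names.
-/

open Finset

namespace Vale.Agent.P032.T

/-- words of length `n` over an alphabet with a zero letter and at most `θ n` nonzero letters:
their number is at most `exp (κ n)`, if `θ` is small enough in terms of the alphabet and `κ`. -/
theorem count_words (A : Type) [Fintype A] [DecidableEq A] (z : A) (κ : ℝ) (hκ : 0 < κ) :
    ∃ θ : ℝ, 0 < θ ∧ ∀ n : ℕ,
      (((univ : Finset (Fin n → A)).filter
        (fun f => (((univ : Finset (Fin n)).filter (fun j => f j ≠ z)).card : ℝ) ≤ θ * n)).card : ℝ)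
        ≤ Real.exp (κ * n) := by
  classical
  set K : ℝ := (Fintype.card A : ℝ) with hK
  have hKpos : 0 < K := by
    have : 0 < Fintype.card A := Fintype.card_pos_iff.2 ⟨z⟩
    rw [hK]; exact_mod_cast this
  -- choose t
  obtain ⟨t, ht0, ht1, htK⟩ : ∃ t : ℝ, 0 < t ∧ t < 1 ∧ K * t ≤ κ / 2 := by
    refine ⟨min (1 / 2) (κ / (2 * K)), by positivity, ?_, ?_⟩
    · exact lt_of_le_of_lt (min_le_left _ _) (by norm_num)
    · calc K * min (1 / 2) (κ / (2 * K)) ≤ K * (κ / (2 * K)) :=
            mul_le_mul_of_nonneg_left (min_le_right _ _) hKpos.le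
        _ = κ / 2 := by field_simp
  have hlog : 0 < Real.log t⁻¹ := Real.log_pos ((one_lt_inv₀ ht0).2 ht1)
  refine ⟨κ / (2 * Real.log t⁻¹), by positivity, ?_⟩
  intro n
  set θ : ℝ := κ / (2 * Real.log t⁻¹) with hθ
  set cn : (Fin n → A) → ℕ := fun f => ((univ : Finset (Fin n)).filter (fun j => f j ≠ z)).card
    with hcn
  have h1 : ∀ f : Fin n → A, (cn f : ℝ) ≤ θ * n → (1 : ℝ) ≤ Real.exp (κ / 2 * n) * t ^ cn f := by
    intro f hf
    have e1 : t ^ cn f = Real.exp (-(Real.log t⁻¹ * cn f)) := by
      rw [Real.log_inv, neg_mul, neg_neg, mul_comm, ← Real.log_pow, Real.exp_log (pow_pos ht0 _)]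
    rw [e1, ← Real.exp_add]
    apply Real.one_le_exp
    have : Real.log t⁻¹ * cn f ≤ Real.log t⁻¹ * (θ * n) :=
      mul_le_mul_of_nonneg_left hf hlog.le
    have e2 : Real.log t⁻¹ * (θ * n) = κ / 2 * n := by
      have := hlog.ne'
      rw [hθ]
      generalize Real.log t⁻¹ = L at *
      field_simp
    linarith
  have h2 : (((univ : Finset (Fin n → A)).filter (fun f => (cn f : ℝ) ≤ θ * n)).card : ℝ) ≤
      ∑ f : Fin n → A, Real.exp (κ / 2 * n) * t ^ cn f := by
    rw [Finset.card_eq_sum_ones, Nat.cast_sum, Finset.sum_filter]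
    apply Finset.sum_le_sum
    intro f _
    split_ifs with h
    · simpa using h1 f h
    · positivity
  have h3 : ∑ f : Fin n → A, t ^ cn f ≤ Real.exp (κ / 2 * n) := by
    have e1 : ∀ f : Fin n → A, t ^ cn f = ∏ j : Fin n, (if f j ≠ z then t else 1) := by
      intro f
      rw [Finset.prod_ite, Finset.prod_const, Finset.prod_const_one, mul_one]
    simp_rw [e1]
    rw [← Fintype.piFinset_univ, Finset.sum_prod_piFinset (univ : Finset A)
      (fun _ a => if a ≠ z then t else 1)]
    simp only [Finset.prod_const, Finset.card_univ, Fintype.card_fin]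
    have e2 : ∑ a : A, (if a ≠ z then t else 1) ≤ Real.exp (κ / 2) := by
      have e3 : ∑ a : A, (if a ≠ z then t else 1) ≤ 1 + K * t := by
        rw [Finset.sum_ite, Finset.sum_const, Finset.sum_const, nsmul_eq_mul, nsmul_eq_mul]
        have e4 : (((univ : Finset A).filter (fun a => ¬ a ≠ z)).card : ℝ) = 1 := by
          have : (univ : Finset A).filter (fun a => ¬ a ≠ z) = {z} := by
            ext a; simp
          rw [this]; simp
        have e5 : (((univ : Finset A).filter (fun a => a ≠ z)).card : ℝ) ≤ K := by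
          rw [hK]; exact_mod_cast Finset.card_le_univ _
        rw [e4]
        have e6 := mul_le_mul_of_nonneg_right e5 ht0.le
        linarith
      calc _ ≤ 1 + K * t := e3
        _ ≤ κ / 2 + 1 := by linarith
        _ ≤ Real.exp (κ / 2) := Real.add_one_le_exp _
    calc (∑ a : A, (if a ≠ z then t else 1)) ^ n ≤ (Real.exp (κ / 2)) ^ n := by
          apply pow_le_pow_left₀ _ e2
          apply Finset.sum_nonneg
          intro a _
          split_ifs <;> positivity
      _ = Real.exp (κ / 2 * n) := by rw [← Real.exp_nat_mul]; ring_nf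
  calc _ ≤ ∑ f : Fin n → A, Real.exp (κ / 2 * n) * t ^ cn f := h2
    _ = Real.exp (κ / 2 * n) * ∑ f : Fin n → A, t ^ cn f := by rw [Finset.mul_sum]
    _ ≤ Real.exp (κ / 2 * n) * Real.exp (κ / 2 * n) :=
        mul_le_mul_of_nonneg_left h3 (Real.exp_pos _).le
    _ = Real.exp (κ * n) := by rw [← Real.exp_add]; ring_nf

end Vale.Agent.P032.T
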