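import Vale.Agent.P032.T.ThDefs

/-!
P032 transfer, block THMA, S3: Borel-Cantelli for names.
-/

open MeasureTheory Set Filter Topology
open scoped ENNReal

namespace Vale.Agent.P032.T

theorem bc : BCStmt := by
  classical
  intro X _ μ _ A N G S C hN hG hS hC
  let Bad : ℕ → Set X := fun n => ⋃ b ∈ (S n).filter
    (fun b => μ (G ∩ N n ⁻¹' {b}) < ENNReal.ofReal (Real.exp (-(1 / 20) * n))), (G ∩ N n ⁻¹' {b})
  have h1 : ∀ n, μ (Bad n) ≤ ENNReal.ofReal (C * Real.exp (-(1 / 40) * n)) := by
    intro n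
    calc μ (Bad n) ≤ ∑ b ∈ (S n).filter
          (fun b => μ (G ∩ N n ⁻¹' {b}) < ENNReal.ofReal (Real.exp (-(1 / 20) * n))),
          μ (G ∩ N n ⁻¹' {b}) := measure_biUnion_finset_le _ _
      _ ≤ ∑ b ∈ (S n).filter
          (fun b => μ (G ∩ N n ⁻¹' {b}) < ENNReal.ofReal (Real.exp (-(1 / 20) * n))),
          ENNReal.ofReal (Real.exp (-(1 / 20) * n)) := by
          refine Finset.sum_le_sum fun b hb => ?_
          exact (Finset.mem_filter.1 hb).2.le
      _ ≤ ∑ b ∈ S n, ENNReal.ofReal (Real.exp (-(1 / 20) * n)) :=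
          Finset.sum_le_sum_of_subset (Finset.filter_subset _ _)
      _ = ENNReal.ofReal ((S n).card * Real.exp (-(1 / 20) * n)) := by
          rw [Finset.sum_const, nsmul_eq_mul, ENNReal.ofReal_mul (by positivity),
            ENNReal.ofReal_natCast]
      _ ≤ ENNReal.ofReal (C * Real.exp (-(1 / 40) * n)) := by
          apply ENNReal.ofReal_le_ofReal
          have h2 : Real.exp (-(1 / 40) * n) = Real.exp ((1 / 40) * n) * Real.exp (-(1 / 20) * n) := by
            rw [← Real.exp_add]; ring_nf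
          rw [h2, ← mul_assoc]
          exact mul_le_mul_of_nonneg_right (hC n) (Real.exp_pos _).le
  have hsum : Summable (fun n : ℕ => C * Real.exp (-(1 / 40) * n)) := by
    apply Summable.mul_left
    have : (fun n : ℕ => Real.exp (-(1 / 40) * n)) = fun n : ℕ => (Real.exp (-(1 / 40))) ^ n := by
      ext n
      rw [← Real.exp_nat_mul]; ring_nf
    rw [this]
    apply summable_geometric_of_lt_one (Real.exp_pos _).le
    rw [Real.exp_lt_one_iff]; norm_num
  have h3 : ∑' n, μ (Bad n) ≠ ∞ := by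
    refine ne_top_of_le_ne_top hsum.tsum_ofReal_ne_top (ENNReal.tsum_le_tsum h1)
  filter_upwards [ae_eventually_notMem h3] with x hx hxG
  filter_upwards [hx] with n hn
  by_contra hlt
  apply hn
  refine mem_iUnion₂.2 ⟨N n x, Finset.mem_filter.2 ⟨hS n x hxG, not_le.1 hlt⟩, hxG, rfl⟩

end Vale.Agent.P032.T
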