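import Vale.Agent.P032.T.Defs

/-!
P032, block MAX: the maximal ergodic inequality for indicator functions (`helper321`).
-/

open MeasureTheory Set Filter Topology
open scoped ENNReal

namespace Vale.Agent.P032.T

namespace MaxIneq

variable {X : Type*} [MeasurableSpace X]

/-- the running maxima of the sums of `g` -/
noncomputable def MM (g : X → ℝ) (S : X → X) : ℕ → X → ℝ
  | 0, _ => 0
  | n + 1, x => max 0 (g x + MM g S n (S x))

variable {g : X → ℝ} {S : X → X}

omit [MeasurableSpace X] in
theorem MM_nonneg (n : ℕ) (x : X) : 0 ≤ MM g S n x := by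
  cases n with
  | zero => exact le_rfl
  | succ n => exact le_max_left _ _

theorem measurable_MM (hg : Measurable g) (hS : Measurable S) (n : ℕ) :
    Measurable (MM g S n) := by
  induction n with
  | zero => exact measurable_const
  | succ n ih => exact measurable_const.max (hg.add (ih.comp hS))

omit [MeasurableSpace X] in
theorem MM_le {C : ℝ} (hC : 0 ≤ C) (h : ∀ x, g x ≤ C) (n : ℕ) (x : X) : MM g S n x ≤ n * C := by
  induction n generalizing x with
  | zero => simp [MM]
  | succ n ih =>
    have h1 := ih (S x)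
    have h2 := h x
    change max 0 (g x + MM g S n (S x)) ≤ _
    push_cast
    refine max_le (by positivity) ?_
    linarith

omit [MeasurableSpace X] in
theorem MM_mono (n : ℕ) (x : X) : MM g S n x ≤ MM g S (n + 1) x := by
  induction n generalizing x with
  | zero => exact le_max_left _ _
  | succ n ih =>
    change max 0 (g x + MM g S n (S x)) ≤ max 0 (g x + MM g S (n + 1) (S x))
    exact max_le_max le_rfl (by linarith [ih (S x)])

omit [MeasurableSpace X] in
theorem sum_le_MM (n : ℕ) (x : X) : ∑ j ∈ Finset.range n, g (S^[j] x) ≤ MM g S n x := by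
  induction n generalizing x with
  | zero => simp [MM]
  | succ n ih =>
    rw [Finset.sum_range_succ']
    have h1 : ∑ j ∈ Finset.range n, g (S^[j + 1] x) = ∑ j ∈ Finset.range n, g (S^[j] (S x)) := by
      refine Finset.sum_congr rfl fun j _ => ?_
      rw [Function.iterate_succ_apply]
    rw [h1]
    have h2 := ih (S x)
    refine le_trans ?_ (le_max_right _ _)
    simp only [Function.iterate_zero, id_eq]
    linarith

theorem integrable_MM {μ : Measure X} [IsFiniteMeasure μ] (hg : Measurable g) (hS : Measurable S)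
    {C : ℝ} (hC : 0 ≤ C) (h : ∀ x, g x ≤ C) (n : ℕ) : Integrable (MM g S n) μ := by
  refine Integrable.of_bound (measurable_MM hg hS n).aestronglyMeasurable (n * C) ?_
  refine Eventually.of_forall fun x => ?_
  rw [Real.norm_eq_abs, abs_of_nonneg (MM_nonneg n x)]
  exact MM_le hC h n x

/-- Garsia's inequality -/
theorem garsia {μ : Measure X} [IsFiniteMeasure μ] (hS : MeasurePreserving S μ μ)
    (hg : Measurable g) (hgi : Integrable g μ) {C : ℝ} (hC : 0 ≤ C) (h : ∀ x, g x ≤ C) (n : ℕ) :
    0 ≤ ∫ x in {x | 0 < MM g S (n + 1) x}, g x ∂μ := by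
  have hm := measurable_MM hg hS.measurable (n + 1)
  set E : Set X := {x | 0 < MM g S (n + 1) x} with hE
  have hEm : MeasurableSet E := measurableSet_lt measurable_const hm
  have hi := integrable_MM (μ := μ) hg hS.measurable hC h (n + 1)
  have hi' : Integrable (fun x => MM g S (n + 1) (S x)) μ :=
    (hS.integrable_comp hm.aestronglyMeasurable).mpr hi
  have h1 : ∫ x in E, (MM g S (n + 1) x - MM g S (n + 1) (S x)) ∂μ ≤ ∫ x in E, g x ∂μ := by
    refine setIntegral_mono_on (hi.sub hi').integrableOn hgi.integrableOn hEm fun x hx => ?_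
    have hx' : 0 < MM g S (n + 1) x := hx
    have h2 : MM g S (n + 1) x = g x + MM g S n (S x) := by
      change max 0 (g x + MM g S n (S x)) = _
      change 0 < max 0 (g x + MM g S n (S x)) at hx'
      rcases lt_max_iff.mp hx' with h3 | h3
      · exact absurd h3 (lt_irrefl _)
      · exact max_eq_right h3.le
    have h3 := MM_mono (g := g) (S := S) n (S x)
    rw [h2]
    linarith
  refine le_trans ?_ h1
  rw [integral_sub hi.integrableOn hi'.integrableOn]
  have h4 : ∫ x in E, MM g S (n + 1) x ∂μ = ∫ x, MM g S (n + 1) x ∂μ := by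
    rw [← integral_indicator hEm]
    refine integral_congr_ae (Eventually.of_forall fun x => ?_)
    by_cases hx : x ∈ E
    · exact indicator_of_mem hx _
    · rw [indicator_of_notMem hx]
      have : ¬ 0 < MM g S (n + 1) x := hx
      exact (le_antisymm (not_lt.mp this) (MM_nonneg _ _)).symm
  have h5 : ∫ x in E, MM g S (n + 1) (S x) ∂μ ≤ ∫ x, MM g S (n + 1) (S x) ∂μ :=
    setIntegral_le_integral hi' (Eventually.of_forall fun x => MM_nonneg _ _)
  have h6 : ∫ x, MM g S (n + 1) (S x) ∂μ = ∫ x, MM g S (n + 1) x ∂μ := by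
    have := integral_map hS.measurable.aemeasurable
      (f := MM g S (n + 1)) (by rw [hS.map_eq]; exact hm.aestronglyMeasurable)
    rw [hS.map_eq] at this
    exact this.symm
  linarith

end MaxIneq

open MaxIneq in
/-- **Block MAX.** -/
theorem maxIneq : MaxIneqStmt := by
  intro X _ μ _ S hS Z hZ θ hθ
  set g : X → ℝ := fun x => Z.indicator (fun _ => (1:ℝ)) x - θ with hg
  have hgm : Measurable g := (measurable_const.indicator hZ).sub measurable_const
  have hind : ∀ x, Z.indicator (fun _ => (1:ℝ)) x ≤ 1 := fun x =>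
    indicator_le_self' (fun _ _ => zero_le_one) x
  have hind0 : ∀ x, 0 ≤ Z.indicator (fun _ => (1:ℝ)) x := fun x =>
    indicator_nonneg (fun _ _ => zero_le_one) x
  have hgi : Integrable g μ := by
    refine Integrable.of_bound hgm.aestronglyMeasurable (1 + θ) (Eventually.of_forall fun x => ?_)
    rw [Real.norm_eq_abs, abs_le]
    constructor <;> simp only [hg] <;> linarith [hind x, hind0 x]
  have hg1 : ∀ x, g x ≤ 1 := fun x => by simp only [hg]; linarith [hind x]
  have hsub : {x | ∃ n : ℕ, θ * n < ∑ j ∈ Finset.range n, Z.indicator (fun _ => (1:ℝ)) (S^[j] x)} ⊆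
      ⋃ n : ℕ, {x | 0 < MM g S (n + 1) x} := by
    rintro x ⟨n, hn⟩
    refine mem_iUnion.mpr ⟨n, ?_⟩
    have h1 := sum_le_MM (g := g) (S := S) n x
    have h2 := MM_mono (g := g) (S := S) n x
    have h3 : ∑ j ∈ Finset.range n, g (S^[j] x) =
        (∑ j ∈ Finset.range n, Z.indicator (fun _ => (1:ℝ)) (S^[j] x)) - θ * n := by
      simp only [hg, Finset.sum_sub_distrib, Finset.sum_const, Finset.card_range, nsmul_eq_mul]
      ring
    change 0 < MM g S (n + 1) x
    linarith
  have hmono : Monotone fun n : ℕ => {x | 0 < MM g S (n + 1) x} := by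
    refine monotone_nat_of_le_succ fun n x hx => ?_
    exact lt_of_lt_of_le hx (MM_mono (n + 1) x)
  refine (measure_mono hsub).trans ?_
  rw [hmono.measure_iUnion]
  refine iSup_le fun n => ?_
  have hga := garsia hS hgm hgi zero_le_one hg1 n
  set E : Set X := {x | 0 < MM g S (n + 1) x} with hE
  have hEm : MeasurableSet E :=
    measurableSet_lt measurable_const (measurable_MM hgm hS.measurable (n + 1))
  have h1 : ∫ x in E, g x ∂μ = μ.real (Z ∩ E) - θ * μ.real E := by
    simp only [hg]
    rw [integral_sub]
    · rw [integral_const, smul_eq_mul, integral_indicator hZ, integral_const, smul_eq_mul, mul_one,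
        measureReal_restrict_apply_univ, measureReal_restrict_apply_univ, measureReal_def,
        Measure.restrict_apply hZ, ← measureReal_def]
      ring
    · exact ((integrable_const (1:ℝ)).indicator hZ)
    · exact integrable_const _
  rw [h1] at hga
  have h2 : μ.real (Z ∩ E) ≤ μ.real Z := measureReal_mono inter_subset_left
  have h3 : θ * μ.real E ≤ μ.real Z := by linarith
  rw [ENNReal.le_div_iff_mul_le (Or.inl (by simpa using hθ)) (Or.inl ENNReal.ofReal_ne_top)]
  have h4 : μ E * ENNReal.ofReal θ = ENNReal.ofReal (θ * μ.real E) := by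
    rw [ENNReal.ofReal_mul hθ.le, mul_comm, measureReal_def, ENNReal.ofReal_toReal
      (measure_ne_top _ _)]
  rw [h4]
  calc ENNReal.ofReal (θ * μ.real E) ≤ ENNReal.ofReal (μ.real Z) := ENNReal.ofReal_le_ofReal h3
    _ = μ Z := by rw [measureReal_def, ENNReal.ofReal_toReal (measure_ne_top _ _)]

end Vale.Agent.P032.T
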