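import Vale.Agent.P032.T.Gauss

/-! P032, transfer principle: block RIG. -/

open Set Filter Topology
open Vale.Agent.P032.T.Ga

namespace Vale.Agent.P032.T

/-- the subgroup on which a character agrees with `ex (Re (lam z))` -/
def eqSub {Γ : Type} [AddCommGroup Γ] (j : Γ →+ ℂ) (χ : Γ → Circle) (hχ : IsChar χ) (lam : ℂ) :
    AddSubgroup Γ where
  carrier := {z | χ z = ex (lam * j z).re}
  zero_mem' := by
    simp only [Set.mem_ofPred_eq, map_zero, mul_zero, Complex.zero_re, ex_zero, char_zero hχ]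
  add_mem' := by
    intro x y hx hy
    simp only [Set.mem_ofPred_eq] at *
    rw [hχ, hx, hy, map_add, mul_add, Complex.add_re, ex_add]
  neg_mem' := by
    intro x hx
    simp only [Set.mem_ofPred_eq] at *
    rw [char_neg hχ, hx, map_neg, mul_neg, Complex.neg_re, ex_neg]

theorem mem_eqSub {Γ : Type} [AddCommGroup Γ] (j : Γ →+ ℂ) (χ : Γ → Circle) (hχ : IsChar χ)
    (lam : ℂ) (z : Γ) : z ∈ eqSub j χ hχ lam ↔ χ z = ex (lam * j z).re := Iff.rfl

theorem exists_pre {Γ : Type} [AddCommGroup Γ] (j : Γ →+ ℂ) (hj : range j = RRset)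
    (g : GaussianInt) (n : ℕ) : ∃ z : Γ, j z * (2 - Complex.I) ^ n = g := by
  have hne : ((2 - Complex.I : ℂ)) ^ n ≠ 0 := pow_ne_zero n two_sub_I_ne
  have h : ((g : ℂ) / (2 - Complex.I) ^ n) ∈ RRset := by
    refine ⟨g, gpb ^ n, not_gp_dvd_gpb_pow n, ?_⟩
    rw [map_pow, coe_gpb, div_mul_cancel₀ _ hne]
  rw [← hj] at h
  obtain ⟨z, hz⟩ := h
  exact ⟨z, by rw [hz, div_mul_cancel₀ _ hne]⟩

theorem dual_bound {Γ : Type} [AddCommGroup Γ] (j : Γ →+ ℂ) (hj : range j = RRset)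
    (n : ℕ) (ζ : ℂ)
    (h : ∀ (z : Γ) (g : GaussianInt), j z * (2 - Complex.I) ^ n = g → ex (ζ * j z).re = 1) :
    ζ = 0 ∨ Real.sqrt 5 ^ n ≤ ‖ζ‖ := by
  have hne : ((2 - Complex.I : ℂ)) ^ n ≠ 0 := pow_ne_zero n two_sub_I_ne
  by_cases hζ : ζ = 0
  · exact Or.inl hζ
  right
  set w : ℂ := ζ / (2 - Complex.I) ^ n with hw
  have hζw : ζ = w * (2 - Complex.I) ^ n := by rw [hw, div_mul_cancel₀ _ hne]
  have hw0 : w ≠ 0 := div_ne_zero hζ hne
  obtain ⟨z1, hz1⟩ := exists_pre j hj 1 n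
  obtain ⟨z2, hz2⟩ := exists_pre j hj ⟨0, 1⟩ n
  have e1 := h z1 1 hz1
  have e2 := h z2 ⟨0, 1⟩ hz2
  have a1 : ζ * j z1 = w := by
    rw [hζw, mul_assoc, mul_comm ((2 - Complex.I) ^ n), hz1]
    simp
  have a2 : ζ * j z2 = w * Complex.I := by
    rw [hζw, mul_assoc, mul_comm ((2 - Complex.I) ^ n), hz2]
    simp [GaussianInt.toComplex_def]
  rw [a1, ex_eq_one_iff] at e1
  rw [a2, ex_eq_one_iff] at e2
  obtain ⟨p, hp⟩ := e1
  obtain ⟨q, hq⟩ := e2
  have hq' : w.im = -q := by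
    have : (w * Complex.I).re = - w.im := by simp
    rw [this] at hq
    linarith
  have hone : 1 ≤ ‖w‖ := by
    by_cases hp0 : p = 0
    · have hq0 : q ≠ 0 := by
        intro hq0
        apply hw0
        apply Complex.ext
        · rw [hp, hp0]; simp
        · rw [hq', hq0]; simp
      have : (1 : ℝ) ≤ |w.im| := by
        rw [hq', abs_neg]
        exact_mod_cast Int.one_le_abs hq0
      exact this.trans (Complex.abs_im_le_norm w)
    · have : (1 : ℝ) ≤ |w.re| := by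
        rw [hp]
        exact_mod_cast Int.one_le_abs hp0
      exact this.trans (Complex.abs_re_le_norm w)
  rw [hζw, norm_mul, norm_pow, norm_two_sub_I]
  have : (0:ℝ) ≤ Real.sqrt 5 ^ n := by positivity
  nlinarith

theorem growth1 (C : ℝ) : ∀ᶠ n : ℕ in atTop,
    C * Real.exp ((1 / 10) * ((n + 1 : ℕ) : ℝ)) * (C * Real.exp ((1 / 10) * (n : ℝ))) +
      C * Real.exp ((1 / 10) * ((n + 1 : ℕ) : ℝ)) * (C * Real.exp ((1 / 10) * (n : ℝ)))
      < Real.sqrt 5 ^ n := by
  set r : ℝ := Real.exp (1 / 5) / Real.sqrt 5 with hr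
  have hs : 0 < Real.sqrt 5 := Real.sqrt_pos.2 (by norm_num)
  have hr0 : 0 ≤ r := by positivity
  have hr1 : r < 1 := by
    rw [hr, div_lt_one hs]
    have h1 : Real.exp (1 / 5) ≤ Real.exp (1 / 2) := Real.exp_le_exp.2 (by norm_num)
    have h2 : Real.exp (1 / 2) = Real.sqrt (Real.exp 1) := by
      rw [Real.exp_half]
    rw [h2] at h1
    refine h1.trans_lt (Real.sqrt_lt_sqrt (Real.exp_pos _).le ?_)
    have := Real.exp_one_lt_d9
    linarith
  have ht := (tendsto_pow_atTop_nhds_zero_of_lt_one hr0 hr1).const_mul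
    (2 * C ^ 2 * Real.exp (1 / 10))
  rw [mul_zero] at ht
  filter_upwards [ht.eventually (gt_mem_nhds (show (0:ℝ) < 1 by norm_num))] with n hn
  have h5 : 0 < Real.sqrt 5 ^ n := by positivity
  have hrn : r ^ n * Real.sqrt 5 ^ n = Real.exp ((1 / 5) * n) := by
    rw [hr, div_pow, div_mul_cancel₀ _ h5.ne', ← Real.exp_nat_mul]
    congr 1
    ring
  have hcalc : C * Real.exp ((1 / 10) * ((n + 1 : ℕ) : ℝ)) * (C * Real.exp ((1 / 10) * (n : ℝ))) +
      C * Real.exp ((1 / 10) * ((n + 1 : ℕ) : ℝ)) * (C * Real.exp ((1 / 10) * (n : ℝ)))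
      = 2 * C ^ 2 * Real.exp (1 / 10) * r ^ n * Real.sqrt 5 ^ n := by
    rw [mul_assoc _ (r ^ n), hrn]
    have e1 : Real.exp ((1 / 10) * ((n + 1 : ℕ) : ℝ)) = Real.exp (1 / 10) * Real.exp ((1 / 10) * n) := by
      rw [← Real.exp_add]; congr 1; push_cast; ring
    have e2 : Real.exp ((1 / 5) * (n : ℝ)) = Real.exp ((1 / 10) * n) * Real.exp ((1 / 10) * n) := by
      rw [← Real.exp_add]; congr 1; ring
    rw [e1, e2]
    ring
  rw [hcalc]
  nlinarith

theorem growth2 (C : ℝ) (n N1 : ℕ) : ∃ N : ℕ, N1 ≤ N ∧ n ≤ N ∧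
    C * Real.exp ((1 / 10) * (N : ℝ)) < (5 : ℝ) ^ (N - n) := by
  set r : ℝ := Real.exp (1 / 10) / 5 with hr
  have hr0 : 0 ≤ r := by positivity
  have hr1 : r < 1 := by
    rw [hr, div_lt_one (by norm_num)]
    have h1 : Real.exp (1 / 10) ≤ Real.exp 1 := Real.exp_le_exp.2 (by norm_num)
    have := Real.exp_one_lt_d9
    linarith
  have ht := (tendsto_pow_atTop_nhds_zero_of_lt_one hr0 hr1).const_mul (C * 5 ^ n)
  rw [mul_zero] at ht
  have hev := (ht.eventually (gt_mem_nhds (show (0:ℝ) < 1 by norm_num))).and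
    ((eventually_ge_atTop N1).and (eventually_ge_atTop n))
  obtain ⟨N, hN, hN1, hNn⟩ := hev.exists
  refine ⟨N, hN1, hNn, ?_⟩
  have h5 : (0:ℝ) < 5 ^ N := by positivity
  have h5n : (0:ℝ) < 5 ^ n := by positivity
  have hrn : r ^ N * 5 ^ N = Real.exp ((1 / 10) * N) := by
    rw [hr, div_pow, div_mul_cancel₀ _ h5.ne', ← Real.exp_nat_mul]
    congr 1
    ring
  have hsplit : (5 : ℝ) ^ N = 5 ^ (N - n) * 5 ^ n := by
    rw [← pow_add]; congr 1; omega
  have h1 : C * Real.exp ((1 / 10) * (N : ℝ)) * 5 ^ n = (C * 5 ^ n * r ^ N) * 5 ^ N := by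
    rw [← hrn]; ring
  have h2 : C * Real.exp ((1 / 10) * (N : ℝ)) * 5 ^ n < 5 ^ (N - n) * 5 ^ n := by
    rw [h1, ← hsplit]
    nlinarith
  exact lt_of_mul_lt_mul_right h2 h5n.le

theorem coprime_aux (m : ℤ) (hm : m ≠ 0) : ∃ (s : ℕ) (β : GaussianInt),
    (m : GaussianInt) = β * gpb ^ s ∧ (5 : ℤ) ^ s ∣ m ∧ IsCoprime gpb β := by
  have hf : FiniteMultiplicity (5 : ℤ) m := Int.finiteMultiplicity_iff.2 ⟨by norm_num, hm⟩
  obtain ⟨m', hm', hnd⟩ := hf.exists_eq_pow_mul_and_not_dvd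
  set s := multiplicity 5 m
  refine ⟨s, gp ^ s * (m' : GaussianInt), ?_, ⟨m', hm'⟩, ?_⟩
  · have h5 : ((5 : ℤ) : GaussianInt) = gp * gpb := by decide
    rw [hm', Int.cast_mul, Int.cast_pow, h5, mul_pow]
    ring
  · have hpr : Prime (5 : ℤ) := by norm_num
    have hc : IsCoprime (5 : ℤ) m' := (hpr.irreducible.coprime_iff_not_dvd).2 hnd
    have hc' : IsCoprime (((5 : ℤ)) : GaussianInt) (m' : GaussianInt) :=
      hc.map (Int.castRingHom GaussianInt)
    have h5 : ((5 : ℤ) : GaussianInt) = gp * gpb := by decide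
    rw [h5] at hc'
    have h1 : IsCoprime gpb (m' : GaussianInt) := hc'.of_mul_left_right
    have h2 : IsCoprime gpb (gp ^ s) := (isCoprime_gp_gpb.symm).pow_right
    exact h2.mul_right h1

theorem rig : RigStmt := by
  intro Γ _ j hjinj hj D hD C χ hχ hev
  -- choose the data
  rw [eventually_atTop] at hev
  obtain ⟨N0, hN0⟩ := hev
  choose! m ξ hm0 hmC hξC hlin using hN0
  have hlin' : ∀ n, N0 ≤ n → ∀ (z : Γ) (g : GaussianInt), j z * (2 - Complex.I) ^ n = g →
      χ (m n • z) = ex (ξ n * j z).re := by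
    intro n hn z g hz
    refine hlin n hn z ⟨D * g, ?_⟩
    rw [pow_zero, one_mul, map_mul, ← hz]
    ring
  have hχz : ∀ (a : ℤ) (z : Γ), j (a • z) = (a : ℂ) * j z := by
    intro a z
    rw [map_zsmul, zsmul_eq_mul]
  -- consistency
  obtain ⟨N2, hN2⟩ := eventually_atTop.1 (growth1 C)
  set N1 := max N0 N2 with hN1
  have hstep : ∀ n, N1 ≤ n → (m (n + 1) : ℂ) * ξ n = (m n : ℂ) * ξ (n + 1) := by
    intro n hn
    have hn0 : N0 ≤ n := (le_max_left _ _).trans hn
    have hn2 : N2 ≤ n := (le_max_right _ _).trans hn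
    have hdual := dual_bound j hj n ((m (n + 1) : ℂ) * ξ n - (m n : ℂ) * ξ (n + 1)) (by
      intro z g hz
      have h1 : χ (m n • (m (n + 1) • z)) = ex (ξ n * j (m (n + 1) • z)).re := by
        refine hlin' n hn0 _ ((m (n + 1) : GaussianInt) * g) ?_
        rw [hχz, mul_assoc, hz, map_mul]
        simp
      have hz' : j z * (2 - Complex.I) ^ (n + 1) = ((g * gpb : GaussianInt) : ℂ) := by
        rw [pow_succ, ← mul_assoc, hz, map_mul, coe_gpb]
      have h2 : χ (m (n + 1) • (m n • z)) = ex (ξ (n + 1) * j (m n • z)).re := by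
        refine hlin' (n + 1) (by omega) _ ((m n : GaussianInt) * (g * gpb)) ?_
        rw [hχz, mul_assoc, hz', map_mul (GaussianInt.toComplex) (m n : GaussianInt)]
        simp
      have hcomm : m n • (m (n + 1) • z) = m (n + 1) • (m n • z) := by
        rw [smul_smul, smul_smul, mul_comm]
      rw [hcomm] at h1
      have h3 : ex (ξ n * j (m (n + 1) • z)).re = ex (ξ (n + 1) * j (m n • z)).re := by
        rw [← h1, ← h2]
      rw [hχz, hχz] at h3
      have h4 : (((m (n + 1) : ℂ) * ξ n - (m n : ℂ) * ξ (n + 1)) * j z).re =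
          (ξ n * ((m (n + 1) : ℂ) * j z)).re + -(ξ (n + 1) * ((m n : ℂ) * j z)).re := by
        rw [← Complex.neg_re, ← Complex.add_re]
        congr 1
        ring
      rw [h4, ex_add, ex_neg, h3, mul_inv_cancel])
    rcases hdual with h | h
    · exact sub_eq_zero.1 h
    · exfalso
      have hC : ‖(m (n + 1) : ℂ) * ξ n - (m n : ℂ) * ξ (n + 1)‖ ≤
          C * Real.exp ((1 / 10) * ((n + 1 : ℕ) : ℝ)) * (C * Real.exp ((1 / 10) * (n : ℝ))) +
          C * Real.exp ((1 / 10) * ((n + 1 : ℕ) : ℝ)) * (C * Real.exp ((1 / 10) * (n : ℝ))) := by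
        refine (norm_sub_le _ _).trans ?_
        rw [norm_mul, norm_mul]
        have b1 := hmC (n + 1) (by omega)
        have b2 := hmC n hn0
        have b3 := hξC (n + 1) (by omega)
        have b4 := hξC n hn0
        have c1 : ‖(m (n + 1) : ℂ)‖ = |((m (n + 1) : ℤ) : ℝ)| := by
          rw [Complex.norm_intCast]
        have c2 : ‖(m n : ℂ)‖ = |((m n : ℤ) : ℝ)| := by
          rw [Complex.norm_intCast]
        rw [c1, c2]
        have p1 : 0 ≤ C * Real.exp ((1 / 10) * ((n + 1 : ℕ) : ℝ)) := (abs_nonneg _).trans b1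
        have p2 : 0 ≤ C * Real.exp ((1 / 10) * (n : ℝ)) := (abs_nonneg _).trans b2
        refine add_le_add (mul_le_mul b1 b4 (norm_nonneg _) p1) ?_
        rw [mul_comm (C * Real.exp ((1 / 10) * ((n + 1 : ℕ) : ℝ)))]
        exact mul_le_mul b2 b3 (norm_nonneg _) p2
      exact absurd (hN2 n hn2) (not_lt.2 (h.trans hC))
  set lam : ℂ := ξ N1 / (m N1 : ℂ) with hlam
  have hmne : ∀ n, N1 ≤ n → (m n : ℂ) ≠ 0 := by
    intro n hn
    exact_mod_cast hm0 n ((le_max_left _ _).trans hn)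
  have hξ : ∀ n, N1 ≤ n → ξ n = lam * (m n : ℂ) := by
    intro n hn
    induction n, hn using Nat.le_induction with
    | base => rw [hlam, div_mul_cancel₀ _ (hmne N1 le_rfl)]
    | succ n hn ih =>
      have h1 := hstep n hn
      rw [ih] at h1
      have h2 := hmne n hn
      have h3 : (m n : ℂ) * ξ (n + 1) = (m n : ℂ) * (lam * (m (n + 1) : ℂ)) := by
        rw [← h1]; ring
      exact mul_left_cancel₀ h2 h3
  -- the subgroup
  set S := eqSub j χ hχ lam with hS
  set A : AddSubgroup ℂ := S.map j with hA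
  have F1 : ∀ n, N1 ≤ n → ∀ g : GaussianInt,
      (((m n : GaussianInt) * g : GaussianInt) : ℂ) / (2 - Complex.I) ^ n ∈ A := by
    intro n hn g
    have hne : ((2 - Complex.I : ℂ)) ^ n ≠ 0 := pow_ne_zero n two_sub_I_ne
    obtain ⟨z, hz⟩ := exists_pre j hj g n
    refine ⟨m n • z, ?_, ?_⟩
    · show m n • z ∈ S
      rw [hS, mem_eqSub, hlin' n ((le_max_left _ _).trans hn) z g hz, hχz, hξ n hn]
      congr 2
      ring
    · rw [hχz, eq_div_iff hne, mul_assoc, hz, map_mul]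
      simp
  have hmain : ∀ n, N1 ≤ n → ∀ g : GaussianInt,
      (((m N1 : GaussianInt) * g : GaussianInt) : ℂ) / (2 - Complex.I) ^ n ∈ A := by
    intro n hn
    induction n, hn using Nat.le_induction with
    | base => exact F1 N1 le_rfl
    | succ n hn ih =>
      intro g
      obtain ⟨N, hNN1, hNn, hNlt⟩ := growth2 C (n + 1) N1
      obtain ⟨s, β, hβ, hdvd, hcop⟩ := coprime_aux (m N) (hm0 N ((le_max_left _ _).trans hNN1))
      have hs : s + (n + 1) ≤ N := by
        have h1 : (5 : ℝ) ^ s ≤ |(m N : ℝ)| := by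
          have := Int.le_of_dvd (abs_pos.2 (hm0 N ((le_max_left _ _).trans hNN1)))
            ((dvd_abs _ _).2 hdvd)
          exact_mod_cast this
        have h2 : (5 : ℝ) ^ s < 5 ^ (N - (n + 1)) :=
          (h1.trans (hmC N ((le_max_left _ _).trans hNN1))).trans_lt hNlt
        have h3 : s < N - (n + 1) := (pow_lt_pow_iff_right₀ (by norm_num)).1 h2
        omega
      obtain ⟨u, v, huv⟩ := hcop
      have hne : ∀ k : ℕ, ((2 - Complex.I : ℂ)) ^ k ≠ 0 := fun k => pow_ne_zero k two_sub_I_ne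
      -- β g / gpb^(n+1) ∈ A
      have hβA : ∀ g : GaussianInt, ((β * g : GaussianInt) : ℂ) / (2 - Complex.I) ^ (n + 1) ∈ A := by
        intro g
        have h := F1 N hNN1 (g * gpb ^ (N - s - (n + 1)))
        have heq : (((m N : GaussianInt) * (g * gpb ^ (N - s - (n + 1))) : GaussianInt) : ℂ) /
            (2 - Complex.I) ^ N = ((β * g : GaussianInt) : ℂ) / (2 - Complex.I) ^ (n + 1) := by
          rw [div_eq_div_iff (hne N) (hne (n + 1)), hβ]
          simp only [map_mul, map_pow, coe_gpb]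
          have : (2 - Complex.I : ℂ) ^ N = (2 - Complex.I) ^ s * (2 - Complex.I) ^ (N - s - (n + 1)) *
              (2 - Complex.I) ^ (n + 1) := by
            rw [← pow_add, ← pow_add]; congr 1; omega
          rw [this]
          ring
        rw [heq] at h
        exact h
      have hdec : (((m N1 : GaussianInt) * g : GaussianInt) : ℂ) / (2 - Complex.I) ^ (n + 1) =
          ((β * ((m N1 : GaussianInt) * v * g) : GaussianInt) : ℂ) / (2 - Complex.I) ^ (n + 1) +
          (((m N1 : GaussianInt) * (u * g) : GaussianInt) : ℂ) / (2 - Complex.I) ^ n := by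
        have h1 : (((m N1 : GaussianInt) * (u * g) : GaussianInt) : ℂ) / (2 - Complex.I) ^ n =
            (((m N1 : GaussianInt) * (u * g) * gpb : GaussianInt) : ℂ) / (2 - Complex.I) ^ (n + 1) := by
          rw [div_eq_div_iff (hne n) (hne (n + 1)), map_mul _ _ gpb, coe_gpb]
          ring
        rw [h1, ← add_div, ← map_add]
        congr 2
        linear_combination (-(m N1 : GaussianInt) * g) * huv
      rw [hdec]
      exact A.add_mem (hβA _) (ih _)
  -- all of G0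
  have hG0 : ∀ y : Γ, j y ∈ G0 → (m N1) • y ∈ S := by
    rintro y ⟨g, n, hy⟩
    have hne : ∀ k : ℕ, ((2 - Complex.I : ℂ)) ^ k ≠ 0 := fun k => pow_ne_zero k two_sub_I_ne
    have h := hmain (N1 + n) (Nat.le_add_right _ _) (g * gpb ^ N1)
    obtain ⟨z, hz, hjz⟩ := h
    have hzy : z = m N1 • y := by
      apply hjinj
      rw [hjz, hχz, div_eq_iff (hne _)]
      simp only [map_mul, map_pow, coe_gpb, ← hy]
      rw [pow_add]
      simp
      ring
    rw [← hzy]
    exact hz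
  -- conclusion
  refine ⟨(m N1).natAbs, Int.natAbs_pos.2 (hm0 N1 (le_max_left _ _)), ?_⟩
  have hlin2 : ∀ y : Γ, j y ∈ G0 →
      χ ((m N1).natAbs • y) = ex (lam * (((m N1).natAbs : ℂ) * j y)).re := by
    intro y hy
    have h1 : ((m N1).natAbs) • y ∈ S := by
      have h2 := hG0 y hy
      rcases Int.natAbs_eq (m N1) with h | h
      · rw [h] at h2
        rwa [natCast_zsmul] at h2
      · rw [h, neg_smul, natCast_zsmul] at h2
        have := S.neg_mem h2
        rwa [neg_neg] at this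
    rw [hS, mem_eqSub] at h1
    rw [h1, map_nsmul, nsmul_eq_mul]
  intro ε hε
  set K : ℝ := 2 * Real.pi * (‖lam‖ * ((m N1).natAbs : ℝ)) with hK
  have hK0 : 0 ≤ K := by positivity
  refine ⟨ε / (K + 1), by positivity, ?_⟩
  intro y hy hyn
  rw [hlin2 y hy]
  refine (dist_ex_one_le _).trans_lt ?_
  have h1 : |(lam * (((m N1).natAbs : ℂ) * j y)).re| ≤ ‖lam‖ * ((m N1).natAbs : ℝ) * ‖j y‖ := by
    refine (Complex.abs_re_le_norm _).trans ?_
    rw [norm_mul, norm_mul, Complex.norm_natCast, mul_assoc]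
  have h2 : 2 * Real.pi * |(lam * (((m N1).natAbs : ℂ) * j y)).re| ≤ K * ‖j y‖ := by
    have hpi : 0 ≤ 2 * Real.pi := by positivity
    calc 2 * Real.pi * |(lam * (((m N1).natAbs : ℂ) * j y)).re|
        ≤ 2 * Real.pi * (‖lam‖ * ((m N1).natAbs : ℝ) * ‖j y‖) :=
          mul_le_mul_of_nonneg_left h1 hpi
      _ = K * ‖j y‖ := by rw [hK]; ring
  refine h2.trans_lt ?_
  have h3 : (K + 1) * ‖j y‖ < ε := by
    have := (lt_div_iff₀ (by positivity : (0:ℝ) < K + 1)).1 hyn
    linarith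
  have h4 : 0 ≤ ‖j y‖ := norm_nonneg _
  nlinarith

end Vale.Agent.P032.T
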