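import Vale.Agent.P032.T.ThmA1
import Vale.Agent.P032.T.ThBC
import Vale.Agent.P032.T.MaxIneq
import Vale.Agent.P032.T.Name
import Vale.Agent.P032.T.Rig

/-!
P032 transfer, block THMA: assembly.
-/

open MeasureTheory Set Filter Topology
open scoped ENNReal

namespace Vale.Agent.P032.T

/-- the map `χ ↦ χ (a ·)` -/
def shf {Γ : Type} [CommRing Γ] (a : Γ) : (Γ → Circle) → (Γ → Circle) := fun χ y => χ (a * y)

theorem shf_iter {Γ : Type} [CommRing Γ] (a : Γ) (l : ℕ) (χ : Γ → Circle) :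
    (shf a)^[l] χ = fun y => χ (a ^ l * y) := by
  induction l generalizing χ with
  | zero => ext y; simp
  | succ l ih =>
    rw [Function.iterate_succ_apply, ih]
    ext y
    simp [shf, pow_succ', mul_assoc]

theorem measurable_shf {Γ : Type} [CommRing Γ] (a : Γ) : Measurable (shf a) :=
  measurable_pi_iff.2 fun y => measurable_pi_apply (a * y)

/-- the conclusion of Theorem A for one character -/
def Concl {Γ : Type} [CommRing Γ] (j : Γ →+* ℂ) (χ : Γ → Circle) : Prop :=
  ∃ o : ℕ, 0 < o ∧ ∀ ε : ℝ, 0 < ε → ∃ δ : ℝ, 0 < δ ∧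
    ∀ y : Γ, j y ∈ G0 → ‖j y‖ < δ → dist (χ (o • y)) 1 < ε

theorem thmA_of (hhost : HostStmt) (happrox : ApproxStmt) (hcell : CellStmt)
    (hgrowth : GrowthStmt) : ThmAStmt := by
  classical
  intro Γ _ _ j hj hr μ _ hchar hinv
  obtain ⟨a, Xc, ha, hXc, hinvX, hzero, F, hF, hFe⟩ := hhost Γ j hj hr μ hchar hinv
  refine ⟨Xc, hXc, hzero, ?_⟩
  have hna : ‖j a‖ = 1 := by rw [ha]; exact Name.norm_aC
  have hS : MeasurePreserving (shf a) μ μ := hinv a hna
  -- the almost sure properties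
  have hP : ∀ᵐ χ ∂μ, IsChar χ ∧ ∀ l : ℕ, χ ∉ Xc →
      χ (a ^ l) = F (fun y => χ (a ^ (l + 1) * y)) := by
    have h1 : ∀ l : ℕ, ∀ᵐ χ ∂μ, (χ ∉ Xc ↔ (shf a)^[l] χ ∉ Xc) := by
      intro l
      induction l with
      | zero => exact Eventually.of_forall fun χ => by simp
      | succ l ih =>
        have h2 := (hS.iterate l).quasiMeasurePreserving.ae hinvX
        filter_upwards [ih, h2] with χ h3 h4
        rw [h3, Function.iterate_succ_apply']
        exact not_congr h4
    have h2 : ∀ l : ℕ, ∀ᵐ χ ∂μ, (shf a)^[l] χ ∉ Xc →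
        ((shf a)^[l] χ) 1 = F (fun y => ((shf a)^[l] χ) (a * y)) := fun l =>
      (hS.iterate l).quasiMeasurePreserving.ae hFe
    filter_upwards [hchar, ae_all_iff.2 h1, ae_all_iff.2 h2] with χ h3 h4 h5
    refine ⟨h3, fun l hχ => ?_⟩
    have h6 := h5 l ((h4 l).1 hχ)
    rw [shf_iter] at h6
    simp only [mul_one] at h6
    rw [h6]
    congr 1
    ext y
    rw [pow_succ, mul_assoc]
  obtain ⟨t, htP, htm, ht0⟩ := exists_measurable_superset_of_null hP
  -- it suffices to find a small exceptional set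
  have key : ∀ τ : ℝ, 0 < τ → ∃ Bt : Set (Γ → Circle), μ Bt ≤ ENNReal.ofReal τ ∧
      ∀ᵐ χ ∂μ, χ ∉ Xc → χ ∉ Bt → Concl j χ := by
    intro τ hτ
    -- parameters
    obtain ⟨K, lab, hlabm, hlab⟩ := exists_label (r := 1 / 2) (by norm_num)
    obtain ⟨θ, hθ, hcount⟩ := count_names K (κ := 1 / 40) (by norm_num)
    obtain ⟨Y₀, δ₂, Z0, hδ₂, hZ0m, hZ0, hZ0F⟩ := happrox Γ μ F hF (1 / 2) (by norm_num) (τ * θ)
      (by positivity)
    obtain ⟨D, ρ', hD, hρ', hcellD⟩ := hcell Γ j hj hr a ha F Y₀ δ₂ Z0 hδ₂ hZ0F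
    obtain ⟨K', lab', hlabm', hlab'⟩ := exists_label hρ'
    obtain ⟨C, hC⟩ := hgrowth Γ j hj hr μ hinv D hD
    have hD0 : (D : ℂ) ≠ 0 := Name.coe_ne_zero (Name.ne_zero_of_not_dvd hD)
    let Z : Set (Γ → Circle) := (shf a) ⁻¹' Z0
    have hZm : MeasurableSet Z := measurable_shf a hZ0m
    have hZμ : μ Z ≤ ENNReal.ofReal (τ * θ) := by
      rw [hS.measure_preimage hZ0m.nullMeasurableSet]; exact hZ0
    let B : Set (Γ → Circle) := {x | ∃ n : ℕ, θ * n < ∑ l ∈ Finset.range n,
      Z.indicator (fun _ => (1:ℝ)) ((shf a)^[l] x)}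
    have hB : μ B ≤ ENNReal.ofReal τ := by
      refine (maxIneq _ μ (shf a) hS Z hZm θ hθ).trans ?_
      rw [ENNReal.div_le_iff_le_mul (Or.inl (by simp [hθ])) (Or.inl ENNReal.ofReal_ne_top),
        ← ENNReal.ofReal_mul hτ.le]
      exact hZμ
    let B' := toMeasurable μ B
    refine ⟨B', by rw [measure_toMeasurable]; exact hB, ?_⟩
    let G : Set (Γ → Circle) := tᶜ ∩ Xcᶜ ∩ B'ᶜ
    have hGm : MeasurableSet G :=
      (htm.compl.inter hXc.compl).inter (measurableSet_toMeasurable μ B).compl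
    have hGP : ∀ χ ∈ G, IsChar χ ∧ ∀ l : ℕ, χ (a ^ l) = F (fun y => χ (a ^ (l + 1) * y)) := by
      intro χ hχ
      have h1 : χ ∉ t := hχ.1.1
      have h2 : IsChar χ ∧ ∀ l : ℕ, χ ∉ Xc → χ (a ^ l) = F (fun y => χ (a ^ (l + 1) * y)) := by
        by_contra h
        exact h1 (htP h)
      exact ⟨h2.1, fun l => h2.2 l hχ.1.2⟩
    -- names
    let y1 : ℕ → Γ := fun n => if h : ∃ y, j y * D = aC ^ n then h.choose else 0
    let y2 : ℕ → Γ := fun n => if h : ∃ y, j y * D = Complex.I * aC ^ n then h.choose else 0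
    have hy1 : ∀ n (y : Γ), j y * D = aC ^ n → y = y1 n := by
      intro n y hy
      have h : ∃ y, j y * D = aC ^ n := ⟨y, hy⟩
      have h1 : y1 n = h.choose := dif_pos h
      rw [h1]
      apply hj
      exact mul_right_cancel₀ hD0 (hy.trans h.choose_spec.symm)
    have hy2 : ∀ n (y : Γ), j y * D = Complex.I * aC ^ n → y = y2 n := by
      intro n y hy
      have h : ∃ y, j y * D = Complex.I * aC ^ n := ⟨y, hy⟩
      have h1 : y2 n = h.choose := dif_pos h
      rw [h1]
      apply hj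
      exact mul_right_cancel₀ hD0 (hy.trans h.choose_spec.symm)
    let nu : ∀ n : ℕ, (Γ → Circle) → Fin n → Option (Fin K) := fun n χ l =>
      if (shf a)^[(l : ℕ)] χ ∈ Z then some (lab (χ (a ^ (l : ℕ)))) else none
    let N : ∀ n : ℕ, (Γ → Circle) → (Fin n → Option (Fin K)) × (Fin K' × Fin K') := fun n χ =>
      (nu n χ, (lab' (χ (y1 n)), lab' (χ (y2 n))))
    let Sn : ∀ n : ℕ, Finset ((Fin n → Option (Fin K)) × (Fin K' × Fin K')) := fun n =>
      (Finset.univ.filter (fun ν : Fin n → Option (Fin K) =>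
      ((Finset.univ.filter (fun l => ν l ≠ none)).card : ℝ) ≤ θ * n)) ×ˢ Finset.univ
    have hNm : ∀ n (b : (Fin n → Option (Fin K)) × (Fin K' × Fin K')),
        MeasurableSet (N n ⁻¹' {b}) := by
      intro n b
      let _ : MeasurableSpace (Option (Fin K)) := ⊤
      have : DiscreteMeasurableSpace (Option (Fin K)) := ⟨fun _ => trivial⟩
      have h1 : Measurable (nu n) := by
        refine measurable_pi_iff.2 fun l => ?_
        refine Measurable.ite (((measurable_shf a).iterate l) hZm) ?_ measurable_const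
        have h2 : Measurable (fun z : Fin K => (some z : Option (Fin K))) := measurable_of_countable _
        exact h2.comp (hlabm.comp (measurable_pi_apply _))
      have h2 : Measurable (N n) := h1.prodMk
        ((hlabm'.comp (measurable_pi_apply _)).prodMk (hlabm'.comp (measurable_pi_apply _)))
      exact h2 (measurableSet_singleton b)
    have hNS : ∀ n, ∀ χ ∈ G, N n χ ∈ Sn n := by
      intro n χ hχ
      refine Finset.mem_product.2 ⟨Finset.mem_filter.2 ⟨Finset.mem_univ _, ?_⟩, Finset.mem_univ _⟩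
      have h1 : χ ∉ B := fun h => hχ.2 (subset_toMeasurable μ B h)
      have h2 : ∑ l ∈ Finset.range n, Z.indicator (fun _ => (1:ℝ)) ((shf a)^[l] χ) ≤ θ * n := by
        by_contra h
        exact h1 ⟨n, not_le.1 h⟩
      refine le_trans (le_of_eq ?_) h2
      rw [← Fin.sum_univ_eq_sum_range (fun l => Z.indicator (fun _ => (1:ℝ)) ((shf a)^[l] χ)),
        Finset.card_filter]
      push_cast
      refine Finset.sum_congr rfl fun l _ => ?_
      by_cases hz : (shf a)^[(l : ℕ)] χ ∈ Z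
      · have : nu n χ l = some (lab (χ (a ^ (l : ℕ)))) := if_pos hz
        simp [N, this, hz]
      · have : nu n χ l = none := if_neg hz
        simp [N, this, hz]
    have hcard : ∀ n, ((Sn n).card : ℝ) ≤ (K' * K' : ℝ) * Real.exp ((1 / 40) * n) := by
      intro n
      simp only [Sn, Finset.card_product]
      push_cast
      rw [mul_comm]
      have h1 : ((Finset.univ : Finset (Fin K' × Fin K')).card : ℝ) = K' * K' := by
        simp [Finset.card_univ]
      rw [h1]
      exact mul_le_mul_of_nonneg_left (hcount n) (by positivity)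
    have hbc := bc _ μ _ N G Sn _ hNm hGm hNS hcard
    filter_upwards [hbc, compl_mem_ae_iff.2 ht0] with χ hχ hχt hχX hχB
    have hχG : χ ∈ G := ⟨⟨hχt, hχX⟩, hχB⟩
    have hev := hχ hχG
    have hrig' := rig Γ (j : Γ →+ ℂ) hj hr D (Name.ne_zero_of_not_dvd hD) C χ (hGP χ hχG).1
    apply hrig'
    filter_upwards [hev] with n hn
    refine hC n (G ∩ N n ⁻¹' {N n χ}) (hGm.inter (hNm n _)) hn (fun χ' h => (hGP χ' h.1).1) ?_ χ
      ⟨hχG, rfl⟩
    rintro χ1 ⟨h1G, h1N⟩ χ2 ⟨h2G, h2N⟩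
    have hN12 : N n χ1 = N n χ2 := by
      rw [mem_preimage, mem_singleton_iff] at h1N h2N
      rw [h1N, h2N]
    have hnu : nu n χ1 = nu n χ2 := congrArg Prod.fst hN12
    have hl1 : lab' (χ1 (y1 n)) = lab' (χ2 (y1 n)) := congrArg (fun z => z.2.1) hN12
    have hl2 : lab' (χ1 (y2 n)) = lab' (χ2 (y2 n)) := congrArg (fun z => z.2.2) hN12
    refine hcellD n χ1 χ2 (hGP χ1 h1G).1 (hGP χ2 h2G).1 ?_ ?_ ?_
    · intro y hy
      rw [hy1 n y hy]
      exact hlab' _ _ hl1
    · intro y hy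
      rw [hy2 n y hy]
      exact hlab' _ _ hl2
    · intro l hl
      have hnl : nu n χ1 ⟨l, hl⟩ = nu n χ2 ⟨l, hl⟩ := congrFun hnu _
      by_cases hz1 : (shf a)^[l] χ1 ∈ Z
      · have e1 : nu n χ1 ⟨l, hl⟩ = some (lab (χ1 (a ^ l))) := if_pos hz1
        by_cases hz2 : (shf a)^[l] χ2 ∈ Z
        · have e2 : nu n χ2 ⟨l, hl⟩ = some (lab (χ2 (a ^ l))) := if_pos hz2
          left
          rw [e1, e2] at hnl
          exact (hlab _ _ (Option.some_injective _ hnl)).le
        · have e2 : nu n χ2 ⟨l, hl⟩ = none := if_neg hz2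
          rw [e1, e2] at hnl
          exact absurd hnl (by simp)
      · have e1 : nu n χ1 ⟨l, hl⟩ = none := if_neg hz1
        by_cases hz2 : (shf a)^[l] χ2 ∈ Z
        · have e2 : nu n χ2 ⟨l, hl⟩ = some (lab (χ2 (a ^ l))) := if_pos hz2
          rw [e1, e2] at hnl
          exact absurd hnl (by simp)
        · right
          have e3 : ∀ χ' : Γ → Circle, (shf a)^[l] χ' ∉ Z →
              (fun y => χ' (a ^ (l + 1) * y)) ∉ Z0 := by
            intro χ' h
            rw [← shf_iter, Function.iterate_succ_apply']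
            exact h
          exact ⟨(hGP χ1 h1G).2 l, (hGP χ2 h2G).2 l, e3 χ1 hz1, e3 χ2 hz2⟩
  -- conclusion
  rw [ae_iff]
  by_contra hne
  set Q : Set (Γ → Circle) := {χ | ¬ (χ ∉ Xc → Concl j χ)} with hQ
  have hfin : μ Q ≠ ∞ := measure_ne_top _ _
  have hpos : 0 < (μ Q).toReal := ENNReal.toReal_pos hne hfin
  obtain ⟨Bt, hBt, hae⟩ := key ((μ Q).toReal / 2) (by positivity)
  have h1 : μ Q ≤ μ Bt := by
    refine measure_mono_ae ?_
    filter_upwards [hae] with χ h
    intro hχ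
    by_contra hnB
    exact hχ (fun hX => h hX hnB)
  have h2 : μ Q ≤ ENNReal.ofReal ((μ Q).toReal / 2) := h1.trans hBt
  have h3 := ENNReal.toReal_mono ENNReal.ofReal_ne_top h2
  rw [ENNReal.toReal_ofReal (by positivity)] at h3
  linarith

end Vale.Agent.P032.T
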