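import Vale.Agent.P032.T.TT
import Vale.Agent.P032.T.Ring
import Vale.Agent.P032.T.Corr
import Vale.Agent.P032.T.Disc
import Vale.Agent.P032.T.Lim
import Vale.Agent.P032.T.ThmA
import Vale.Agent.P032.T.ThBC
import Vale.Agent.P032.T.Th1
import Vale.Agent.P032.T.Th2
import Vale.Agent.P032.T.Th4
import Vale.Agent.P032.T.Cell
import Vale.Agent.P032.M.Fin

/-!
P032: the transfer principle and the bound `6 ≤ χ(ℝ²)` for arbitrary colourings.
-/

open MeasureTheory Set Filter Topology

namespace Vale.Agent.P032.T

theorem thmA_final : ThmAStmt := thmA_of host approx cell growth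

theorem tStmt_final : TStmt := TT.tStmt_of thmA_final ring

/-- the transfer principle: a proper colouring of the plane gives a measurable almost everywhere
proper colouring with the same number of colours -/
theorem transfer {k : ℕ} (c : ℂ → Fin k) (hc : ∀ x y, dist x y = 1 → c x ≠ c y) :
    ∃ c' : ℂ → Fin k, Measurable c' ∧ M.Proper c' := by
  obtain ⟨d⟩ := corr k c hc
  obtain ⟨cn, hcn, has⟩ := disc k c d fun i =>
    tStmt_final (d.f i) (d.posDef i) (d.even i) (d.radial i) (d.unit i)
  exact lim k cn hcn has

theorem final : FinalStmt := by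
  intro k c hc
  obtain ⟨c', hc', hp⟩ := transfer c hc
  exact M.six_le c' hc' hp

end Vale.Agent.P032.T
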