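import Vale.Agent.P032.T.Defs

/-! P032, transfer principle: block MEAN (invariant means on countable abelian groups). -/

open Set Filter Topology

namespace Vale.Agent.P032.T

section Avg

variable {H : Type} [AddCommGroup H]

/-- average over `x, x + h, ..., x + N h` -/
noncomputable def avg1 (N : ℕ) (h : H) (f : H → ℝ) : H → ℝ :=
  fun x => (∑ k ∈ Finset.range (N + 1), f (x + k • h)) / ((N : ℝ) + 1)

/-- iterated averages -/
noncomputable def avgL (N : ℕ) : List H → (H → ℝ) → H → ℝ
  | [], f => f
  | h :: l, f => avg1 N h (avgL N l f)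

theorem avg1_add (N : ℕ) (h : H) (f g : H → ℝ) (x : H) :
    avg1 N h (fun x => f x + g x) x = avg1 N h f x + avg1 N h g x := by
  simp only [avg1]
  rw [← add_div, Finset.sum_add_distrib]

theorem avg1_smul (N : ℕ) (h : H) (r : ℝ) (f : H → ℝ) (x : H) :
    avg1 N h (fun x => r * f x) x = r * avg1 N h f x := by
  simp only [avg1]
  rw [← Finset.mul_sum, mul_div_assoc]

theorem avg1_nonneg (N : ℕ) (h : H) (f : H → ℝ) (hf : ∀ x, 0 ≤ f x) (x : H) :
    0 ≤ avg1 N h f x := by
  simp only [avg1]
  exact div_nonneg (Finset.sum_nonneg fun k _ => hf _) (by positivity)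

theorem avg1_const (N : ℕ) (h : H) (r : ℝ) (x : H) : avg1 N h (fun _ => r) x = r := by
  simp only [avg1, Finset.sum_const, Finset.card_range, nsmul_eq_mul]
  have : ((N : ℝ) + 1) ≠ 0 := by positivity
  field_simp
  push_cast
  ring

theorem avg1_abs_le (N : ℕ) (h : H) (f : H → ℝ) (C : ℝ) (hf : ∀ x, |f x| ≤ C) (x : H) :
    |avg1 N h f x| ≤ C := by
  simp only [avg1]
  have hN : (0:ℝ) < (N : ℝ) + 1 := by positivity
  rw [abs_div, abs_of_pos hN, div_le_iff₀ hN]
  refine (Finset.abs_sum_le_sum_abs _ _).trans ?_
  refine (Finset.sum_le_sum fun k _ => hf (x + k • h)).trans ?_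
  rw [Finset.sum_const, Finset.card_range, nsmul_eq_mul]
  push_cast
  linarith

theorem avgL_add (N : ℕ) (l : List H) (f g : H → ℝ) (x : H) :
    avgL N l (fun x => f x + g x) x = avgL N l f x + avgL N l g x := by
  induction l generalizing x with
  | nil => rfl
  | cons h l ih =>
    simp only [avgL]
    rw [← avg1_add]
    congr 1
    funext y
    exact ih y

theorem avgL_smul (N : ℕ) (l : List H) (r : ℝ) (f : H → ℝ) (x : H) :
    avgL N l (fun x => r * f x) x = r * avgL N l f x := by
  induction l generalizing x with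
  | nil => rfl
  | cons h l ih =>
    simp only [avgL]
    rw [← avg1_smul]
    congr 1
    funext y
    exact ih y

theorem avgL_nonneg (N : ℕ) (l : List H) (f : H → ℝ) (hf : ∀ x, 0 ≤ f x) (x : H) :
    0 ≤ avgL N l f x := by
  induction l generalizing x with
  | nil => exact hf x
  | cons h l ih => exact avg1_nonneg N h _ ih x

theorem avgL_one (N : ℕ) (l : List H) (x : H) : avgL N l (fun _ => (1 : ℝ)) x = 1 := by
  induction l generalizing x with
  | nil => rfl
  | cons h l ih =>
    simp only [avgL]
    have : avgL N l (fun _ => (1 : ℝ)) = fun _ => (1 : ℝ) := funext ih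
    rw [this, avg1_const]

theorem avgL_abs_le (N : ℕ) (l : List H) (f : H → ℝ) (C : ℝ) (hf : ∀ x, |f x| ≤ C) (x : H) :
    |avgL N l f x| ≤ C := by
  induction l generalizing x with
  | nil => exact hf x
  | cons h l ih => exact avg1_abs_le N h _ C ih x

theorem avg1_shift (N : ℕ) (h g : H) (f : H → ℝ) (x : H) :
    avg1 N h (fun x => f (x + g)) x = avg1 N h f (x + g) := by
  simp only [avg1]
  congr 1
  refine Finset.sum_congr rfl fun k _ => ?_
  congr 1
  abel

theorem avgL_shift (N : ℕ) (l : List H) (g : H) (f : H → ℝ) (x : H) :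
    avgL N l (fun x => f (x + g)) x = avgL N l f (x + g) := by
  induction l generalizing x with
  | nil => rfl
  | cons h l ih =>
    simp only [avgL]
    rw [← avg1_shift]
    congr 1
    funext y
    exact ih y

theorem avgL_near (N : ℕ) (l : List H) (g : H) (hg : g ∈ l) (f : H → ℝ) (C : ℝ)
    (hf : ∀ x, |f x| ≤ C) (x : H) :
    |avgL N l f (x + g) - avgL N l f x| ≤ 2 * C / ((N : ℝ) + 1) := by
  have hN : (0:ℝ) < (N : ℝ) + 1 := by positivity
  induction l generalizing x with
  | nil => simp at hg
  | cons h l ih =>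
    simp only [avgL]
    rcases List.mem_cons.1 hg with rfl | hg'
    · -- telescoping
      set F := avgL N l f with hF
      have hFC : ∀ x, |F x| ≤ C := avgL_abs_le N l f C hf
      have h1 : avg1 N g F (x + g) - avg1 N g F x
          = (F (x + (N + 1) • g) - F x) / ((N : ℝ) + 1) := by
        simp only [avg1]
        rw [← sub_div]
        congr 1
        have h2 : ∑ k ∈ Finset.range (N + 1), F (x + g + k • g)
            = ∑ k ∈ Finset.range (N + 1), F (x + (k + 1) • g) := by
          refine Finset.sum_congr rfl fun k _ => ?_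
          congr 1
          rw [add_smul, one_smul]
          abel
        rw [h2, ← Finset.sum_sub_distrib]
        have h3 := Finset.sum_range_sub (fun k => F (x + k • g)) (N + 1)
        rw [h3]
        simp
      rw [h1, abs_div, abs_of_pos hN]
      refine div_le_div_of_nonneg_right ?_ hN.le
      calc |F (x + (N + 1) • g) - F x| ≤ |F (x + (N + 1) • g)| + |F x| := abs_sub _ _
        _ ≤ 2 * C := by linarith [hFC (x + (N + 1) • g), hFC x]
    · have h1 : avg1 N h (avgL N l f) (x + g) - avg1 N h (avgL N l f) x =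
          avg1 N h (fun y => avgL N l f (y + g) + (-1) * avgL N l f y) x := by
        rw [avg1_add N h (fun y => avgL N l f (y + g)) (fun y => (-1) * avgL N l f y),
          avg1_smul, avg1_shift]
        ring
      rw [h1]
      refine avg1_abs_le N h _ _ (fun y => ?_) x
      have := ih hg' y
      rw [neg_one_mul, ← sub_eq_add_neg]
      exact this

end Avg

theorem mean : MeanStmt := by
  intro H _ _
  obtain ⟨e, he⟩ := exists_surjective_nat H
  -- the averages
  let A : ℕ → (H → ℝ) → ℝ := fun N f => avgL N ((List.range N).map e) f 0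
  let U : Ultrafilter ℕ := hyperfilter ℕ
  let M : (H → ℝ) → ℝ := fun f => limUnder (U : Filter ℕ) (fun N => A N f)
  have hlim : ∀ f, Bdd f → Tendsto (fun N => A N f) U (𝓝 (M f)) := by
    rintro f ⟨C, hC⟩
    have hmem : (Icc (-C) C) ∈ U.map (fun N => A N f) := by
      refine Ultrafilter.mem_map.2 (Filter.univ_mem' fun N => ?_)
      exact abs_le.1 (avgL_abs_le N _ f C hC 0)
    obtain ⟨x, -, hx⟩ := isCompact_Icc.ultrafilter_le_nhds _ (le_principal_iff.2 hmem)
    have : Tendsto (fun N => A N f) U (𝓝 x) := hx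
    exact tendsto_nhds_limUnder ⟨x, this⟩
  have huniq : ∀ f, Bdd f → ∀ x, Tendsto (fun N => A N f) U (𝓝 x) → M f = x := by
    intro f hf x hx
    exact tendsto_nhds_unique (hlim f hf) hx
  refine ⟨M, ?_, ?_, ?_, ?_, ?_⟩
  · intro f g hf hg
    refine huniq _ ?_ _ ?_
    · obtain ⟨C, hC⟩ := hf
      obtain ⟨D, hD⟩ := hg
      exact ⟨C + D, fun x => (abs_add_le _ _).trans (add_le_add (hC x) (hD x))⟩
    · have := (hlim f hf).add (hlim g hg)
      refine this.congr fun N => ?_
      exact (avgL_add N _ f g 0).symm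
  · intro r f hf
    refine huniq _ ?_ _ ?_
    · obtain ⟨C, hC⟩ := hf
      exact ⟨|r| * C, fun x => by rw [abs_mul]; exact mul_le_mul_of_nonneg_left (hC x) (abs_nonneg r)⟩
    · have := (hlim f hf).const_mul r
      refine this.congr fun N => ?_
      exact (avgL_smul N _ r f 0).symm
  · intro f hf hpos
    exact ge_of_tendsto' (hlim f hf) fun N => avgL_nonneg N _ f hpos 0
  · refine huniq _ ⟨1, fun _ => by simp⟩ _ ?_
    refine tendsto_const_nhds.congr fun N => ?_
    exact (avgL_one N _ 0).symm
  · intro f h hf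
    have hsh : Bdd (fun x => f (x + h)) := by
      obtain ⟨C, hC⟩ := hf
      exact ⟨C, fun x => hC _⟩
    refine huniq _ hsh _ ?_
    obtain ⟨C, hC⟩ := hf
    obtain ⟨i, hi⟩ := he h
    have hdiff : Tendsto (fun N => A N (fun x => f (x + h)) - A N f) U (𝓝 0) := by
      have hU : (U : Filter ℕ) ≤ atTop := by
        rw [← Nat.cofinite_eq_atTop]
        exact hyperfilter_le_cofinite
      have h0 : Tendsto (fun N : ℕ => 2 * C / ((N : ℝ) + 1)) U (𝓝 0) := by
        have h1 : Tendsto (fun N : ℕ => 2 * C / ((N : ℝ) + 1)) atTop (𝓝 0) :=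
          tendsto_const_nhds.div_atTop (tendsto_atTop_add_const_right _ _ tendsto_natCast_atTop_atTop)
        exact h1.mono_left hU
      refine squeeze_zero_norm' ?_ h0
      have hge : ∀ᶠ N in (U : Filter ℕ), i < N := (eventually_gt_atTop i).filter_mono hU
      filter_upwards [hge] with N hN
      rw [Real.norm_eq_abs]
      have h1 : A N (fun x => f (x + h)) = avgL N ((List.range N).map e) f (0 + h) :=
        avgL_shift N _ h f 0
      rw [h1]
      refine avgL_near N _ h ?_ f C hC 0
      exact List.mem_map.2 ⟨i, List.mem_range.2 hN, hi⟩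
    have := hdiff.add (hlim f ⟨C, hC⟩)
    rw [zero_add] at this
    refine this.congr fun N => ?_
    ring

end Vale.Agent.P032.T
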