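import Vale.Agent.P032.T.ThDefs

/-!
P032, part S3 of block THMA: Borel-Cantelli for names.
-/

open MeasureTheory Set Filter Topology
open scoped ENNReal

namespace Vale.Agent.P032.T.Th

theorem bc_names {X : Type*} [MeasurableSpace X] (μ : Measure X) (G : Set X)
    {A : ℕ → Type*} (N : ∀ n, X → A n) (T : ∀ n, Finset (A n)) (C κ : ℝ) (hκ : 0 < κ)
    (hC : 0 ≤ C) (hT : ∀ n, ∀ x ∈ G, N n x ∈ T n)
    (hc : ∀ n : ℕ, ((T n).card : ℝ) ≤ C * Real.exp (κ * n)) :
    ∀ᵐ x ∂μ, x ∈ G → ∀ᶠ n : ℕ in atTop,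
      ENNReal.ofReal (Real.exp (-(2 * κ) * n)) ≤ μ (G ∩ N n ⁻¹' {N n x}) := by
  classical
  set bad : ℕ → Set X := fun n => {x | x ∈ G ∧
    μ (G ∩ N n ⁻¹' {N n x}) < ENNReal.ofReal (Real.exp (-(2 * κ) * n))} with hbad
  have hb : ∀ n, μ (bad n) ≤ ENNReal.ofReal (C * Real.exp (-κ * n)) := by
    intro n
    set T' : Finset (A n) := (T n).filter
      (fun α => μ (G ∩ N n ⁻¹' {α}) < ENNReal.ofReal (Real.exp (-(2 * κ) * n))) with hT'
    have h1 : bad n ⊆ ⋃ α ∈ T', G ∩ N n ⁻¹' {α} := by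
      rintro x ⟨hx, hx2⟩
      simp only [mem_iUnion, exists_prop]
      exact ⟨N n x, Finset.mem_filter.2 ⟨hT n x hx, hx2⟩, hx, rfl⟩
    calc μ (bad n) ≤ μ (⋃ α ∈ T', G ∩ N n ⁻¹' {α}) := measure_mono h1
      _ ≤ ∑ α ∈ T', μ (G ∩ N n ⁻¹' {α}) := measure_biUnion_finset_le _ _
      _ ≤ ∑ _α ∈ T', ENNReal.ofReal (Real.exp (-(2 * κ) * n)) :=
          Finset.sum_le_sum fun α hα => (Finset.mem_filter.1 hα).2.le
      _ = T'.card * ENNReal.ofReal (Real.exp (-(2 * κ) * n)) := by
          rw [Finset.sum_const, nsmul_eq_mul]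
      _ ≤ (T n).card * ENNReal.ofReal (Real.exp (-(2 * κ) * n)) := by
          gcongr; exact Finset.filter_subset _ _
      _ = ENNReal.ofReal ((T n).card * Real.exp (-(2 * κ) * n)) := by
          rw [ENNReal.ofReal_mul (by positivity), ENNReal.ofReal_natCast]
      _ ≤ ENNReal.ofReal (C * Real.exp (-κ * n)) := by
          apply ENNReal.ofReal_le_ofReal
          calc ((T n).card : ℝ) * Real.exp (-(2 * κ) * n)
              ≤ C * Real.exp (κ * n) * Real.exp (-(2 * κ) * n) := by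
                gcongr; exact hc n
            _ = C * Real.exp (-κ * n) := by
                rw [mul_assoc, ← Real.exp_add]; ring_nf
  have hsum : ∑' n, μ (bad n) ≠ ∞ := by
    refine ne_top_of_le_ne_top ?_ (ENNReal.tsum_le_tsum hb)
    have hs : Summable (fun n : ℕ => C * Real.exp (-κ * n)) := by
      apply Summable.mul_left
      have h2 := Real.summable_exp_nat_mul_iff (a := -κ)
      have h3 : Summable (fun n : ℕ => Real.exp (n * -κ)) := h2.2 (by linarith)
      refine h3.congr fun n => ?_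
      rw [mul_comm]
    rw [← ENNReal.ofReal_tsum_of_nonneg (fun n => by positivity) hs]
    exact ENNReal.ofReal_ne_top
  have h2 := ae_eventually_notMem hsum
  filter_upwards [h2] with x hx hxG
  filter_upwards [hx] with n hn
  by_contra h
  exact hn ⟨hxG, not_le.1 h⟩

end Vale.Agent.P032.T.Th

namespace Vale.Agent.P032.T

theorem bc : BCStmt := by
  intro X _ μ _ A N G S C _ _ hS hc
  have hC : 0 ≤ C := by
    have h0 := hc 0
    have h1 : (0 : ℝ) ≤ ((S 0).card : ℝ) := by positivity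
    simpa using h1.trans h0
  have h := Th.bc_names μ G N S C (1 / 40) (by norm_num) hC hS hc
  have e : (-(2 * (1 / 40 : ℝ))) = -(1 / 20) := by norm_num
  rw [e] at h
  exact h

end Vale.Agent.P032.T
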