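import Vale.Agent.P032.T.Defs

/-!
P032 transfer, block THMA part 1: general lemmas (labels, approximation, uniform continuity,
counting of names).
-/

open MeasureTheory Set Filter Topology
open scoped ENNReal

namespace Vale.Agent.P032.T

/-- Measurable selection of a good index. -/
theorem exists_pick' {X : Type*} [MeasurableSpace X] {k : ℕ} (hk : 0 < k) (G : Fin k → Set X)
    (hG : ∀ j, MeasurableSet (G j)) :
    ∃ f : X → Fin k, Measurable f ∧ ∀ x, (∃ j, x ∈ G j) → x ∈ G (f x) := by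
  classical
  let p : ℕ → X → Prop := fun n x => (∃ hn : n < k, x ∈ G ⟨n, hn⟩) ∨ (∀ j, x ∉ G j)
  let g : ℕ → X → Fin k := fun n _ => if hn : n < k then ⟨n, hn⟩ else ⟨0, hk⟩
  have hp : ∀ x, ∃ n, p n x := by
    intro x
    by_cases h : ∃ j, x ∈ G j
    · obtain ⟨j, hj⟩ := h
      exact ⟨j, Or.inl ⟨j.2, hj⟩⟩
    · push Not at h
      exact ⟨0, Or.inr h⟩
  refine ⟨fun x => g (Nat.find (hp x)) x, ?_, ?_⟩
  · apply Measurable.find
    · intro n; exact measurable_const
    · intro n
      by_cases hn : n < k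
      · have : {x | p n x} = G ⟨n, hn⟩ ∪ ⋂ j, (G j)ᶜ := by
          ext x; simp [p, hn]
        rw [this]
        exact (hG _).union (MeasurableSet.iInter fun j => (hG j).compl)
      · have : {x | p n x} = ⋂ j, (G j)ᶜ := by
          ext x; simp [p, hn]
        rw [this]
        exact MeasurableSet.iInter fun j => (hG j).compl
  · rintro x ⟨j, hj⟩
    have hs := Nat.find_spec (hp x)
    rcases hs with ⟨hn, hx⟩ | h
    · simp only [g, hn, dif_pos]; exact hx
    · exact absurd hj (h j)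

/-- finite measurable labelling of the circle by small pieces -/
theorem exists_label {r : ℝ} (hr : 0 < r) : ∃ (K : ℕ) (lab : Circle → Fin K), Measurable lab ∧
    ∀ z w, lab z = lab w → dist z w < r := by
  classical
  obtain ⟨t, -, htf, ht⟩ := finite_cover_balls_of_compact (isCompact_univ (X := Circle))
    (half_pos hr)
  have hne : t.Nonempty := by
    by_contra h
    rw [not_nonempty_iff_eq_empty] at h
    rw [h] at ht
    have := ht (mem_univ (1 : Circle))
    simp at this
  let T := htf.toFinset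
  have hT : 0 < T.card := by
    rw [Finset.card_pos]
    obtain ⟨x, hx⟩ := hne
    exact ⟨x, htf.mem_toFinset.2 hx⟩
  let c : Fin T.card → Circle := fun i => (T.equivFin.symm i : Circle)
  obtain ⟨f, hf, hfG⟩ := exists_pick' hT (fun i => Metric.ball (c i) (r / 2))
    (fun i => Metric.isOpen_ball.measurableSet)
  refine ⟨T.card, f, hf, fun z w hzw => ?_⟩
  have key : ∀ z : Circle, ∃ j, z ∈ Metric.ball (c j) (r / 2) := by
    intro z
    obtain ⟨x, hx, hz⟩ := mem_iUnion₂.1 (ht (mem_univ z))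
    refine ⟨T.equivFin ⟨x, htf.mem_toFinset.2 hx⟩, ?_⟩
    simpa [c] using hz
  have h1 := hfG z (key z)
  have h2 := hfG w (key w)
  rw [hzw] at h1
  rw [Metric.mem_ball] at h1 h2
  calc dist z w ≤ dist z (c (f w)) + dist w (c (f w)) := dist_triangle_right _ _ _
    _ < r := by linarith

/-- uniform continuity on the product of circles -/
theorem exists_unif {Γ : Type*} {Φ : (Γ → Circle) → ℂ} (hΦ : Continuous Φ) {η : ℝ} (hη : 0 < η) :
    ∃ (s : Finset Γ) (r : ℝ), 0 < r ∧ ∀ χ χ' : Γ → Circle, (∀ y ∈ s, dist (χ y) (χ' y) < r) →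
      dist (Φ χ) (Φ χ') < η := by
  classical
  have h1 := CompactSpace.uniformContinuous_of_continuous hΦ
  have h2 : {p : (Γ → Circle) × (Γ → Circle) | dist (Φ p.1) (Φ p.2) < η} ∈
      uniformity (Γ → Circle) := h1 (Metric.dist_mem_uniformity hη)
  rw [Pi.uniformity, Filter.mem_iInf'] at h2
  obtain ⟨I, hI, V, hV, -, hUV, -⟩ := h2
  have h3 : ∀ i, ∃ r : ℝ, 0 < r ∧ ∀ χ χ' : Γ → Circle, dist (χ i) (χ' i) < r → (χ, χ') ∈ V i := by
    intro i
    obtain ⟨W, hW, hWV⟩ := Filter.mem_comap.1 (hV i)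
    obtain ⟨r, hr, h⟩ := Metric.mem_uniformity_dist.1 hW
    exact ⟨r, hr, fun χ χ' hd => hWV (h hd)⟩
  choose r hr hrV using h3
  obtain ⟨r0, hr0, hle⟩ : ∃ r0 : ℝ, 0 < r0 ∧ ∀ i ∈ hI.toFinset, r0 ≤ r i := by
    by_cases hne : hI.toFinset.Nonempty
    · refine ⟨hI.toFinset.inf' hne r, ?_, fun i hi => Finset.inf'_le _ hi⟩
      rw [Finset.lt_inf'_iff]
      exact fun i _ => hr i
    · exact ⟨1, one_pos, fun i hi => absurd ⟨i, hi⟩ hne⟩
  refine ⟨hI.toFinset, r0, hr0, fun χ χ' h => ?_⟩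
  have : (χ, χ') ∈ {p : (Γ → Circle) × (Γ → Circle) | dist (Φ p.1) (Φ p.2) < η} := by
    rw [hUV]
    refine mem_iInter₂.2 fun i hi => ?_
    have hi' := hI.mem_toFinset.2 hi
    exact hrV i χ χ' ((h i hi').trans_le (hle i hi'))
  exact this

theorem measurable_coeC : Measurable (fun z : Circle => (z : ℂ)) := by
  have : Continuous (fun z : Circle => (z : ℂ)) := continuous_subtype_val
  exact this.measurable

/-- approximation of a Borel function by a continuous one, in measure -/
theorem exists_cont {Γ : Type*} [Countable Γ] (μ : Measure (Γ → Circle)) [IsFiniteMeasure μ]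
    {F : (Γ → Circle) → Circle} (hF : Measurable F) {η ε : ℝ} (hη : 0 < η) (hε : 0 < ε) :
    ∃ Φ : (Γ → Circle) → ℂ, Continuous Φ ∧
      μ {χ | η ≤ dist ((F χ : Circle) : ℂ) (Φ χ)} ≤ ENNReal.ofReal ε := by
  let f : (Γ → Circle) → ℂ := fun χ => ((F χ : Circle) : ℂ)
  have hfm : Measurable f := measurable_coeC.comp hF
  have hf : MemLp f 1 μ := by
    refine MemLp.of_bound hfm.aestronglyMeasurable 1 (Eventually.of_forall fun χ => ?_)
    exact (Circle.norm_coe (F χ)).le
  obtain ⟨g, hg, hg'⟩ := hf.exists_boundedContinuous_eLpNorm_sub_le (by simp)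
    (ε := ENNReal.ofReal (ε * η)) (by simp; positivity)
  refine ⟨g, g.continuous, ?_⟩
  have h1 : eLpNorm (f - ⇑g) 1 μ = ∫⁻ χ, ‖f χ - g χ‖ₑ ∂μ := by
    rw [eLpNorm_one_eq_lintegral_enorm]; rfl
  rw [h1] at hg
  have h2 : Measurable (fun χ => ‖f χ - g χ‖ₑ) := (hfm.sub g.continuous.measurable).enorm
  have h3 := mul_meas_ge_le_lintegral (μ := μ) h2 (ENNReal.ofReal η)
  have h4 : {χ | η ≤ dist ((F χ : Circle) : ℂ) (g χ)} ⊆ {χ | ENNReal.ofReal η ≤ ‖f χ - g χ‖ₑ} := by
    intro χ hχ
    have hχ' : η ≤ dist (f χ) (g χ) := hχ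
    show ENNReal.ofReal η ≤ ‖f χ - g χ‖ₑ
    rw [← ofReal_norm, ← dist_eq_norm]
    exact ENNReal.ofReal_le_ofReal hχ'
  have hη0 : ENNReal.ofReal η ≠ 0 := by simp [hη]
  refine (measure_mono h4).trans ?_
  have h5 := h3.trans hg
  rw [mul_comm ε η, ENNReal.ofReal_mul hη.le] at h5
  exact (ENNReal.mul_le_mul_iff_right hη0 ENNReal.ofReal_ne_top).1 h5

/-- counting of names with few labels -/
theorem count_names (K : ℕ) {κ : ℝ} (hκ : 0 < κ) : ∃ θ : ℝ, 0 < θ ∧ ∀ n : ℕ,
    ((Finset.univ.filter (fun ν : Fin n → Option (Fin K) =>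
      ((Finset.univ.filter (fun j => ν j ≠ none)).card : ℝ) ≤ θ * n)).card : ℝ) ≤
      Real.exp (κ * n) := by
  classical
  -- weight
  obtain ⟨x, hx0, hx1, hxK⟩ : ∃ x : ℝ, 0 < x ∧ x < 1 ∧ 1 + K * x ≤ Real.exp (κ / 2) := by
    have h1 : 0 < Real.exp (κ / 2) - 1 := by
      have := Real.add_one_lt_exp (x := κ / 2) (by positivity)
      have h2 : 0 < κ / 2 := by positivity
      linarith
    refine ⟨min (1 / 2) ((Real.exp (κ / 2) - 1) / (K + 1)), ?_, ?_, ?_⟩
    · apply lt_min (by norm_num); positivity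
    · exact (min_le_left _ _).trans_lt (by norm_num)
    · have h2 : min (1 / 2) ((Real.exp (κ / 2) - 1) / (K + 1)) ≤ (Real.exp (κ / 2) - 1) / (K + 1) :=
        min_le_right _ _
      have h3 : (K : ℝ) * min (1 / 2) ((Real.exp (κ / 2) - 1) / (K + 1)) ≤
          (K : ℝ) * ((Real.exp (κ / 2) - 1) / (K + 1)) := by gcongr
      have h4 : (K : ℝ) * ((Real.exp (κ / 2) - 1) / (K + 1)) ≤ Real.exp (κ / 2) - 1 := by
        rw [mul_div_assoc', div_le_iff₀ (by positivity)]
        nlinarith
      linarith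
  have hlog : Real.log x < 0 := Real.log_neg hx0 hx1
  let θ : ℝ := (κ / 2) / (- Real.log x)
  have hθ : 0 < θ := div_pos (by positivity) (by linarith)
  refine ⟨θ, hθ, fun n => ?_⟩
  let wt : Option (Fin K) → ℝ := fun s => if s = none then 1 else x
  have hwt : ∑ s : Option (Fin K), wt s = 1 + K * x := by
    rw [Fintype.sum_option]
    simp [wt]
  have hsum : ∑ ν : Fin n → Option (Fin K), ∏ j, wt (ν j) = (1 + K * x) ^ n := by
    have := Finset.prod_univ_sum (ι := Fin n) (fun _ => (Finset.univ : Finset (Option (Fin K))))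
      (fun _ s => wt s)
    rw [Fintype.piFinset_univ] at this
    rw [← this, Finset.prod_const, hwt]
    simp
  have hprod : ∀ ν : Fin n → Option (Fin K), ∏ j, wt (ν j) =
      x ^ (Finset.univ.filter (fun j => ν j ≠ none)).card := by
    intro ν
    rw [← Finset.prod_const, Finset.prod_filter]
    refine Finset.prod_congr rfl fun j _ => ?_
    by_cases h : ν j = none <;> simp [wt, h]
  have hge : ∀ ν ∈ (Finset.univ.filter (fun ν : Fin n → Option (Fin K) =>
      ((Finset.univ.filter (fun j => ν j ≠ none)).card : ℝ) ≤ θ * n)),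
      Real.exp (- (κ / 2 * n)) ≤ ∏ j, wt (ν j) := by
    intro ν hν
    have hν' := (Finset.mem_filter.1 hν).2
    rw [hprod]
    have h1 : x ^ (Finset.univ.filter (fun j => ν j ≠ none)).card =
        Real.exp (Real.log x * ((Finset.univ.filter (fun j => ν j ≠ none)).card : ℝ)) := by
      rw [mul_comm, ← Real.log_pow, Real.exp_log (by positivity)]
    rw [h1]
    apply Real.exp_le_exp.2
    have h2 : Real.log x * (θ * n) ≤
        Real.log x * ((Finset.univ.filter (fun j => ν j ≠ none)).card : ℝ) :=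
      mul_le_mul_of_nonpos_left hν' hlog.le
    have h3 : Real.log x * (θ * n) = - (κ / 2 * n) := by
      simp only [θ]
      have hne : Real.log x ≠ 0 := hlog.ne
      field_simp
    linarith
  have h4 : ((Finset.univ.filter (fun ν : Fin n → Option (Fin K) =>
      ((Finset.univ.filter (fun j => ν j ≠ none)).card : ℝ) ≤ θ * n)).card : ℝ) *
      Real.exp (- (κ / 2 * n)) ≤ (1 + K * x) ^ n := by
    rw [← hsum, ← nsmul_eq_mul, ← Finset.sum_const]
    refine (Finset.sum_le_sum hge).trans ?_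
    refine Finset.sum_le_sum_of_subset_of_nonneg (Finset.filter_subset _ _) fun ν _ _ => ?_
    rw [hprod]; positivity
  have h5 : (1 + K * x) ^ n ≤ Real.exp (κ / 2 * n) := by
    calc (1 + K * x) ^ n ≤ (Real.exp (κ / 2)) ^ n := by gcongr
      _ = Real.exp (κ / 2 * n) := by rw [← Real.exp_nat_mul]; ring_nf
  have h6 : Real.exp (κ * n) = Real.exp (κ / 2 * n) * Real.exp (κ / 2 * n) := by
    rw [← Real.exp_add]; ring_nf
  have h7 : Real.exp (- (κ / 2 * n)) * Real.exp (κ / 2 * n) = 1 := by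
    rw [← Real.exp_add]; simp
  calc _ = ((Finset.univ.filter (fun ν : Fin n → Option (Fin K) =>
        ((Finset.univ.filter (fun j => ν j ≠ none)).card : ℝ) ≤ θ * n)).card : ℝ) *
        (Real.exp (- (κ / 2 * n)) * Real.exp (κ / 2 * n)) := by rw [h7, mul_one]
    _ = (((Finset.univ.filter (fun ν : Fin n → Option (Fin K) =>
        ((Finset.univ.filter (fun j => ν j ≠ none)).card : ℝ) ≤ θ * n)).card : ℝ) *
        Real.exp (- (κ / 2 * n))) * Real.exp (κ / 2 * n) := by ring
    _ ≤ Real.exp (κ / 2 * n) * Real.exp (κ / 2 * n) := by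
        gcongr
        exact h4.trans h5
    _ = Real.exp (κ * n) := h6.symm

end Vale.Agent.P032.T
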